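import Vale.Agent.P330.Q.TestF2

/-!
# Functional module: external slots, absorbed and regrouped kernels

The kernels of the functional module have slots which read a component of the own base (`inl e`) or
an external stream (`inr d`).  For fixed external words the external slots are absorbed into the
kernel (`absK`, `absorb`).  If the external words are sums of components of the own base
(`own d e`) then the kernels are regrouped (`regK`, `regroup`).  In both cases one gets ordinary
kernels, and the chains, the identities and the defects are the same.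
-/

namespace Vale.Agent.P330.FM

open Finset
open Vale.Agent.P330.Q
open Vale.Agent.P318.S (PolyLe)
open scoped BigOperators

/-! ### Slots -/

section slots

variable {F : Type*} [Field F] {Cell Ext : Type*}

/-- The component which is read by a slot. -/
def cellOf : Option (Cell ⊕ Ext) → Option Cell
  | some (.inl e) => some e
  | _ => none

/-- The factor of an external slot. -/
def extv (x : Ext → F) : Option (Cell ⊕ Ext) → F
  | some (.inr d) => x d
  | _ => 1

/-- The slot `o` is obtained from the slot `g` if the external word `d` is replaced by one of the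
components `e` with `own d e`. -/
def slotSub (own : Ext → Cell → Bool) : Option (Cell ⊕ Ext) → Option Cell → Prop
  | none, none => True
  | some (.inl e), some e' => e = e'
  | some (.inr d), some e => own d e = true
  | _, _ => False

theorem optv_cellOf (w : Cell → F) (x : Ext → F) (g : Option (Cell ⊕ Ext)) :
    optv w (cellOf g) * extv x g = optv (Sum.elim w x) g := by
  rcases g with _ | e | d
  · simp [cellOf, extv, optv]
  · simp [cellOf, extv, optv]
  · simp [cellOf, extv, optv]

open Classical in
theorem sum_slotSub [Fintype Cell] (own : Ext → Cell → Bool) (w : Cell → F)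
    (g : Option (Cell ⊕ Ext)) :
    (∑ o : Option Cell, if slotSub own g o then optv w o else 0) =
      optv (Sum.elim w fun d => ∑ e, if own d e then w e else 0) g := by
  rw [Fintype.sum_option]
  rcases g with _ | e | d
  · have h1 : slotSub own (none : Option (Cell ⊕ Ext)) none := trivial
    have h2 : ∀ e, ¬ slotSub own (none : Option (Cell ⊕ Ext)) (some e) := fun e h => h
    rw [if_pos h1, Finset.sum_eq_zero fun e _ => if_neg (h2 e)]
    simp [optv]
  · have h1 : ¬ slotSub own (some (.inl e) : Option (Cell ⊕ Ext)) none := fun h => h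
    have h2 : ∀ e', slotSub own (some (.inl e) : Option (Cell ⊕ Ext)) (some e') ↔ e = e' :=
      fun e' => Iff.rfl
    rw [if_neg h1, zero_add, Finset.sum_eq_single e]
    · rw [if_pos ((h2 e).2 rfl)]
      rfl
    · intro e' _ he'
      rw [if_neg fun h => he' ((h2 e').1 h).symm]
    · intro hh
      exact absurd (mem_univ _) hh
  · have h1 : ¬ slotSub own (some (.inr d) : Option (Cell ⊕ Ext)) none := fun h => h
    have h2 : ∀ e', slotSub own (some (.inr d) : Option (Cell ⊕ Ext)) (some e') ↔
      own d e' = true := fun e' => Iff.rfl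
    rw [if_neg h1, zero_add]
    refine Finset.sum_congr rfl fun e _ => ?_
    by_cases he : own d e = true
    · rw [if_pos ((h2 e).2 he), if_pos he]
      rfl
    · rw [if_neg fun h => he ((h2 e).1 h), if_neg he]

end slots

/-! ### Kernels at a point -/

section pointwise

variable {F : Type*} [Field F] {B : ℕ} {Cell V Ext : Type*} [Fintype Cell] [Fintype Ext]

open Classical in
/-- The kernel with absorbed external slots: `x d t` is the value of the external word `d` at the
slot `t`. -/
noncomputable def absK (k : Chn Cell V → (Fin B → Option (Cell ⊕ Ext)) → F)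
    (x : Ext → Fin B → F) (c : Chn Cell V) (γ : Fin B → Option Cell) : F :=
  ∑ g : Fin B → Option (Cell ⊕ Ext),
    if (fun t => cellOf (g t)) = γ then k c g * ∏ t, extv (fun d => x d t) (g t) else 0

open Classical in
/-- The regrouped kernel: the external word `d` is the sum of the components `e` with `own d e`. -/
noncomputable def regK (own : Ext → Cell → Bool)
    (k : Chn Cell V → (Fin B → Option (Cell ⊕ Ext)) → F) (c : Chn Cell V)
    (γ : Fin B → Option Cell) : F :=
  ∑ g : Fin B → Option (Cell ⊕ Ext), if ∀ t, slotSub own (g t) (γ t) then k c g else 0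

/-- The sum over all slots, with the values `w t e` of the components and `x d t` of the external
words. -/
def sumE (k : Chn Cell V → (Fin B → Option (Cell ⊕ Ext)) → F) (x : Ext → Fin B → F)
    (w : Fin B → Cell → F) (c : Chn Cell V) : F :=
  ∑ g : Fin B → Option (Cell ⊕ Ext), k c g * ∏ t, optv (Sum.elim (w t) fun d => x d t) (g t)

theorem sum_absK (k : Chn Cell V → (Fin B → Option (Cell ⊕ Ext)) → F)
    (x : Ext → Fin B → F) (w : Fin B → Cell → F) (c : Chn Cell V) :
    ∑ γ : Fin B → Option Cell, absK k x c γ * ∏ t, optv (w t) (γ t) = sumE k x w c := by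
  classical
  unfold absK sumE
  simp only [Finset.sum_mul]
  rw [Finset.sum_comm]
  refine Finset.sum_congr rfl fun g _ => ?_
  rw [Finset.sum_eq_single fun t => cellOf (g t)]
  · rw [if_pos rfl, mul_assoc, ← Finset.prod_mul_distrib]
    congr 1
    refine Finset.prod_congr rfl fun t _ => ?_
    rw [mul_comm, optv_cellOf]
  · intro γ _ hγ
    rw [if_neg (Ne.symm hγ), zero_mul]
  · intro hh
    exact absurd (mem_univ _) hh

theorem sum_regK (own : Ext → Cell → Bool)
    (k : Chn Cell V → (Fin B → Option (Cell ⊕ Ext)) → F) (w : Fin B → Cell → F)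
    (c : Chn Cell V) :
    ∑ γ : Fin B → Option Cell, regK own k c γ * ∏ t, optv (w t) (γ t) =
      sumE k (fun d t => ∑ e, if own d e then w t e else 0) w c := by
  classical
  unfold regK sumE
  simp only [Finset.sum_mul]
  rw [Finset.sum_comm]
  refine Finset.sum_congr rfl fun g _ => ?_
  have h1 : ∀ γ : Fin B → Option Cell,
      (if ∀ t, slotSub own (g t) (γ t) then k c g else 0) * ∏ t, optv (w t) (γ t) =
        k c g * ∏ t, if slotSub own (g t) (γ t) then optv (w t) (γ t) else 0 := by
    intro γ
    rw [Finset.prod_ite_zero]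
    simp only [mem_univ, forall_true_left]
    split_ifs <;> simp
  rw [Finset.sum_congr rfl fun γ _ => h1 γ, ← Finset.mul_sum]
  congr 1
  have h2 := Finset.prod_univ_sum (fun _ : Fin B => (univ : Finset (Option Cell)))
    (fun t o => if slotSub own (g t) o then optv (w t) o else (0 : F))
  rw [Fintype.piFinset_univ] at h2
  refine h2.symm.trans ?_
  refine Finset.prod_congr rfl fun t _ => ?_
  exact sum_slotSub own (w t) (g t)

end pointwise

/-! ### Kernels on the domain -/

section domain

variable {F : Type*} [Field F] {h B : ℕ} {Y Cell V Ext X : Type*} [AddCommGroup Y]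
  [Fintype Cell] [DecidableEq Cell] [Fintype Ext]

/-- The kernels with the external words `S` absorbed. -/
noncomputable def absorb (K : Chn Cell V → (Fin B → Option (Cell ⊕ Ext)) → Y → Y → F)
    (sh : Fin B → (Y ≃ Y)) (S : Ext → Y → F) (c : Chn Cell V) (γ : Fin B → Option Cell)
    (ρ y : Y) : F :=
  absK (fun c g => K c g ρ y) (fun d t => S d (sh t y)) c γ

/-- The regrouped kernels. -/
noncomputable def regroup (own : Ext → Cell → Bool)
    (K : Chn Cell V → (Fin B → Option (Cell ⊕ Ext)) → Y → Y → F) (c : Chn Cell V)
    (γ : Fin B → Option Cell) (ρ y : Y) : F :=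
  regK own (fun c g => K c g ρ y) c γ

/-- The own words. -/
def ownW (own : Ext → Cell → Bool) (w : Cell → F) (d : Ext) : F := ∑ e, if own d e then w e else 0

omit [DecidableEq Cell] [Fintype Ext] in
/-- The own words do not see components which are not in `own`. -/
theorem ownW_congr {own : Ext → Cell → Bool} {w w' : Cell → F} {d : Ext}
    (hw : ∀ e, own d e = true → w e = w' e) : ownW own w d = ownW own w' d := by
  unfold ownW
  refine Finset.sum_congr rfl fun e _ => ?_
  split_ifs with he
  · exact hw e he
  · rfl

/-- The data `M` with other kernels. -/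
def setK (M : DomData F h B Y Cell V X) (K : Chn Cell V → (Fin B → Option Cell) → Y → Y → F) :
    DomData F h B Y Cell V X := { M with K := K }

variable (M : DomData F h B Y Cell V X)
  {K : Chn Cell V → (Fin B → Option (Cell ⊕ Ext)) → Y → Y → F}

/-- The first sum with absorbed external words. -/
theorem v0_absorb (S : Ext → Y → F) (c : Chn Cell V) (W : Cell → Y → F) (ρ y : Y) :
    (setK M (absorb K M.sh S)).v0 c W ρ y =
      sumE (fun c g => K c g ρ y) (fun d t => S d (M.sh t y)) (fun t e => W e (M.sh t y)) c :=
  sum_absK (fun c g => K c g ρ y) (fun d t => S d (M.sh t y)) (fun t e => W e (M.sh t y)) c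

/-- The first sum with regrouped kernels. -/
theorem v0_regroup (own : Ext → Cell → Bool) (c : Chn Cell V) (W : Cell → Y → F) (ρ y : Y) :
    (setK M (regroup own K)).v0 c W ρ y =
      sumE (fun c g => K c g ρ y) (fun d t => ownW own (fun e => W e (M.sh t y)) d)
        (fun t e => W e (M.sh t y)) c :=
  sum_regK own (fun c g => K c g ρ y) (fun t e => W e (M.sh t y)) c

/-- The chains with absorbed external words and with regrouped kernels agree over a base whose own
words are the external words. -/
theorem vv_absorb_eq {own : Ext → Cell → Bool} {S : Ext → Y → F} {W : Cell → Y → F}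
    (hS : ∀ d y, ownW own (fun e => W e y) d = S d y) (c : Chn Cell V) (n : ℕ) :
    (setK M (absorb K M.sh S)).vv c W n = (setK M (regroup own K)).vv c W n := by
  induction n with
  | zero =>
    funext ρ y
    show (setK M (absorb K M.sh S)).v0 c W ρ y = (setK M (regroup own K)).v0 c W ρ y
    rw [v0_absorb, v0_regroup]
    simp only [hS]
  | succ n ih =>
    funext ρ y
    show (setK M (absorb K M.sh S)).vv c W n ρ (M.θ y) +
        (setK M (absorb K M.sh S)).vv c W n ρ (M.θ y + M.e0) = _
    rw [ih]
    rfl

/-- The bottom entry, read from a word, with absorbed external words. -/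
theorem rv0_absorb (S : Ext → Y → F) (G : Y × Y → Comp Cell V h → F) (σ : Bool)
    (c : Chn Cell V) (p : Y × Y) :
    (setK M (absorb K M.sh S)).rv0 G σ c p =
      sumE (fun c g => K c g p.1 p.2) (fun d t => S d (M.sh t p.2))
        (fun t e => G (p.1, M.sh t p.2) (.W σ e)) c :=
  sum_absK (fun c g => K c g p.1 p.2) (fun d t => S d (M.sh t p.2))
    (fun t e => G (p.1, M.sh t p.2) (.W σ e)) c

/-- The bottom entry, read from a word, with regrouped kernels. -/
theorem rv0_regroup (own : Ext → Cell → Bool) (G : Y × Y → Comp Cell V h → F) (σ : Bool)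
    (c : Chn Cell V) (p : Y × Y) :
    (setK M (regroup own K)).rv0 G σ c p =
      sumE (fun c g => K c g p.1 p.2)
        (fun d t => ownW own (fun e => G (p.1, M.sh t p.2) (.W σ e)) d)
        (fun t e => G (p.1, M.sh t p.2) (.W σ e)) c :=
  sum_regK own (fun c g => K c g p.1 p.2) (fun t e => G (p.1, M.sh t p.2) (.W σ e)) c

/-- **The identities do not change.** -/
theorem ids_absorb_iff {own : Ext → Cell → Bool} {S : Ext → Y → F}
    {G : Y × Y → Comp Cell V h → F}
    (hS : ∀ σ d ρ y, ownW own (fun e => G (ρ, y) (.W σ e)) d = S d y) :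
    (setK M (absorb K M.sh S)).Ids G ↔ (setK M (regroup own K)).Ids G := by
  have h1 : ∀ σ c p, (setK M (absorb K M.sh S)).rv0 G σ c p =
      (setK M (regroup own K)).rv0 G σ c p := by
    intro σ c p
    rw [rv0_absorb, rv0_regroup]
    simp only [hS]
  constructor
  · intro hG
    exact ⟨hG.rel_const, hG.rel_sq, hG.T_const, hG.T_mul, hG.W_ind,
      fun ρ y σ c j => by rw [← h1]; exact hG.stack ρ y σ c j, hG.some_full, hG.full_val,
      hG.full_id, hG.full_other⟩
  · intro hG
    exact ⟨hG.rel_const, hG.rel_sq, hG.T_const, hG.T_mul, hG.W_ind,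
      fun ρ y σ c j => by rw [h1]; exact hG.stack ρ y σ c j, hG.some_full, hG.full_val,
      hG.full_id, hG.full_other⟩

/-! ### Degrees -/

section deg

variable {M} {ι : Type*} {ρ : ι → F →+ Y} {t : ℕ}

/-- The absorbed kernels have low degree. -/
theorem absorb_low (msh : Fin B → Move ρ) (msh_g : ∀ s, (msh s).g = M.sh s)
    {dK : ℕ} (hK : ∀ c g ρ₀ y i j, PolyLe F (fun u => K c g (ρ₀ + ρ i u) (y + ρ j u)) dK)
    {S : Ext → Y → F} (hS : ∀ d y j, PolyLe F (fun u => S d (y + ρ j u)) t)
    (c : Chn Cell V) (γ : Fin B → Option Cell) (ρ₀ y : Y) (i j : ι) :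
    PolyLe F (fun u => absorb K M.sh S c γ (ρ₀ + ρ i u) (y + ρ j u)) (dK + B * t) := by
  classical
  unfold absorb absK
  refine PolyLe.sum _ fun g _ => ?_
  split_ifs
  · refine (hK c g ρ₀ y i j).mul ?_
    have h1 : PolyLe F (fun u => ∏ s : Fin B, extv (fun d => S d (M.sh s (y + ρ j u))) (g s))
        (∑ _s : Fin B, t) := by
      refine PolyLe.prod _ fun s _ => ?_
      rcases g s with _ | e | d
      · exact PolyLe.const (1 : F) t
      · exact PolyLe.const (1 : F) t
      · refine (hS d (M.sh s y) ((msh s).act j)).congr fun u => ?_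
        have := (msh s).line y j u
        rw [msh_g] at this
        show S d (M.sh s (y + ρ j u)) = _
        rw [this]
    refine h1.mono (le_of_eq ?_)
    rw [sum_const, card_univ, Fintype.card_fin, smul_eq_mul]
  · exact PolyLe.zero _

omit [DecidableEq Cell] [AddCommGroup Y] in
/-- The regrouped kernels have low degree. -/
theorem regroup_low [AddCommGroup Y] {own : Ext → Cell → Bool} {dK : ℕ} {ρ : ι → F →+ Y}
    (hK : ∀ c g ρ₀ y i j, PolyLe F (fun u => K c g (ρ₀ + ρ i u) (y + ρ j u)) dK)
    (c : Chn Cell V) (γ : Fin B → Option Cell) (ρ₀ y : Y) (i j : ι) :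
    PolyLe F (fun u => regroup own K c γ (ρ₀ + ρ i u) (y + ρ j u)) dK := by
  classical
  unfold regroup regK
  refine PolyLe.sum _ fun g _ => ?_
  split_ifs
  · exact hK c g ρ₀ y i j
  · exact PolyLe.zero _

/-- Degree data, for the kernels with absorbed external words. -/
def DegData.absorb (H : DegData M ρ t) {dK t' : ℕ}
    (hK : ∀ c g ρ₀ y i j, PolyLe F (fun u => K c g (ρ₀ + ρ i u) (y + ρ j u)) dK)
    {S : Ext → Y → F} (hS : ∀ d y j, PolyLe F (fun u => S d (y + ρ j u)) t)
    (ht : t ≤ t') (hd : dK + B * t ≤ 2 * t') :
    DegData (setK M (FM.absorb K M.sh S)) ρ t' where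
  mθ := H.mθ
  mθ_g := H.mθ_g
  msh := H.msh
  msh_g := H.msh_g
  K_low c γ ρ₀ y i j := (absorb_low H.msh H.msh_g hK hS c γ ρ₀ y i j).mono hd
  cd_low w e y j := (H.cd_low w e y j).mono ht

/-- Degree data, for the regrouped kernels. -/
def DegData.regroup (H : DegData M ρ t) {dK t' : ℕ} (own : Ext → Cell → Bool)
    (hK : ∀ c g ρ₀ y i j, PolyLe F (fun u => K c g (ρ₀ + ρ i u) (y + ρ j u)) dK)
    (ht : t ≤ t') (hd : dK ≤ 2 * t') :
    DegData (setK M (FM.regroup own K)) ρ t' where
  mθ := H.mθ
  mθ_g := H.mθ_g
  msh := H.msh
  msh_g := H.msh_g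
  K_low c γ ρ₀ y i j := (regroup_low hK c γ ρ₀ y i j).mono hd
  cd_low w e y j := (H.cd_low w e y j).mono ht

end deg

end domain

end Vale.Agent.P330.FM
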