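import Vale.Agent.P330.FM.Mods

/-!
# Copies of the core in a module

`call_obeys`: a copy of the core in a module obeys the core network. `cst_clean`: the constant
streams. `step_sound`: soundness of the module `step`.
-/

namespace Vale.Agent.P330.FM

open Finset PCP.AR
open H855 (mean)
open S (BitDef MDef Sem IsB)
open H551 (ODef Mod)

/-! ### Probabilities -/

theorem prm_exists {Ω ι : Type*} [Fintype Ω] [Fintype ι] {p : ι → Ω → Prop} {c : ℝ}
    (h : ∀ i, pr (p i) ≤ c) : pr (fun ω => ∃ i, p i ω) ≤ Fintype.card ι * c := by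
  classical
  have h1 : ∀ s : Finset ι, pr (fun ω => ∃ i ∈ s, p i ω) ≤ s.card * c := by
    intro s
    induction s using Finset.induction_on with
    | empty =>
      have : pr (fun ω : Ω => ∃ i ∈ (∅ : Finset ι), p i ω) = 0 :=
        (pr_congr fun ω => by simp).trans pr_false
      rw [this]
      simp
    | insert a s ha ih =>
      have h2 : pr (fun ω => ∃ i ∈ insert a s, p i ω) ≤ pr (p a) + pr (fun ω => ∃ i ∈ s, p i ω) := by
        refine le_trans (pr_mono fun ω hω => ?_) (pr_or _ _)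
        obtain ⟨i, hi, hp⟩ := hω
        rcases Finset.mem_insert.1 hi with rfl | hi
        · exact .inl hp
        · exact .inr ⟨i, hi, hp⟩
      rw [Finset.card_insert_of_notMem ha]
      push_cast
      linarith [h a]
  refine (pr_mono fun ω hω => ?_).trans (h1 univ)
  obtain ⟨i, hi⟩ := hω
  exact ⟨i, mem_univ i, hi⟩

theorem prm2 {Ω : Type*} [Fintype Ω] {p q r : Ω → Prop} {a b : ℝ} (ha : pr p ≤ a)
    (hb : pr q ≤ b) (h : ∀ ω, r ω → p ω ∨ q ω) : pr r ≤ a + b :=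
  (pr_mono h).trans ((pr_or _ _).trans (add_le_add ha hb))

theorem prm3 {Ω : Type*} [Fintype Ω] {p q s r : Ω → Prop} {a b c : ℝ} (ha : pr p ≤ a)
    (hb : pr q ≤ b) (hc : pr s ≤ c) (h : ∀ ω, r ω → p ω ∨ q ω ∨ s ω) : pr r ≤ a + b + c :=
  (prm2 ha (prm2 hb hc fun _ h => h) h).trans (by linarith)

theorem prm4 {Ω : Type*} [Fintype Ω] {p q s t r : Ω → Prop} {a b c d : ℝ} (ha : pr p ≤ a)
    (hb : pr q ≤ b) (hc : pr s ≤ c) (hd : pr t ≤ d) (h : ∀ ω, r ω → p ω ∨ q ω ∨ s ω ∨ t ω) :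
    pr r ≤ a + b + c + d :=
  (prm2 ha (prm3 hb hc hd fun _ h => h) h).trans (by linarith)

theorem Small.of551 {η ε lam β : ℝ} (h : H551.Small η ε lam β) : Small η ε lam β :=
  ⟨h.ε_pos, h.lam_pos, h.lam_le, h.ε_le, h.β_le⟩

theorem Small.ε_le' {η ε lam β : ℝ} (h : Small η ε lam β) (h1 : η ≤ 1) : ε ≤ η := by
  have := h.ε_le
  have := h.lam_le
  have := h.lam_pos
  have : 0 ≤ η := by linarith
  nlinarith

theorem Small.β_le' {η ε lam β : ℝ} (h : Small η ε lam β) (h1 : η ≤ 1) : β ≤ η := by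
  have := h.β_le
  have := h.lam_le
  have := h.lam_pos
  have : 0 ≤ η := by linarith
  nlinarith

variable {S : FSpec} {k : ℕ}

theorem FInst.Clean.mono {I : FInst S} {ε ρ ρ' : ℝ} {b : I.Bl} {u : S.L → I.W → ℝ}
    (h : I.Clean ε ρ b u) (hρ : ρ ≤ ρ') : I.Clean ε ρ' b u := le_trans h hρ

/-! ### Calls -/

theorem isOwn_map {Reg Reg' Rd Rd' CB CB' J J' : Type} {D : XDef (Reg ⊕ J) Rd CB} (hD : IsOwn D)
    {f : Reg ⊕ J → Reg' ⊕ J'} (hf : ∀ r, (f (.inl r)).isLeft = true) (r : Rd → Rd')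
    (c : CB → CB') : IsOwn (D.map f r c) := by
  cases D with
  | bit B => trivial
  | thr α a =>
    rcases a with a | a
    · exact hf a
    · simp [IsOwn] at hD
  | ra o g a =>
    rcases a with a | a
    · exact hf a
    · simp [IsOwn] at hD

/-- **A copy of the core obeys the core network.** -/
theorem call_obeys {Reg : Type} (I : FInst S) (blk : CN → I.Bl) (eK : S.K ≃ Fin (k + 2))
    (q : CConst) (own : CReg S → Reg) (inp : Fin (k + 2) → S.L → Reg ⊕ (Fin k × S.L))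
    {ε lam β : ℝ} {x : Reg → I.W → ℝ} {u : Fin k × S.L → I.W → ℝ}
    (hmem : ∀ ρ ω, 0 ≤ x ρ ω ∧ x ρ ω ≤ 1)
    (hrel : ∀ ρ : CReg S, pr (fun ω => ¬ (callDef eK q own inp ρ).toM.Rel (I.semM blk) ε
      ((callDef eK q own inp ρ).lamOf lam) (Sum.elim x u) (.inl (own ρ)) ω) ≤ β) :
    CObeys I q ε lam β (fun ρ => x (own ρ))
      (fun a => Sum.elim x u (inp (eK a.1) a.2)) where
  mem ρ ω := hmem _ ω
  rel ρ := by
    refine le_trans (le_of_eq (pr_congr fun ω => not_congr ?_)) (hrel ρ)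
    have h0 : IsOwn ((coreDef q ρ).map (Sum.elim (fun r => .inl (own r))
        fun a => inp (eK a.1) a.2) id (Sum.inl : S.CB → CBM S)) :=
      isOwn_map (isOwn_coreDef q ρ) (fun r => rfl) _ _
    have h1 := ofX_rel (d := own .e) h0 (I.semM blk) ε lam (Sum.elim x u) (.inl (own ρ)) ω
    have h2 := XDef.map_rel (Sum.elim (fun r => Sum.inl (own r)) fun a => inp (eK a.1) a.2)
      id (Sum.inl : S.CB → CBM S) (I.semM blk) ε lam (Sum.elim x u) (.inl ρ) ω (coreDef q ρ)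
    have h3 : (fun ρ : CReg' S => Sum.elim x u
        (Sum.elim (fun r => (Sum.inl (own r) : Reg ⊕ (Fin k × S.L)))
          (fun a : S.K × S.L => inp (eK a.1) a.2) ρ)) =
        Sum.elim (fun ρ => x (own ρ)) (fun a => Sum.elim x u (inp (eK a.1) a.2)) := by
      funext ρ
      rcases ρ with ρ | ρ <;> rfl
    rw [h3] at h2
    exact (h1.trans h2).symm

/-- Constant streams. -/
theorem cst_isB {Reg : Type} (I : FInst S) (blk : CN → I.Bl) (n : CN) (l : S.L) (r : Reg)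
    {ε lam : ℝ} {x : Reg → I.W → ℝ} {u : Fin k × S.L → I.W → ℝ} {ω : I.W}
    (h : (cstDef (k := k) (Reg := Reg) n l).toM.Rel (I.semM blk) ε lam (Sum.elim x u) (.inl r) ω) :
    IsB ε (I.enc (blk n) l ω.1) (x r ω) :=
  h _ fun _ hy => hy ()

theorem cst_clean {Reg : Type} (I : FInst S) (blk : CN → I.Bl) (n : CN) (own : S.L → Reg)
    {ε lam β : ℝ} {x : Reg → I.W → ℝ} {u : Fin k × S.L → I.W → ℝ}
    (hrel : ∀ l, pr (fun ω => ¬ (cstDef (k := k) (Reg := Reg) n l).toM.Rel (I.semM blk) ε lam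
      (Sum.elim x u) (.inl (own l)) ω) ≤ β) :
    I.Clean ε (Fintype.card S.L * β) (blk n) fun l => x (own l) :=
  prm_exists fun l => (pr_mono fun _ h => fun h2 => h (cst_isB I blk n l (own l) h2)).trans
    (hrel l)

/-- What is known of a class of instances. -/
structure ModHyp (S : FSpec) (Q : FInst S → Prop) (q : CConst) (ρc g : ℝ) : Prop where
  core : CoreSound S Q q ρc
  g0 : 0 ≤ g
  g1 : g < 1
  gapP : ∀ I, Q I → H855.Gap I.sP g
  gapZ : ∀ I, Q I → H855.Gap I.sZ g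
  self : ∀ I, Q I → ∀ ω, I.rd S.self ω = ω

/-- Clean arguments. -/
theorem argv_clean (I : FInst S) (eK : S.K ≃ Fin (k + 2)) {ε ρc : ℝ} {s p : I.Bl}
    {X : Fin k → I.Bl} {us up : S.L → I.W → ℝ} {uw : Fin k → S.L → I.W → ℝ}
    (hs : I.Clean ε ρc s us) (hp : I.Clean ε ρc p up) (hX : ∀ i, I.Clean ε ρc (X i) (uw i))
    (a : S.K) : I.Clean ε ρc (argv s p X (eK a))
      (fun l => argv (fun l => us l) (fun l => up l) (fun i l => uw i l) (eK a) l) := by
  generalize eK a = j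
  refine Fin.cases ?_ (fun j => Fin.cases ?_ (fun i => ?_) j) j
  · exact hs
  · exact hp
  · exact hX i

/-- **Soundness of a call**, clean inputs. -/
theorem call_honest {Q : FInst S → Prop} {q : CConst} {ρc : ℝ} (hc : CoreSound S Q q ρc)
    {ρ : ℝ} (hρ : 0 < ρ) : ∃ η : ℝ, 0 < η ∧ ∀ (k : ℕ) (eK : S.K ≃ Fin (k + 2)) (I : FInst S), Q I →
    ∀ (Reg : Type) (blk : CN → I.Bl) (own : CReg S → Reg) (us up : S.L → Reg)
      (uw : Fin k → S.L → Reg ⊕ (Fin k × S.L)) (ε lam β : ℝ), Small η ε lam β →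
    ∀ (x : Reg → I.W → ℝ) (u : Fin k × S.L → I.W → ℝ),
    (∀ ρ ω, 0 ≤ x ρ ω ∧ x ρ ω ≤ 1) →
    (∀ r : CReg S, pr (fun ω => ¬ (callDef eK q own
        (argv (fun l => .inl (us l)) (fun l => .inl (up l)) uw) r).toM.Rel (I.semM blk) ε
      ((callDef eK q own (argv (fun l => .inl (us l)) (fun l => .inl (up l)) uw) r).lamOf lam)
        (Sum.elim x u) (.inl (own r)) ω) ≤ β) →
    ∀ (s p : I.Bl) (X : Fin k → I.Bl), I.Clean ε ρc s (fun l => x (us l)) →
      I.Clean ε ρc p (fun l => x (up l)) →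
      (∀ i, I.Clean ε ρc (X i) fun l => Sum.elim x u (uw i l)) →
      I.Clean ε ρ (I.F fun a => argv s p X (eK a)) (fun l => x (own (.y l))) ∧
        pr (fun ω => ¬ IsB ε false (x (own .tf) ω)) ≤ ρ := by
  obtain ⟨η, h0, h⟩ := hc.honest ρ hρ
  refine ⟨η, h0, ?_⟩
  intro k eK I hI Reg blk own us up uw ε lam β hs x u hmem hrel s p X h1 h2 h3
  refine h I hI ε lam β hs _ _ (call_obeys I blk eK q own _ hmem hrel) _ fun a => ?_
  have h4 := argv_clean I eK h1 h2 h3 a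
  have h5 : (fun l => Sum.elim x u (argv (fun l => Sum.inl (us l)) (fun l => Sum.inl (up l)) uw
      (eK a) l)) = (fun l => argv (fun l => x (us l)) (fun l => x (up l))
        (fun i l => Sum.elim x u (uw i l)) (eK a) l) := by
    funext l
    generalize eK a = j
    refine Fin.cases ?_ (fun j => Fin.cases ?_ (fun i => ?_) j) j <;> rfl
  rw [h5]
  exact h4

/-- **Soundness of a call**, arbitrary inputs. -/
theorem call_garbage {Q : FInst S → Prop} {q : CConst} {ρc : ℝ} (hc : CoreSound S Q q ρc)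
    {ρ : ℝ} (hρ : 0 < ρ) : ∃ η : ℝ, 0 < η ∧ ∀ (k : ℕ) (eK : S.K ≃ Fin (k + 2)) (I : FInst S), Q I →
    ∀ (Reg : Type) (blk : CN → I.Bl) (own : CReg S → Reg)
      (inp : Fin (k + 2) → S.L → Reg ⊕ (Fin k × S.L)) (ε lam β : ℝ), Small η ε lam β →
    ∀ (x : Reg → I.W → ℝ) (u : Fin k × S.L → I.W → ℝ),
    (∀ ρ ω, 0 ≤ x ρ ω ∧ x ρ ω ≤ 1) →
    (∀ r : CReg S, pr (fun ω => ¬ (callDef eK q own inp r).toM.Rel (I.semM blk) ε
      ((callDef eK q own inp r).lamOf lam) (Sum.elim x u) (.inl (own r)) ω) ≤ β) →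
    pr (fun ω => IsB ε true (x (own .tf) ω)) ≤ 1 / 2 →
      ∃ b : I.Bl, I.Clean ε ρ b (fun l => x (own (.y l))) := by
  obtain ⟨η, h0, h⟩ := hc.garbage ρ hρ
  refine ⟨η, h0, ?_⟩
  intro k eK I hI Reg blk own inp ε lam β hs x u hmem hrel h1
  exact h I hI ε lam β hs _ _ (call_obeys I blk eK q own _ hmem hrel) h1

/-- The constant blocks are clean. -/
theorem exists_cst {ρc : ℝ} (hρ : 0 < ρc) : ∃ η : ℝ, 0 < η ∧ η ≤ 1 ∧ ∀ (k : ℕ) (I : FInst S)
    (Reg : Type) (blk : CN → I.Bl) (n : CN) (own : S.L → Reg) (ε lam β : ℝ), Small η ε lam β →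
    ∀ (x : Reg → I.W → ℝ) (u : Fin k × S.L → I.W → ℝ),
    (∀ l, pr (fun ω => ¬ (cstDef (k := k) (Reg := Reg) n l).toM.Rel (I.semM blk) ε lam
      (Sum.elim x u) (.inl (own l)) ω) ≤ β) →
    I.Clean ε ρc (blk n) fun l => x (own l) := by
  refine ⟨min 1 (ρc / (Fintype.card S.L + 1)), lt_min one_pos (by positivity), min_le_left _ _, ?_⟩
  intro k I Reg blk n own ε lam β hs x u hrel
  refine (cst_clean I blk n own hrel).mono ?_
  have h1 := hs.β_le' (min_le_left _ _)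
  have h2 : β ≤ ρc / (Fintype.card S.L + 1) := h1.trans (min_le_right _ _)
  have h3 : (Fintype.card S.L : ℝ) * β ≤ Fintype.card S.L * (ρc / (Fintype.card S.L + 1)) :=
    mul_le_mul_of_nonneg_left h2 (Nat.cast_nonneg _)
  have h4 : (Fintype.card S.L : ℝ) * (ρc / (Fintype.card S.L + 1)) ≤ ρc := by
    rw [mul_div_assoc', div_le_iff₀ (by positivity)]
    nlinarith
  linarith

/-! ### `step` -/

/-- **Soundness of `step`.** -/
theorem step_sound {Q : FInst S → Prop} {q : CConst} {ρc g : ℝ} (H : ModHyp S Q q ρc g)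
    (eK : S.K ≃ Fin (k + 2)) {ρ : ℝ} (hρ : 0 < ρ) : ∃ η : ℝ, 0 < η ∧ ∀ I : FInst S, Q I →
    ∀ (blk : CN → I.Bl) (ε lam β : ℝ), H551.Small η ε lam β →
    ∀ (x : SReg S → I.W → ℝ) (u : Fin k × S.L → I.W → ℝ),
    (stepMod S eK q).Obeys (I.semM blk) ε lam β x u → ∀ X : Fin k → I.Bl,
      (∀ i, I.Clean ε ρc (X i) fun l => u (i, l)) →
      I.Clean ε ρ (I.F fun a => argv (blk .sstep) (blk .pub) X (eK a)) fun l => x (.c (.y l)) := by
  obtain ⟨η₁, h1, h⟩ := call_honest H.core hρ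
  obtain ⟨η₂, h2, _, hcst⟩ := exists_cst (S := S) H.core.pos
  refine ⟨min η₁ η₂, lt_min h1 h2, ?_⟩
  intro I hI blk ε lam β hs' x u hx X hX
  have hs := Small.of551 hs'
  refine (h k eK I hI (SReg S) blk .c (.k .sstep) (.k .pub) (fun i l => .inr (i, l)) ε lam β
    (hs.mono (min_le_left _ _)) x u hx.mem (fun r => hx.rel (.c r)) _ _ X ?_ ?_ hX).1
  · exact hcst k I (SReg S) blk .sstep (.k .sstep) ε lam β (hs.mono (min_le_right _ _)) x u
      fun l => hx.rel (.k .sstep l)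
  · exact hcst k I (SReg S) blk .pub (.k .pub) ε lam β (hs.mono (min_le_right _ _)) x u
      fun l => hx.rel (.k .pub l)

end Vale.Agent.P330.FM
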