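import Vale.Agent.P330.FM.Call

/-!
# Soundness of the module `check`

* `check_flag`: if the output is rarely `true` and the own stream is mostly proper, the own stream is
  near the code of a block.
* `check_reject`: clean inputs, the verdict block is the zero block: the output is `true`.
* `check_accept`: very clean inputs, the verdict block is not the zero block: the output is `false`.
-/

namespace Vale.Agent.P330.FM

open Finset PCP.AR
open H855 (mean)
open S (BitDef MDef Sem IsB)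
open H551 (ODef Mod)

variable {S : FSpec} {k : ℕ}

/-! ### Means -/

theorem mean_le_ck {Ω : Type*} [Fintype Ω] [Nonempty Ω] {f : Ω → ℝ} {p : Ω → Prop} {a c : ℝ}
    (ha : 0 ≤ a) (hf : ∀ ω, f ω ≤ 1) (h : ∀ ω, ¬ p ω → f ω ≤ a) (hp : pr p ≤ c) :
    mean f ≤ a + c := by
  classical
  have h1 : ∀ ω, f ω ≤ a + if p ω then (1 : ℝ) else 0 := by
    intro ω
    by_cases h2 : p ω
    · simp only [h2, if_true]
      linarith [hf ω]
    · simp only [h2, if_false, add_zero]
      exact h ω h2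
  refine (S.mean_mono h1).trans ?_
  rw [S.mean_add, S.mean_const, ← S.pr_eq_mean]
  linarith

/-- **The average over all sites** of a register of a module. -/
theorem exists_avgM (S : FSpec) {g δ : ℝ} (hg0 : 0 ≤ g) (hg1 : g < 1) (hδ : 0 < δ) :
    ∃ η : ℝ, 0 < η ∧ η ≤ 1 ∧ ∀ I : FInst S, H855.Gap I.sP g → H855.Gap I.sZ g →
    ∀ (J Reg : Type) (blk : CN → I.Bl) (a b : Reg) (ε lam β : ℝ), Small η ε lam β →
    ∀ (x : Reg → I.W → ℝ) (u : J → I.W → ℝ), (∀ ρ ω, 0 ≤ x ρ ω ∧ x ρ ω ≤ 1) →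
    pr (fun ω => ¬ (ODef.ra none true b : ODef Reg S.Rd (CBM S) J).toM.Rel (I.semM blk) ε
      ((ODef.ra none true b : ODef Reg S.Rd (CBM S) J).lamOf lam) (Sum.elim x u) (.inl a) ω) ≤ β →
    pr (fun ω => δ < |x a ω - mean (x b)|) ≤ δ := by
  obtain ⟨η₁, h1, H1⟩ := ra_glob_small (g := g) (δ := δ) hg0 hg1 hδ
  refine ⟨min η₁ 1, lt_min h1 one_pos, min_le_right _ _, ?_⟩
  intro I gP gZ J Reg blk a b ε lam β hs x u hmem h
  have nbE : ∀ (k : Fin 8) (ω : I.P × I.Z), (I.semM blk).nb k ω =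
      if h : (k : ℕ) < 4 then (ω.1, I.sZ ⟨k, h⟩ ω.2) else (I.sP ⟨k - 4, by omega⟩ ω.1, ω.2) :=
    fun _ _ => rfl
  exact H1 gP gZ nbE (hmem a) (hmem b) (hs.mono (min_le_left _ _)) h

/-! ### The output -/

theorem v0Bit_f (y : (v0Bit S k).ι → Bool) :
    (v0Bit S k).f y = true ↔ ∃ l : S.L, y l = true := by
  unfold v0Bit
  simp only [decide_eq_true_eq]

section out

variable {I : FInst S} {eK : S.K ≃ Fin (k + 2)} {own : Fin k}
  {blk : CN → I.Bl} {ε lam : ℝ} {x : KReg S → I.W → ℝ} {u : Fin k × S.L → I.W → ℝ} {ω : I.W}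

theorem out_tf (h : (MDef.bit (outBit S own)).Rel (I.semM blk) ε lam (Sum.elim x u) (.inl .out) ω)
    (hself : I.rd S.self ω = ω) (ht : IsB ε true (x (.san .tf) ω)) : IsB ε true (x .out ω) := by
  refine h true fun y hy => ?_
  have h1 : y (.inl false) = true := hy (.inl false) true (by
    show IsB ε true (x (.san .tf) (I.rd S.self ω))
    rw [hself]
    exact ht)
  show decide _ = true
  rw [decide_eq_true_eq]
  exact .inl h1

theorem out_vt (h : (MDef.bit (outBit S own)).Rel (I.semM blk) ε lam (Sum.elim x u) (.inl .out) ω)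
    (hself : I.rd S.self ω = ω) (ht : IsB ε false (x .vt ω)) : IsB ε true (x .out ω) := by
  refine h true fun y hy => ?_
  have h1 : y (.inl true) = false := hy (.inl true) false (by
    show IsB ε false (x .vt (I.rd S.self ω))
    rw [hself]
    exact ht)
  show decide _ = true
  rw [decide_eq_true_eq]
  exact .inr (.inl h1)

theorem out_ne (h : (MDef.bit (outBit S own)).Rel (I.semM blk) ε lam (Sum.elim x u) (.inl .out) ω)
    (hself : I.rd S.self ω = ω) {l : S.L} {b b' : Bool} (hb : IsB ε b (x (.san (.y l)) ω))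
    (hb' : IsB ε b' (u (own, l) ω)) (hne : b ≠ b') : IsB ε true (x .out ω) := by
  refine h true fun y hy => ?_
  have h1 : y (.inr (false, l)) = b := hy (.inr (false, l)) b (by
    show IsB ε b (x (.san (.y l)) (I.rd S.self ω))
    rw [hself]
    exact hb)
  have h2 : y (.inr (true, l)) = b' := hy (.inr (true, l)) b' (by
    show IsB ε b' (u (own, l) (I.rd S.self ω))
    rw [hself]
    exact hb')
  show decide _ = true
  rw [decide_eq_true_eq]
  exact .inr (.inr ⟨l, by rw [h1, h2]; exact hne⟩)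

theorem out_ok (h : (MDef.bit (outBit S own)).Rel (I.semM blk) ε lam (Sum.elim x u) (.inl .out) ω)
    (hself : I.rd S.self ω = ω) (ht : IsB ε false (x (.san .tf) ω)) (hv : IsB ε true (x .vt ω))
    {c : S.L → Bool} (hb : ∀ l, IsB ε (c l) (x (.san (.y l)) ω))
    (hb' : ∀ l, IsB ε (c l) (u (own, l) ω)) : IsB ε false (x .out ω) := by
  refine h false fun y hy => ?_
  have h0 : y (.inl false) = false := hy (.inl false) false (by
    show IsB ε false (x (.san .tf) (I.rd S.self ω))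
    rw [hself]
    exact ht)
  have h1 : y (.inl true) = true := hy (.inl true) true (by
    show IsB ε true (x .vt (I.rd S.self ω))
    rw [hself]
    exact hv)
  have h2 : ∀ l, y (.inr (false, l)) = c l := fun l => hy (.inr (false, l)) (c l) (by
    show IsB ε (c l) (x (.san (.y l)) (I.rd S.self ω))
    rw [hself]
    exact hb l)
  have h3 : ∀ l, y (.inr (true, l)) = c l := fun l => hy (.inr (true, l)) (c l) (by
    show IsB ε (c l) (u (own, l) (I.rd S.self ω))
    rw [hself]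
    exact hb' l)
  show decide _ = false
  rw [decide_eq_false_iff_not]
  rintro (h4 | h4 | ⟨l, h4⟩)
  · rw [h0] at h4
    exact absurd h4 (by simp)
  · rw [h1] at h4
    exact absurd h4 (by simp)
  · exact h4 (by rw [h2, h3])

theorem v0_false (h : (MDef.bit (v0Bit S k)).Rel (I.semM blk) ε lam (Sum.elim x u) (.inl .v0) ω)
    (hself : I.rd S.self ω = ω) (hb : ∀ l, IsB ε false (x (.c (.y l)) ω)) :
    IsB ε false (x .v0 ω) := by
  refine h false fun y hy => ?_
  rw [← Bool.not_eq_true, v0Bit_f]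
  rintro ⟨l, hl⟩
  have h1 : y l = false := hy l false (by
    show IsB ε false (x (.c (.y l)) (I.rd S.self ω))
    rw [hself]
    exact hb l)
  rw [h1] at hl
  exact absurd hl (by simp)

theorem v0_true (h : (MDef.bit (v0Bit S k)).Rel (I.semM blk) ε lam (Sum.elim x u) (.inl .v0) ω)
    (hself : I.rd S.self ω = ω) {l : S.L} (hb : IsB ε true (x (.c (.y l)) ω)) :
    IsB ε true (x .v0 ω) := by
  refine h true fun y hy => ?_
  have h1 : y l = true := hy l true (by
    show IsB ε true (x (.c (.y l)) (I.rd S.self ω))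
    rw [hself]
    exact hb)
  exact (v0Bit_f y).2 ⟨l, h1⟩

end out

/-! ### Flag -/

/-- **The output is rarely `true`: the own stream is near the code of a block.** -/
theorem check_flag {Q : FInst S → Prop} {q : CConst} {ρc g : ℝ} (H : ModHyp S Q q ρc g)
    (eK : S.K ≃ Fin (k + 2)) (τv : ℚ) (own : Fin k) {κ ρ : ℝ} (hκ : 0 < κ) (hκ1 : 4 * κ ≤ 1)
    (hκ2 : 4 * κ ≤ ρ) : ∃ η : ℝ, 0 < η ∧ ∀ I : FInst S, Q I →
    ∀ (blk : CN → I.Bl) (ε lam β : ℝ), H551.Small η ε lam β →
    ∀ (x : KReg S → I.W → ℝ) (u : Fin k × S.L → I.W → ℝ),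
    (checkMod S eK q τv own).Obeys (I.semM blk) ε lam β x u →
    pr (fun ω => ∃ l, ¬ (IsB ε true (u (own, l) ω) ∨ IsB ε false (u (own, l) ω))) ≤ κ →
    pr (fun ω => IsB ε true (x .out ω)) ≤ κ → ∃ s : I.Bl, I.Clean ε ρ s fun l => u (own, l) := by
  obtain ⟨η₁, h1, hgar⟩ := call_garbage H.core hκ
  refine ⟨min η₁ (min 1 κ), lt_min h1 (lt_min one_pos hκ), ?_⟩
  intro I hI blk ε lam β hs' x u hx hprop hout
  have hs := Small.of551 hs'
  have hβ : β ≤ κ := ((hs.mono (min_le_right _ _)).β_le' (min_le_left _ _)).trans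
    (min_le_right _ _)
  have hrel := hx.rel .out
  -- the flag of the sanitizer
  have hflag : pr (fun ω => IsB ε true (x (.san .tf) ω)) ≤ 1 / 2 := by
    have h2 : pr (fun ω => IsB ε true (x (.san .tf) ω)) ≤ κ + β := by
      refine (pr_mono fun ω hω => ?_).trans ((pr_or _ _).trans (add_le_add hout hrel))
      by_cases hr : (MDef.bit (outBit S own)).Rel (I.semM blk) ε
          (((checkMod S eK q τv own).net .out).lamOf lam) (Sum.elim x u) (.inl .out) ω
      · exact .inl (out_tf hr (H.self I hI ω) hω)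
      · exact .inr hr
    linarith
  obtain ⟨b, hb⟩ := hgar k eK I hI (KReg S) blk .san
    (argv (fun l => .inl (.k .sid l)) (fun l => .inl (.k .pub l)) fun _ l => .inr (own, l))
    ε lam β (hs.mono (min_le_left _ _)) x u hx.mem (fun r => hx.rel (.san r)) hflag
  refine ⟨b, ?_⟩
  have key : pr (fun ω : I.W => ∃ l, ¬ IsB ε (I.enc b l ω.1) (u (own, l) ω)) ≤
      κ + (κ + (κ + β)) := by
    refine (pr_mono fun ω hω => ?_).trans ((pr_or _ _).trans (add_le_add hprop
      ((pr_or _ _).trans (add_le_add hout ((pr_or _ _).trans (add_le_add hb hrel))))))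
    by_contra hc
    push Not at hc
    obtain ⟨c1, c2, c3, c4⟩ := hc
    obtain ⟨l, hl⟩ := hω
    have c4' : (MDef.bit (outBit S own)).Rel (I.semM blk) ε
          (((checkMod S eK q τv own).net .out).lamOf lam) (Sum.elim x u) (.inl .out) ω := c4
    -- the bit of the own stream
    obtain ⟨b', hb'⟩ : ∃ b' : Bool, IsB ε b' (u (own, l) ω) := by
      rcases c1 l with h | h
      · exact ⟨true, h⟩
      · exact ⟨false, h⟩
    have hne : I.enc b l ω.1 ≠ b' := fun h => hl (h ▸ hb')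
    exact c2 (out_ne c4' (H.self I hI ω) (c3 l) hb' hne)
  refine key.trans ?_
  linarith

/-! ### Reject and accept -/

/-- **Negative verdict.** -/
theorem check_reject {Q : FInst S → Prop} {q : CConst} {ρc g : ℝ} (H : ModHyp S Q q ρc g)
    (eK : S.K ≃ Fin (k + 2)) {τv : ℚ} (hτ : 0 < τv) (own : Fin k) {ρ : ℝ} (hρ : 0 < ρ) :
    ∃ η : ℝ, 0 < η ∧ ∀ I : FInst S, Q I →
    ∀ (blk : CN → I.Bl) (ε lam β : ℝ), H551.Small η ε lam β →
    ∀ (x : KReg S → I.W → ℝ) (u : Fin k × S.L → I.W → ℝ),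
    (checkMod S eK q τv own).Obeys (I.semM blk) ε lam β x u → ∀ X : Fin k → I.Bl,
    (∀ i, I.Clean ε ρc (X i) fun l => u (i, l)) →
    (∀ l p, I.enc (I.F fun a => argv (blk .schk) (blk .pub) X (eK a)) l p = false) →
      pr (fun ω => ¬ IsB ε true (x .out ω)) ≤ ρ := by
  have hτ' : (0 : ℝ) < τv := by exact_mod_cast hτ
  set δ : ℝ := min (ρ / 4) (τv / 8) with hδ
  have hδ0 : 0 < δ := lt_min (by linarith) (by linarith)
  have hδρ : δ ≤ ρ / 4 := min_le_left _ _
  have hδτ : δ ≤ τv / 8 := min_le_right _ _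
  obtain ⟨η₁, h1, hh⟩ := call_honest H.core hδ0
  obtain ⟨η₂, h2, _, hcst⟩ := exists_cst (S := S) H.core.pos
  obtain ⟨η₃, h3, _, havg⟩ := exists_avgM S H.g0 H.g1 hδ0
  refine ⟨min (min η₁ η₂) (min η₃ (min 1 δ)), lt_min (lt_min h1 h2)
    (lt_min h3 (lt_min one_pos hδ0)), ?_⟩
  intro I hI blk ε lam β hs' x u hx X hX hF
  have hs := Small.of551 hs'
  have s1 := hs.mono ((min_le_left _ _).trans (min_le_left _ _) : _ ≤ η₁)
  have s2 := hs.mono ((min_le_left _ _).trans (min_le_right _ _) : _ ≤ η₂)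
  have s3 := hs.mono ((min_le_right _ _).trans (min_le_left _ _) : _ ≤ η₃)
  have s4 := hs.mono ((min_le_right _ _).trans (min_le_right _ _) : _ ≤ min 1 δ)
  have hε : ε ≤ δ := (s4.ε_le' (min_le_left _ _)).trans (min_le_right _ _)
  have hβ : β ≤ δ := (s4.β_le' (min_le_left _ _)).trans (min_le_right _ _)
  have hself := H.self I hI
  have hcall := (hh k eK I hI (KReg S) blk .c (.k .schk) (.k .pub) (fun i l => .inr (i, l))
    ε lam β s1 x u hx.mem (fun r => hx.rel (.c r)) _ _ X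
    (hcst k I (KReg S) blk .schk (.k .schk) ε lam β s2 x u fun l => hx.rel (.k .schk l))
    (hcst k I (KReg S) blk .pub (.k .pub) ε lam β s2 x u fun l => hx.rel (.k .pub l)) hX).1
  have hcall' : pr (fun ω : I.W => ∃ l, ¬ IsB ε (I.enc (I.F fun a =>
    argv (blk .schk) (blk .pub) X (eK a)) l ω.1) (x (.c (.y l)) ω)) ≤ δ := hcall
  have hmean : mean (x .v0) ≤ ε + (δ + β) := by
    refine mean_le_ck s1.ε_pos.le (fun ω => (hx.mem .v0 ω).2)
      (p := fun ω => (∃ l, ¬ IsB ε (I.enc (I.F fun a => argv (blk .schk) (blk .pub) X (eK a)) l ω.1)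
        (x (.c (.y l)) ω)) ∨ ¬ (MDef.bit (v0Bit S k)).Rel (I.semM blk) ε
          (((checkMod S eK q τv own).net .v0).lamOf lam) (Sum.elim x u) (.inl .v0) ω)
      (fun ω hω => ?_) ((pr_or _ _).trans (add_le_add hcall' (hx.rel .v0)))
    push Not at hω
    obtain ⟨c1, c2⟩ := hω
    have h4 := v0_false c2 (hself ω) fun l => by
      have h5 := c1 l
      rw [hF] at h5
      exact h5
    simpa [IsB] using h4
  have hva := havg I (H.gapP I hI) (H.gapZ I hI) (Fin k × S.L) (KReg S) blk .va .v0 ε lam β s3 x u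
    hx.mem (hx.rel .va)
  refine (pr_mono fun ω hω => ?_).trans ((pr_or (fun ω => δ < |x .va ω - mean (x .v0)|)
    (fun ω => (¬ ((checkMod S eK q τv own).net .vt).toM.Rel (I.semM blk) ε
      (((checkMod S eK q τv own).net .vt).lamOf lam) (Sum.elim x u) (.inl .vt) ω) ∨
      ¬ ((checkMod S eK q τv own).net .out).toM.Rel (I.semM blk) ε
      (((checkMod S eK q τv own).net .out).lamOf lam) (Sum.elim x u) (.inl .out) ω)).trans
    ((add_le_add hva ((pr_or _ _).trans (add_le_add (hx.rel .vt) (hx.rel .out)))).trans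
      (by linarith)))
  by_contra hc
  push Not at hc
  obtain ⟨c1, c2, c3⟩ := hc
  refine hω (out_vt c3 (hself ω) (c2.2 ?_))
  have h5 := (abs_le.1 c1).2
  show x .va ω < (τv : ℝ) - 2 * ε
  linarith

/-- **Positive verdict.** -/
theorem check_accept {Q : FInst S → Prop} {q : CConst} {ρc g : ℝ} (H : ModHyp S Q q ρc g)
    (eK : S.K ≃ Fin (k + 2)) {τv : ℚ} {θ : ℝ} (hτ : (τv : ℝ) < θ) (own i0 : Fin k) {ρ : ℝ}
    (hρ : 0 < ρ) : ∃ ρa : ℝ, 0 < ρa ∧ ∃ η : ℝ, 0 < η ∧ ∀ I : FInst S, Q I →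
    ∀ (blk : CN → I.Bl) (zero : I.Bl), I.MFacts eK (blk .sid) zero i0 θ →
    ∀ (ε lam β : ℝ), H551.Small η ε lam β →
    ∀ (x : KReg S → I.W → ℝ) (u : Fin k × S.L → I.W → ℝ),
    (checkMod S eK q τv own).Obeys (I.semM blk) ε lam β x u → ∀ X : Fin k → I.Bl,
    (∀ i, I.Clean ε ρa (X i) fun l => u (i, l)) →
    (I.F fun a => argv (blk .schk) (blk .pub) X (eK a)) ≠ zero →
      pr (fun ω => ¬ IsB ε false (x .out ω)) ≤ ρ := by
  set δ : ℝ := min (ρ / 8) (min ((θ - τv) / 8) 1) with hδ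
  have hδ0 : 0 < δ := lt_min (by linarith) (lt_min (by linarith) one_pos)
  have hδρ : δ ≤ ρ / 8 := min_le_left _ _
  have hδτ : δ ≤ (θ - τv) / 8 := (min_le_right _ _).trans (min_le_left _ _)
  have hδ1 : δ ≤ 1 := (min_le_right _ _).trans (min_le_right _ _)
  obtain ⟨η₁, h1, hh⟩ := call_honest H.core hδ0
  obtain ⟨η₂, h2, _, hcst⟩ := exists_cst (S := S) H.core.pos
  obtain ⟨η₃, h3, _, havg⟩ := exists_avgM S H.g0 H.g1 hδ0
  refine ⟨min ρc δ, lt_min H.core.pos hδ0, min (min η₁ η₂) (min η₃ (min 1 δ)),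
    lt_min (lt_min h1 h2) (lt_min h3 (lt_min one_pos hδ0)), ?_⟩
  intro I hI blk zero hM ε lam β hs' x u hx X hX hF
  have hs := Small.of551 hs'
  have s1 := hs.mono ((min_le_left _ _).trans (min_le_left _ _) : _ ≤ η₁)
  have s2 := hs.mono ((min_le_left _ _).trans (min_le_right _ _) : _ ≤ η₂)
  have s3 := hs.mono ((min_le_right _ _).trans (min_le_left _ _) : _ ≤ η₃)
  have s4 := hs.mono ((min_le_right _ _).trans (min_le_right _ _) : _ ≤ min 1 δ)
  have hε : ε ≤ δ := (s4.ε_le' (min_le_left _ _)).trans (min_le_right _ _)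
  have hβ : β ≤ δ := (s4.β_le' (min_le_left _ _)).trans (min_le_right _ _)
  have hself := H.self I hI
  have hX' : ∀ i, I.Clean ε ρc (X i) fun l => u (i, l) := fun i => (hX i).mono (min_le_left _ _)
  have hown : I.Clean ε δ (X own) fun l => u (own, l) := (hX own).mono (min_le_right _ _)
  have hpub := hcst k I (KReg S) blk .pub (.k .pub) ε lam β s2 x u fun l => hx.rel (.k .pub l)
  have hcall := (hh k eK I hI (KReg S) blk .c (.k .schk) (.k .pub) (fun i l => .inr (i, l))
    ε lam β s1 x u hx.mem (fun r => hx.rel (.c r)) _ _ X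
    (hcst k I (KReg S) blk .schk (.k .schk) ε lam β s2 x u fun l => hx.rel (.k .schk l))
    hpub hX').1
  have hsan := hh k eK I hI (KReg S) blk .san (.k .sid) (.k .pub) (fun _ l => .inr (own, l))
    ε lam β s1 x u hx.mem (fun r => hx.rel (.san r)) _ _ (fun _ => X own)
    (hcst k I (KReg S) blk .sid (.k .sid) ε lam β s2 x u fun l => hx.rel (.k .sid l))
    hpub (fun _ => hX' own)
  rw [hM.F_id] at hsan
  -- the mean of `v0`
  have hdist : θ ≤ pr fun ω : I.W =>
      ∃ l, I.enc (I.F fun a => argv (blk .schk) (blk .pub) X (eK a)) l ω.1 = true := by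
    have h4 := hM.encDist _ _ hF
    rw [← pr_fst (Ω' := I.Z)] at h4
    refine h4.trans (pr_mono fun ω hω => ?_)
    obtain ⟨l, hl⟩ := hω
    rw [hM.enc_zero] at hl
    exact ⟨l, Bool.eq_true_of_not_eq_false hl⟩
  have hmean : (1 - ε) * (θ - (δ + β)) ≤ mean (x .v0) := by
    have h5 : θ ≤ pr (fun ω => IsB ε true (x .v0 ω)) + (δ + β) := by
      refine hdist.trans ((pr_mono fun ω hω => ?_).trans ((pr_or (fun ω => IsB ε true (x .v0 ω))
        (fun ω => (∃ l, ¬ IsB ε (I.enc (I.F fun a => argv (blk .schk) (blk .pub) X (eK a)) l ω.1)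
          (x (.c (.y l)) ω)) ∨ ¬ (MDef.bit (v0Bit S k)).Rel (I.semM blk) ε
          (((checkMod S eK q τv own).net .v0).lamOf lam) (Sum.elim x u) (.inl .v0) ω)).trans
        (add_le_add_right ((pr_or _ _).trans (add_le_add hcall (hx.rel .v0))) _)))
      by_contra hc
      push Not at hc
      obtain ⟨c1, c2, c3⟩ := hc
      obtain ⟨l, hl⟩ := hω
      refine c1 (v0_true c3 (hself ω) (l := l) ?_)
      have h6 := c2 l
      rw [hl] at h6
      exact h6
    have h7 := Vale.Agent.P330.S.mul_pr_le_mean (f := x .v0) (p := fun ω => IsB ε true (x .v0 ω)) (c := 1 - ε)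
      (fun ω => (hx.mem .v0 ω).1) fun ω hω => by simpa [IsB] using hω
    have h8 : (1 - ε) * (θ - (δ + β)) ≤ (1 - ε) * pr (fun ω => IsB ε true (x .v0 ω)) :=
      mul_le_mul_of_nonneg_left (by linarith) (by linarith)
    exact h8.trans h7
  have hθ1 : θ ≤ 1 := hdist.trans (pr_le_one _)
  have hmean' : θ - 3 * δ ≤ mean (x .v0) := by
    refine le_trans ?_ hmean
    have := s1.ε_pos
    nlinarith [mul_nonneg this.le (sub_nonneg.2 hθ1), mul_nonneg this.le hδ0.le,
      mul_nonneg this.le ((pr_nonneg _).trans (hx.rel .v0))]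
  have hva := havg I (H.gapP I hI) (H.gapZ I hI) (Fin k × S.L) (KReg S) blk .va .v0 ε lam β s3 x u
    hx.mem (hx.rel .va)
  refine (pr_mono fun ω hω => ?_).trans ((pr_or (fun ω => δ < |x .va ω - mean (x .v0)|)
    (fun ω => (¬ ((checkMod S eK q τv own).net .vt).toM.Rel (I.semM blk) ε
      (((checkMod S eK q τv own).net .vt).lamOf lam) (Sum.elim x u) (.inl .vt) ω) ∨
      (¬ ((checkMod S eK q τv own).net .out).toM.Rel (I.semM blk) ε
      (((checkMod S eK q τv own).net .out).lamOf lam) (Sum.elim x u) (.inl .out) ω) ∨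
      (¬ IsB ε false (x (.san .tf) ω)) ∨
      (∃ l, ¬ IsB ε (I.enc (X own) l ω.1) (x (.san (.y l)) ω)) ∨
      ∃ l, ¬ IsB ε (I.enc (X own) l ω.1) (u (own, l) ω))).trans
    ((add_le_add hva ((pr_or _ _).trans (add_le_add (hx.rel .vt) ((pr_or _ _).trans
      (add_le_add (hx.rel .out) ((pr_or _ _).trans (add_le_add hsan.2 ((pr_or _ _).trans
        (add_le_add hsan.1 hown))))))))).trans (by linarith)))
  by_contra hc
  push Not at hc
  obtain ⟨c1, c2, c3, c4, c5, c6⟩ := hc
  refine hω (out_ok c3 (hself ω) c4 (c2.1 ?_) c5 c6)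
  have h5 := (abs_le.1 c1).1
  show (τv : ℝ) + 2 * ε < x .va ω
  linarith

end Vale.Agent.P330.FM
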