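import Vale.Agent.P330.Q.CbKer
import Vale.Agent.P330.Q.CbStart
import Vale.Agent.P330.Q.NumComp

/-!
# Functional modules: kernels, stacks and start words on numbers

Everything is stated for an arbitrary family of extension systems `N : ENum A h D`, indexed by `α`.
* `Coef`: coefficients of a kernel, computable in polynomial time; `ENum.kn`: the kernel on numbers.
* `ENum.v0G`, `ENum.vvG`: entries of the stacks over a base given on numbers.
* `ENum.cdG`: codes of configurations.
* `ENum.startG`: value of a functional at the start word.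
-/

namespace Vale.Agent.P330.FM

open Finset Vale.Agent.Lib.PolyTime Vale.Agent.P330.Q

/-- Coefficients (address, addresses of the slots) of a kernel, on numbers. -/
structure Coef (A : Set Word) (α : Type) [Enc α] (K : Type) [Fintype K] (B : ℕ) where
  X : α → ℕ → (Fin B → ℕ) → K
  pt : ∀ {β : Type} [Enc β] {g : β → α} {m : β → ℕ} {n : β → Fin B → ℕ}, PT A g → PT A m →
    (∀ t, PT A fun b => n b t) → PTt A fun b => X (g b) (m b) (n b)

/-- Families of functions of points (numbers) computable in polynomial time. -/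
def PT2 (A : Set Word) {α : Type} [Enc α] {K : Type*} [Fintype K] (f : α → ℕ → ℕ → K) :
    Prop :=
  ∀ {β : Type} [Enc β] {g : β → α} {ρ y : β → ℕ}, PT A g → PT A ρ → PT A y →
    PTt A fun b => f (g b) (ρ b) (y b)

section

variable {A : Set Word} {α : Type} [Enc α] {K : Type} [Field K] [Fintype K] {h : α → ℕ}
  {Y : α → Type} [∀ a, AddCommGroup (Y a)] {D : ∀ a, ESys K (h a) (Y a)} (N : ENum A h D) {B : ℕ}
  (k : α → ℕ)

/-! ### Kernels -/

/-- The kernel on numbers. -/
noncomputable def kn (L : Finset (Fin B)) (X : Coef A α K B) (a : α) (ρ y : ℕ) : K :=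
  N.ker a (k a) L (X.X a) ρ y

theorem kn_num [∀ a, NeZero (h a)] (L : Finset (Fin B)) (X : Coef A α K B) (a : α)
    {X' : Addr (k a) → (Fin B → Addr (k a)) → K}
    (hX : ∀ m n, X.X a m n = X' (adr (k a) m) fun t => adr (k a) (n t)) (ρ y : Y a) :
    kn N k L X a (N.num a ρ) (N.num a y) = (D a).ker L X' ρ y := by
  unfold kn
  rw [← N.ker_num]
  refine congrArg (fun f => N.ker a (k a) L f (N.num a ρ) (N.num a y)) ?_
  funext m n
  exact hX m n

theorem PT_kn (hk : PT A k) (hb : PBd fun a => 2 ^ k a) (L : Finset (Fin B)) (X : Coef A α K B) :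
    PT2 A (kn N k L X) := by
  intro β _ g ρ y hg hρ hy
  exact N.PT_ker L hg (hk.comp hg) (hb.comp hg) (X := fun b => X.X (g b))
    (fun hf hm hn => X.pt (hg.comp hf) hm hn) hρ hy

/-! ### Stacks -/

variable {Cell V : Type} [Fintype Cell] [DecidableEq Cell]

/-- The bottom entry of a stack on numbers. -/
noncomputable def v0G (KN : (Fin B → Option Cell) → α → ℕ → ℕ → K) (a : α) (W : Cell → ℕ → K)
    (ρ y : ℕ) : K :=
  ∑ γ : Fin B → Option Cell, KN γ a ρ y *
    ∏ t : Fin B, optv (fun e => W e (N.sh a (2 * k a * t) y)) (γ t)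

/-- An entry of a stack on numbers. -/
noncomputable def vvG (KN : (Fin B → Option Cell) → α → ℕ → ℕ → K) (a : α) (W : Cell → ℕ → K)
    (j ρ y : ℕ) : K :=
  ∑ n ∈ range (2 ^ j), v0G N k KN a W ρ (N.tr a n (N.th a j y))

/-- The data `M` over the family of extension systems: the shifts are the standard ones. -/
structure StdM {a : α} [NeZero (h a)] {X : Type*} (M : DomData K (h a) B (Y a) Cell V X) :
    Prop where
  θ : ∀ y, M.θ y = (D a).θ y
  e0 : M.e0 = (D a).ι (ev 0)
  sh : ∀ t y, M.sh t y = (D a).θi (2 * k a * (t : ℕ)) y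

section num

variable {KN : (Fin B → Option Cell) → α → ℕ → ℕ → K} {a : α} [NeZero (h a)] {X : Type*}
  {M : DomData K (h a) B (Y a) Cell V X} {c : Chn Cell V}

theorem v0G_num (hM : StdM (D := D) k M)
    (hK : ∀ γ ρ y, KN γ a (N.num a ρ) (N.num a y) = M.K c γ ρ y)
    {W : Cell → ℕ → K} {W' : Cell → Y a → K} (hW : ∀ e y, W e (N.num a y) = W' e y) (ρ y : Y a) :
    v0G N k KN a W (N.num a ρ) (N.num a y) = M.v0 c W' ρ y := by
  unfold v0G DomData.v0
  refine Finset.sum_congr rfl fun γ _ => ?_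
  rw [hK]
  congr 1
  refine Finset.prod_congr rfl fun t _ => ?_
  congr 1
  funext e
  rw [N.sh_num, hW, hM.sh]

theorem vvG_num (hM : StdM (D := D) k M)
    (hK : ∀ γ ρ y, KN γ a (N.num a ρ) (N.num a y) = M.K c γ ρ y)
    {W : Cell → ℕ → K} {W' : Cell → Y a → K} (hW : ∀ e y, W e (N.num a y) = W' e y) {j : ℕ}
    (hj : j ≤ h a) (ρ y : Y a) :
    vvG N k KN a W j (N.num a ρ) (N.num a y) = M.vv c W' j ρ y := by
  rw [chain_closed (D a) (fun j y => M.vv c W' j ρ y) (fun j _ y => by
    show M.vv c W' j ρ (M.θ y) + M.vv c W' j ρ (M.θ y + M.e0) = _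
    rw [hM.θ, hM.e0]) hj y]
  refine Finset.sum_congr rfl fun n _ => ?_
  rw [N.th_num, N.tr_num, v0G_num N k hM hK hW]
  rfl

end num

section pt

variable {KN : (Fin B → Option Cell) → α → ℕ → ℕ → K} {β : Type} [Enc β] {g : β → α}

theorem PT_v0G (hk : PT A k) (hb : PBd fun a => 2 ^ k a) (hKN : ∀ γ, PT2 A (KN γ))
    {W : β → Cell → ℕ → K} {ρ y : β → ℕ} (hg : PT A g)
    (hW : ∀ e, PTt A (fun p : β × ℕ => W p.1 e p.2)) (hρ : PT A ρ) (hy : PT A y) :
    PTt A (fun b => v0G N k KN (g b) (W b) (ρ b) (y b)) := by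
  have hkb : PBd k := hb.mono fun _ => Nat.lt_two_pow_self.le
  refine PTt.sumF (κ := Fin B → Option Cell) (f := fun γ b => KN γ (g b) (ρ b) (y b) *
    ∏ t : Fin B, optv (fun e => W b e (N.sh (g b) (2 * k (g b) * t) (y b))) (γ t)) univ
    fun γ => PTt.mul (hKN γ hg hρ hy) (PTt.prodF (κ := Fin B) (f := fun t b =>
      optv (fun e => W b e (N.sh (g b) (2 * k (g b) * t) (y b))) (γ t)) univ fun t => ?_)
  cases γ t with
  | none => exact PTt.const 1
  | some e =>
    refine (hW e).comp (PT.id.pair (N.PT_sh hg ?_ ?_ hy))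
    · exact PT.mul (PT.mul (PT.const 2) (hk.comp hg)) (PT.const _)
    · exact ((PBd.const 2).mul (hkb.comp hg)).mul (PBd.const _)

theorem PT_vvG (hk : PT A k) (hb : PBd fun a => 2 ^ k a) (hKN : ∀ γ, PT2 A (KN γ))
    {W : β → Cell → ℕ → K} {j ρ y : β → ℕ} (hg : PT A g)
    (hW : ∀ e, PTt A (fun p : β × ℕ => W p.1 e p.2)) (hj : PT A j) (hjb : PBd (fun b => 2 ^ j b))
    (hρ : PT A ρ) (hy : PT A y) :
    PTt A (fun b => vvG N k KN (g b) (W b) (j b) (ρ b) (y b)) := by
  have hjb' : PBd j := hjb.mono fun _ => Nat.lt_two_pow_self.le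
  have hg1 : PT A (fun p : β × ℕ => g p.1) := hg.comp PT.fst'
  refine PTt.sum' (PT.pow (PT.const 2) hj hjb') hjb
    (f := fun b n => v0G N k KN (g b) (W b) (ρ b) (N.tr (g b) n (N.th (g b) (j b) (y b)))) ?_
  refine PT_v0G N k hk hb hKN (W := fun p : β × ℕ => W p.1) hg1
    (fun e => (hW e).comp (PT.fst'.fst.pair PT.snd')) (hρ.comp PT.fst') ?_
  exact N.PT_tr hg1 PT.snd' (N.PT_th hg1 (hj.comp PT.fst') (pbFst hjb') (hy.comp PT.fst'))

end pt

/-! ### Codes of configurations -/

/-- The code of the predicate `w a m = e` on numbers. -/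
noncomputable def cdG (w : α → ℕ → Cell) (a : α) (e : Cell) (y : ℕ) : K :=
  N.code a (k a) (fun m => @ite _ (w a m = e) (Classical.propDecidable _) 1 0) y

theorem cdG_num (w : α → ℕ → Cell) (a : α) {x : Addr (k a) → K} {e : Cell}
    (hx : ∀ m, x (adr (k a) m) = if w a m = e then 1 else 0) (y : Y a) :
    cdG N k w a e (N.num a y) = (D a).code x y := by
  rw [← N.code_num]
  unfold cdG
  refine congrArg (fun x => N.code a (k a) x (N.num a y)) (funext fun m => ?_)
  rw [hx]
  split_ifs <;> rfl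

theorem PT_cdG (hk : PT A k) (hb : PBd fun a => 2 ^ k a) {w : α → ℕ → Cell} {e : Cell}
    (hw : ∀ {β : Type} [Enc β] {g : β → α} {m : β → ℕ}, PT A g → PT A m →
      DP A fun b => w (g b) (m b) = e) {β : Type} [Enc β] {g : β → α} {y : β → ℕ} (hg : PT A g)
    (hy : PT A y) : PTt A (fun b => cdG N k w (g b) e (y b)) := by
  have hkg : PT A fun b => k (g b) := hk.comp hg
  have hbg : PBd fun b => 2 ^ k (g b) := hb.comp hg
  have hkb : PBd fun b => k (g b) := hbg.mono fun _ => Nat.lt_two_pow_self.le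
  refine N.PT_code hg hkg hbg (x := fun b m =>
    @ite _ (w (g b) m = e) (Classical.propDecidable _) 1 0) ?_ hy
  have h1 : DP A (fun p : β × ℕ => w (g p.1) (min p.2 (2 ^ k (g p.1))) = e) :=
    hw (hg.comp PT.fst') (PT.min PT.snd'
      (PT.pow (PT.const 2) (hkg.comp PT.fst') (hkb.comp (PT.fst' (A := A)))))
  refine (PTt.boolK (K := K) h1).congr fun p => ?_
  simp only [decide_eq_true_eq]
  split_ifs <;> rfl

/-! ### The start word -/

variable [Fintype V] [DecidableEq V]

/-- The value of a functional at the start word, on numbers. -/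
noncomputable def startG (KN : Chn Cell V → (Fin B → Option Cell) → α → ℕ → ℕ → K)
    (W : α → Bool → Cell → ℕ → K) (a : α) (c ρ y : ℕ) : K :=
  decC (h a) c (loC none : Comp Cell V (h a)) +
  (∑ s : Bool, ∑ e : Cell, decC (h a) c (loC (some (s, e)) : Comp Cell V (h a)) * W a s e y) +
  (∑ s : Bool, ∑ j ∈ range (h a + 1),
    decC (h a) c (hiC (.inl s) (Fin.ofNat (h a + 1) j) : Comp Cell V (h a)) *
    if j + 1 = ht0 (h a) s then 1 else 0) +
  ∑ s : Bool, ∑ i : Chn Cell V, ∑ j ∈ range (h a + 1),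
    decC (h a) c (hiC (.inr (s, i)) (Fin.ofNat (h a + 1) j) : Comp Cell V (h a)) *
    if j < ht0 (h a) s then vvG N k (KN i) a (W a s) (ht0 (h a) s - 1 - j) ρ y else 0

theorem startG_num {KN : Chn Cell V → (Fin B → Option Cell) → α → ℕ → ℕ → K}
    {W : α → Bool → Cell → ℕ → K} {a : α} [NeZero (h a)] {X : Type*}
    {M : DomData K (h a) B (Y a) Cell V X} (hM : StdM (D := D) k M)
    (hK : ∀ c γ ρ y, KN c γ a (N.num a ρ) (N.num a y) = M.K c γ ρ y)
    (hW : ∀ s e y, W a s e (N.num a y) = M.cd (M.b0 s) e y) (c : ℕ) (ρ y : Y a) :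
    startG N k KN W a c (N.num a ρ) (N.num a y) =
      pair (decC (h a) c) (M.word (M.D.st0 (h a + 1)) (ρ, y)) := by
  rw [pair_st0]
  unfold startG
  have hle : ∀ s, ht0 (h a) s ≤ h a + 1 := by
    intro s
    cases s <;> simp [ht0]
  congr 1
  · congr 1
    congr 1
    refine Finset.sum_congr rfl fun s _ => Finset.sum_congr rfl fun e _ => ?_
    rw [hW]
  · refine Finset.sum_congr rfl fun s _ => Finset.sum_congr rfl fun i _ => ?_
    refine Finset.sum_congr rfl fun j hj => ?_
    congr 1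
    split_ifs with hlt
    · refine vvG_num N k hM (hK i) (fun e y => hW s e y) ?_ ρ y
      have := hle s
      omega
    · rfl

/-- **The start word in polynomial time.** -/
theorem PT_startG {KN : Chn Cell V → (Fin B → Option Cell) → α → ℕ → ℕ → K}
    {W : α → Bool → Cell → ℕ → K} (hk : PT A k) (hb : PBd fun a => 2 ^ k a)
    (hKN : ∀ c γ, PT2 A (KN c γ))
    (hW : ∀ s e {β : Type} [Enc β] {g : β → α} {y : β → ℕ}, PT A g → PT A y →
      PTt A fun b => W (g b) s e (y b))
    {β : Type} [Enc β] {g : β → α} {c ρ y : β → ℕ} (hg : PT A g)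
    (hc : PT A c) (hρ : PT A ρ) (hy : PT A y) :
    PTt A (fun b => startG N k KN W (g b) (c b) (ρ b) (y b)) := by
  have hh : PT A (fun b => h (g b)) := N.PT_h.comp hg
  have hb2 : PBd (fun b => 2 ^ h (g b)) := N.PB_h.comp hg
  have hhb : PBd (fun b => h (g b)) := N.PB_h'.comp hg
  have hg1 : PT A (fun p : β × ℕ => g p.1) := hg.comp PT.fst'
  have hh1 : PT A (fun p : β × ℕ => h (g p.1)) := hh.comp PT.fst'
  have hhb1 : PBd (fun p : β × ℕ => h (g p.1)) := pbFst hhb
  have hc1 : PT A (fun p : β × ℕ => c p.1) := hc.comp PT.fst'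
  have hht : ∀ s, PT A (fun p : β × ℕ => ht0 (h (g p.1)) s) := by
    intro s
    cases s
    · exact hh1
    · exact PT.add hh1 (PT.const 1)
  have hhi : ∀ κ : CHi Cell V, PTt A (fun p : β × ℕ =>
      (decC (h (g p.1)) (c p.1) (hiC κ (Fin.ofNat (h (g p.1) + 1) p.2)) : K)) := fun κ =>
    PTt.decC_hi (h := fun p : β × ℕ => h (g p.1)) hh1 hhb1 hc1 PT.snd' κ
  refine PTt.add (PTt.add (PTt.add ?_ ?_) ?_) ?_
  · exact PTt.decC_lo (h := fun b => h (g b)) hc none
  · refine PTt.sumF (κ := Bool) (f := fun s b => ∑ e : Cell,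
      decC (h (g b)) (c b) (loC (some (s, e)) : Comp Cell V (h (g b))) *
        W (g b) s e (y b)) univ fun s => ?_
    refine PTt.sumF (κ := Cell) (f := fun e b =>
      decC (h (g b)) (c b) (loC (some (s, e)) : Comp Cell V (h (g b))) *
        W (g b) s e (y b)) univ fun e => ?_
    exact PTt.mul (PTt.decC_lo (h := fun b => h (g b)) hc _) (hW s e hg hy)
  · refine PTt.sumF (κ := Bool) (f := fun s b => ∑ j ∈ range (h (g b) + 1),
      decC (h (g b)) (c b) (hiC (.inl s) (Fin.ofNat (h (g b) + 1) j) :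
        Comp Cell V (h (g b))) *
      if j + 1 = ht0 (h (g b)) s then 1 else 0) univ fun s => ?_
    refine PTt.sum' (PT.add hh (PT.const 1)) (hhb.add (PBd.const 1))
      (f := fun b j => decC (h (g b)) (c b) (hiC (.inl s) (Fin.ofNat (h (g b) + 1) j) :
        Comp Cell V (h (g b))) *
      if j + 1 = ht0 (h (g b)) s then 1 else 0) ?_
    exact PTt.mul (hhi (.inl s)) (PTt.ite (PT.eqNat (PT.add PT.snd' (PT.const 1)) (hht s))
      (PTt.const 1) (PTt.const 0))
  · refine PTt.sumF (κ := Bool) (f := fun s b => ∑ i : Chn Cell V,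
      ∑ j ∈ range (h (g b) + 1),
      decC (h (g b)) (c b) (hiC (.inr (s, i)) (Fin.ofNat (h (g b) + 1) j) :
        Comp Cell V (h (g b))) *
      if j < ht0 (h (g b)) s then vvG N k (KN i) (g b) (W (g b) s)
        (ht0 (h (g b)) s - 1 - j) (ρ b) (y b) else 0) univ fun s => ?_
    refine PTt.sumF (κ := Chn Cell V) (f := fun i b =>
      ∑ j ∈ range (h (g b) + 1),
      decC (h (g b)) (c b) (hiC (.inr (s, i)) (Fin.ofNat (h (g b) + 1) j) :
        Comp Cell V (h (g b))) *
      if j < ht0 (h (g b)) s then vvG N k (KN i) (g b) (W (g b) s)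
        (ht0 (h (g b)) s - 1 - j) (ρ b) (y b) else 0) univ fun i => ?_
    refine PTt.sum' (PT.add hh (PT.const 1)) (hhb.add (PBd.const 1))
      (f := fun b j => decC (h (g b)) (c b) (hiC (.inr (s, i)) (Fin.ofNat (h (g b) + 1) j) :
        Comp Cell V (h (g b))) *
      if j < ht0 (h (g b)) s then vvG N k (KN i) (g b) (W (g b) s)
        (ht0 (h (g b)) s - 1 - j) (ρ b) (y b) else 0) ?_
    refine PTt.mul (hhi (.inr (s, i))) (PTt.ite (PT.lt PT.snd' (hht s)) ?_ (PTt.const 0))
    refine PT_vvG N k hk hb (hKN i) (W := fun (p : β × ℕ) => W (g p.1) s) hg1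
      (fun e => hW s e (hg1.comp PT.fst') PT.snd')
      (PT.sub (PT.sub (hht s) (PT.const 1)) PT.snd') ?_ (hρ.comp PT.fst') (hy.comp PT.fst')
    refine (pbFst hb2).mono fun p => Nat.pow_le_pow_right (by norm_num) ?_
    have : ht0 (h (g p.1)) s ≤ h (g p.1) + 1 := by cases s <;> simp [ht0]
    omega

end

end Vale.Agent.P330.FM
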