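import Vale.Agent.P330.FM.XDef
import Vale.Agent.P330.Q.Pub

/-!
# Functional modules: machines with external bits as public polynomial maps

`x : Cell → J → F` is an array, `onehot w` the array of a configuration, `lit s (d, b)` the array of
the literal `s d = b` of the external bits.  The outputs `XOut` are polynomial maps in `x` and in the
literals, with public kernels `kerX`.  The violation outputs vanish exactly at the arrays of the
configurations which are valid for `s`; the output `next z` is the array of the next configuration.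

`evK`, `onehot`, `valO` are those of `Vale.Agent.P330.Q.Pub`; `kerXF` are the kernels with slots
`Fin B` and addresses `A`.
-/

namespace Vale.Agent.P330.FM

open Finset
open Vale.Agent.P330.Q (valO onehot onehot_self onehot_ne onehot_inj evK)

/-- slots of the monomials -/
abbrev XSlot (S : XSpec) : Type := Option S.Off ⊕ (Fin (S.d + 2) ⊕ S.Ext)

/-- contents of the slots: contents of cells, literals of external bits -/
abbrev XCt (S : XSpec) : Type := S.Cell ⊕ (S.Ext × Bool)

/-- The outputs. `two`, `sum`, `stat`, `win`: violations; `proj`: the array itself; `next`: the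
array of the next (`z = false`) or previous (`z = true`) configuration. -/
inductive XOut (S : XSpec)
  | two (e e' : S.Cell)
  | sum
  | stat (e : S.Cell)
  | win (β : S.Ext → Bool) (c : Fin (S.d + 2) → S.Cell)
  | proj (e : S.Cell)
  | next (z : Bool) (e : S.Cell)
  deriving Fintype

/-- the outputs that have to vanish -/
def XOut.viol {S : XSpec} : XOut S → Bool
  | .two _ _ => true
  | .sum => true
  | .stat _ => true
  | .win _ _ => true
  | .proj _ => false
  | .next _ _ => false

variable {S : XSpec}

/-- the contents of the external slots -/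
def gamE (b : Option (S.Ext → Bool)) (d : S.Ext) : Option (XCt S) :=
  b.map fun β => .inr (d, β d)

/-- the contents of the slots: only the slots `0` and `1` of the window are used -/
def gam2 (u v : Option S.Cell) : XSlot S → Option (XCt S) :=
  Sum.elim (fun _ => none) (Sum.elim
    (fun i => if i = 0 then u.map .inl else if i = 1 then v.map .inl else none) (gamE none))

/-- the contents of the slots: a whole window -/
def gamW (b : Option (S.Ext → Bool)) (c : Fin (S.d + 2) → S.Cell) : XSlot S → Option (XCt S) :=
  Sum.elim (fun _ => none) (Sum.elim (fun i => some (.inl (c i))) (gamE b))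

/-- the contents of the slots: content `e'` of the cell, contents `g` around the head -/
def gamN (b : Option (S.Ext → Bool)) (e' : S.Cell) (g : S.Off → S.Cell) :
    XSlot S → Option (XCt S) :=
  Sum.elim (fun o => some (.inl (o.elim e' g))) (Sum.elim (fun _ => none) (gamE b))

/-- external bits are used if the flag is on -/
def opt (f : Bool) (β : S.Ext → Bool) : Option (S.Ext → Bool) := if f then some β else none

/-- the positions of the slots: a whole window -/
def alW (I : XInst S) (a : I.J) : XSlot S → I.J :=
  Sum.elim (fun _ => a) (Sum.elim (fun i => a + I.off (S.win i)) fun _ => a)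

/-- the positions of the slots: the cell `a` and the cells around the head `h`; `f` tells whether
the external bits are used -/
def alN (I : XInst S) (f : Bool) (a h : I.J) : XSlot S → I.J :=
  Sum.elim (fun o => o.elim a (fun o => h + I.off o))
    (Sum.elim (fun _ => a) fun _ => if f then h else a)

/-- content of the cell `a` after the step: `h` position of the head, `β` external bits there, `g`
contents around it, `e'` content of the cell -/
def IsRes (I : XInst S) (z : Bool) (β : S.Ext → Bool) (g : S.Off → S.Cell) (e' : S.Cell)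
    (h a : I.J) (e : S.Cell) : Prop :=
  (∃ o, S.upd o = true ∧ a = h + I.off o ∧ (S.rule z β g).2 o = e) ∨
    ((∀ o, S.upd o = true → a ≠ h + I.off o) ∧ (S.rule z β g).1 e' = e)

/-- The kernel of an output. -/
def kerX (I : XInst S) : XOut S → (XSlot S → Option (XCt S)) → I.J → (XSlot S → I.J) → Prop
  | .two e e', γ, a, α => e ≠ e' ∧ γ = gam2 (some e) (some e') ∧ α = fun _ => a
  | .sum, γ, a, α => (∃ e, γ = gam2 e none) ∧ α = fun _ => a
  | .stat e, γ, a, α => S.statOf e ≠ I.stat a ∧ γ = gam2 (some e) none ∧ α = fun _ => a
  | .win β c, γ, a, α => S.allowed β c = false ∧ γ = gamW (opt (S.dep c) β) c ∧ α = alW I a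
  | .proj e, γ, a, α => γ = gam2 (some e) none ∧ α = fun _ => a
  | .next z e, γ, a, α => ∃ β g e' h, S.hd (g S.zero) = true ∧ IsRes I z β g e' h a e ∧
      γ = gamN (opt (S.depR z g) β) e' g ∧ α = alN I (S.depR z g) a h

theorem kerX_none (I : XInst S) {o : XOut S} {γ : XSlot S → Option (XCt S)} {a : I.J}
    {α : XSlot S → I.J} (h : kerX I o γ a α) {t : XSlot S} (ht : γ t = none) : α t = a := by
  cases o with
  | two e e' => rw [h.2.2]
  | sum => rw [h.2]
  | stat e => rw [h.2.2]
  | win β c =>
    obtain ⟨-, hγ, hα⟩ := h
    subst hγ hα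
    rcases t with t | t | t
    · rfl
    · simp [gamW] at ht
    · rfl
  | proj e => rw [h.2]
  | next z e =>
    obtain ⟨β, g, e', h', -, -, hγ, hα⟩ := h
    subst hγ hα
    rcases t with t | t | t
    · simp [gamN] at ht
    · rfl
    · show (if S.depR z g then h' else a) = a
      cases hd : S.depR z g
      · rfl
      · exfalso
        rw [hd] at ht
        simp [gamN, gamE, opt] at ht

section evX

variable {F : Type*} [Field F]

open Classical in
/-- the array of a literal of the external bits -/
noncomputable def lit {Ext A : Type} (s : Ext → A → Bool) (p : Ext × Bool) (a : A) : F :=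
  if s p.1 a = p.2 then 1 else 0

/-- the arrays of all contents of slots -/
noncomputable def xarr {C Ext A : Type} (s : Ext → A → Bool) (x : C → A → F) :
    C ⊕ (Ext × Bool) → A → F :=
  Sum.elim x (lit s)

open Classical in
/-- The output `o` at the address `a`. -/
noncomputable def evX (I : XInst S) (s : S.Ext → I.J → Bool) (x : S.Cell → I.J → F) (o : XOut S)
    (a : I.J) : F :=
  ∑ γ : XSlot S → Option (XCt S), ∑ α : XSlot S → I.J,
    if kerX I o γ a α then ∏ t, valO (xarr s x) (γ t) (α t) else 0

variable (I : XInst S) (s : S.Ext → I.J → Bool)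

theorem prod_gamE_none (x : S.Cell → I.J → F) (α : S.Ext → I.J) :
    ∏ d, valO (xarr s x) (gamE (S := S) none d) (α d) = 1 :=
  Finset.prod_eq_one fun _ _ => rfl

theorem prod_gamE_some (x : S.Cell → I.J → F) (β : S.Ext → Bool) (a : I.J) :
    ∏ d, valO (xarr s x) (gamE (S := S) (some β) d) a =
      if (fun d => s d a) = β then (1 : F) else 0 := by
  classical
  have h1 : ∀ d, valO (xarr s x) (gamE (S := S) (some β) d) a =
      (if s d a = β d then (1 : F) else 0) := by
    intro d
    show (lit s (d, β d) a : F) = _
    unfold lit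
    split_ifs <;> rfl
  rw [Finset.prod_congr rfl fun d _ => h1 d]
  by_cases h : (fun d => s d a) = β
  · rw [if_pos h]
    exact Finset.prod_eq_one fun d _ => if_pos (congrFun h d)
  · rw [if_neg h]
    obtain ⟨d, hd⟩ : ∃ d, s d a ≠ β d := by
      by_contra hc
      push Not at hc
      exact h (funext hc)
    exact Finset.prod_eq_zero (Finset.mem_univ d) (if_neg hd)

theorem prod_gamE_opt (x : S.Cell → I.J → F) (f : Bool) (β : S.Ext → Bool) (a : I.J) :
    ∏ d, valO (xarr s x) (gamE (S := S) (opt f β) d) a =
      if f = true → (fun d => s d a) = β then (1 : F) else 0 := by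
  classical
  cases f
  · simp only [opt, Bool.false_eq_true, if_false, false_imp_iff, if_true]
    exact prod_gamE_none I s x fun _ => a
  · simp only [opt, if_true, true_imp_iff]
    exact prod_gamE_some I s x β a

theorem prod_val_gam2 (x : S.Cell → I.J → F) (u v : Option S.Cell) (a : I.J) :
    ∏ t, valO (xarr s x) (gam2 u v t) ((fun _ => a : XSlot S → I.J) t) =
      valO x u a * valO x v a := by
  rw [Fintype.prod_sum_type, Fintype.prod_sum_type]
  have h1 : ∏ i : Option S.Off, valO (xarr s x) (gam2 u v (Sum.inl i)) a = 1 :=
    Finset.prod_eq_one fun i _ => rfl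
  have h3 : ∏ d : S.Ext, valO (xarr s x) (gam2 u v (Sum.inr (Sum.inr d))) a = 1 :=
    Finset.prod_eq_one fun i _ => rfl
  have hm : ∀ u : Option S.Cell, valO (xarr s x) (u.map Sum.inl) a = valO x u a := by
    intro u
    cases u <;> rfl
  have h2 : ∏ i : Fin (S.d + 2), valO (xarr s x) (gam2 u v (Sum.inr (Sum.inl i))) a =
      valO x u a * valO x v a := by
    have h01 : (0 : Fin (S.d + 2)) ≠ 1 := by
      intro h
      have := congrArg Fin.val h
      simp at this
    rw [← Finset.prod_subset (Finset.subset_univ ({0, 1} : Finset (Fin (S.d + 2)))),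
      Finset.prod_pair h01]
    · simp only [gam2, Sum.elim_inr, Sum.elim_inl, if_true, hm]
      rw [if_neg h01.symm, hm]
    · intro i _ hi
      simp only [Finset.mem_insert, Finset.mem_singleton, not_or] at hi
      simp [gam2, hi.1, hi.2, valO]
  rw [h1, h2, h3, one_mul, mul_one]

theorem evX_of_single (x : S.Cell → I.J → F) (o : XOut S) (a : I.J) (C : Prop)
    [Decidable C] (γ₀ : XSlot S → Option (XCt S)) (α₀ : XSlot S → I.J)
    (h : ∀ γ α, kerX I o γ a α ↔ C ∧ γ = γ₀ ∧ α = α₀) :
    evX I s x o a = if C then ∏ t, valO (xarr s x) (γ₀ t) (α₀ t) else 0 := by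
  classical
  unfold evX
  rw [Finset.sum_eq_single γ₀, Finset.sum_eq_single α₀]
  · by_cases hC : C
    · rw [if_pos hC, if_pos ((h _ _).2 ⟨hC, rfl, rfl⟩)]
    · rw [if_neg hC, if_neg fun hk => hC ((h _ _).1 hk).1]
  · intro α _ hα
    rw [if_neg fun hk => hα ((h _ _).1 hk).2.2]
  · intro hh
    exact absurd (Finset.mem_univ _) hh
  · intro γ _ hγ
    apply Finset.sum_eq_zero
    intro α _
    rw [if_neg fun hk => hγ ((h _ _).1 hk).2.1]
  · intro hh
    exact absurd (Finset.mem_univ _) hh

theorem evX_two (x : S.Cell → I.J → F) (e e' : S.Cell) (a : I.J) :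
    evX I s x (.two e e') a = if e ≠ e' then x e a * x e' a else 0 := by
  rw [evX_of_single I s x _ a (e ≠ e') (gam2 (some e) (some e')) (fun _ => a)
    (fun γ α => Iff.rfl), prod_val_gam2]
  rfl

open Classical in
theorem evX_stat (x : S.Cell → I.J → F) (e : S.Cell) (a : I.J) :
    evX I s x (.stat e) a = if S.statOf e ≠ I.stat a then x e a else 0 := by
  rw [evX_of_single I s x _ a (S.statOf e ≠ I.stat a) (gam2 (some e) none) (fun _ => a)
    (fun γ α => Iff.rfl), prod_val_gam2]
  simp [valO]

theorem evX_proj (x : S.Cell → I.J → F) (e : S.Cell) (a : I.J) :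
    evX I s x (.proj e) a = x e a := by
  rw [evX_of_single I s x _ a True (gam2 (some e) none) (fun _ => a)
    (fun γ α => by simp [kerX]), prod_val_gam2]
  simp [valO]

open Classical in
theorem evX_win (x : S.Cell → I.J → F) (β : S.Ext → Bool) (c : Fin (S.d + 2) → S.Cell)
    (a : I.J) : evX I s x (.win β c) a =
      if S.allowed β c = false ∧ (S.dep c = true → (fun d => s d a) = β) then
        ∏ i, x (c i) (a + I.off (S.win i)) else 0 := by
  rw [evX_of_single I s x _ a (S.allowed β c = false) (gamW (opt (S.dep c) β) c) (alW I a)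
    (fun γ α => Iff.rfl), Fintype.prod_sum_type, Fintype.prod_sum_type]
  have h1 : ∏ i : Option S.Off, valO (xarr s x) (gamW (opt (S.dep c) β) c (Sum.inl i))
      (alW I a (Sum.inl i)) = 1 := Finset.prod_eq_one fun i _ => rfl
  have h3 : ∏ d : S.Ext, valO (xarr s x) (gamW (opt (S.dep c) β) c (Sum.inr (Sum.inr d)))
      (alW I a (Sum.inr (Sum.inr d))) =
      if S.dep c = true → (fun d => s d a) = β then (1 : F) else 0 := prod_gamE_opt I s x _ β a
  have h2 : ∏ i : Fin (S.d + 2), valO (xarr s x) (gamW (opt (S.dep c) β) c (Sum.inr (Sum.inl i)))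
      (alW I a (Sum.inr (Sum.inl i))) = ∏ i, x (c i) (a + I.off (S.win i)) := rfl
  rw [h1, h2, h3, one_mul]
  by_cases ha : S.allowed β c = false
  · by_cases hb : S.dep c = true → (fun d => s d a) = β
    · rw [if_pos ha, if_pos hb, if_pos ⟨ha, hb⟩, mul_one]
    · rw [if_pos ha, if_neg hb, if_neg fun h => hb h.2, mul_zero]
  · rw [if_neg ha, if_neg fun h => ha h.1]

theorem gam2_inj {u v : Option S.Cell} (h : gam2 u none = gam2 (S := S) v none) : u = v := by
  have := congrFun h (Sum.inr (Sum.inl 0))
  cases u <;> cases v <;> simp [gam2] at this ⊢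
  exact this

theorem evX_sum (x : S.Cell → I.J → F) (a : I.J) :
    evX I s x .sum a = 1 + ∑ e, x e a := by
  classical
  unfold evX
  have h1 : ∀ γ : XSlot S → Option (XCt S), (∑ α : XSlot S → I.J,
      if kerX I .sum γ a α then ∏ t, valO (xarr s x) (γ t) (α t) else 0) =
      if ∃ e, γ = gam2 e none then ∏ t, valO (xarr s x) (γ t) a else 0 := by
    intro γ
    rw [Finset.sum_eq_single fun _ => a]
    · apply if_congr _ rfl rfl
      simp [kerX]
    · intro α _ hα
      rw [if_neg fun hk => hα hk.2]
    · intro hh
      exact absurd (Finset.mem_univ _) hh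
  rw [Finset.sum_congr rfl fun γ _ => h1 γ, ← Finset.sum_filter]
  have h2 : (univ.filter fun γ : XSlot S → Option (XCt S) => ∃ e, γ = gam2 e none) =
      univ.image (fun e : Option S.Cell => gam2 e none) := by
    ext γ
    simp [eq_comm]
  rw [h2, Finset.sum_image fun e _ e' _ h => gam2_inj h, Fintype.sum_option]
  congr 1
  · have := prod_val_gam2 I s x none none a
    rw [this]
    simp [valO]
  · apply Finset.sum_congr rfl
    intro e _
    have := prod_val_gam2 I s x (some e) none a
    rw [this]
    simp [valO]

/-! ### Violations -/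

/-- The violation outputs vanish at the arrays of the valid configurations. -/
theorem evX_viol_of_valid (h2 : (1 : F) + 1 = 0) {w : I.J → S.Cell}
    (hw : I.Valid s w) (o : XOut S) (ho : o.viol = true) (a : I.J) :
    evX I s (onehot w) o a = (0 : F) := by
  classical
  cases o with
  | two e e' =>
    rw [evX_two]
    split_ifs with h
    · by_cases h1 : w a = e
      · rw [onehot_ne w (e := e') fun h3 => h (h1.symm.trans h3), mul_zero]
      · rw [onehot_ne w h1, zero_mul]
    · rfl
  | sum =>
    rw [evX_sum]
    have : ∑ e, onehot w e a = (1 : F) := by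
      rw [Finset.sum_eq_single (w a) (fun e _ he => onehot_ne w (Ne.symm he))
        (fun hh => absurd (Finset.mem_univ _) hh), onehot_self]
    rw [this, h2]
  | stat e =>
    rw [evX_stat]
    split_ifs with h
    · rw [onehot_ne]
      intro h1
      apply h
      rw [← h1]
      exact hw.1 a
    · rfl
  | win β c =>
    rw [evX_win]
    split_ifs with h
    · by_contra hne
      have h1 : ∀ i, w (a + I.off (S.win i)) = c i := by
        intro i
        by_contra hi
        exact hne (Finset.prod_eq_zero (Finset.mem_univ i) (onehot_ne w hi))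
      have h3 := hw.2 a
      rw [show (fun t => w (a + I.off (S.win t))) = c from funext h1] at h3
      have h4 : S.allowed β c = S.allowed (fun d => s d a) c := by
        cases hd : S.dep c
        · exact S.allowed_dep c hd _ _
        · rw [h.2 hd]
      rw [h4, h3] at h
      exact absurd h.1 (by simp)
    · rfl
  | proj e => simp [XOut.viol] at ho
  | next z e => simp [XOut.viol] at ho

/-- If all violation outputs vanish at `x` then `x` is the array of a valid configuration. -/
theorem exists_valid_of_viol (h2 : (1 : F) + 1 = 0) (x : S.Cell → I.J → F)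
    (hx : ∀ o : XOut S, o.viol = true → ∀ a, evX I s x o a = 0) :
    ∃ w, I.Valid s w ∧ x = onehot w := by
  classical
  have h1 : ∀ a, ∃ e, x e a ≠ 0 := by
    intro a
    by_contra hc
    push Not at hc
    have := hx .sum rfl a
    rw [evX_sum, Finset.sum_eq_zero fun e _ => hc e, add_zero] at this
    exact one_ne_zero this
  choose w hw using h1
  have h3 : ∀ a e, w a ≠ e → x e a = 0 := by
    intro a e he
    have := hx (.two (w a) e) rfl a
    rw [evX_two, if_pos he] at this
    exact (mul_eq_zero.1 this).resolve_left (hw a)
  have h4 : ∀ a, x (w a) a = 1 := by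
    intro a
    have := hx .sum rfl a
    rw [evX_sum, Finset.sum_eq_single (w a) (fun e _ he => h3 a e (Ne.symm he))
      (fun hh => absurd (Finset.mem_univ _) hh)] at this
    linear_combination this - h2
  have hxw : x = onehot w := by
    funext e a
    by_cases he : w a = e
    · rw [← he, h4, onehot_self]
    · rw [h3 a e he, onehot_ne w he]
  refine ⟨w, ⟨?_, ?_⟩, hxw⟩
  · intro a
    by_contra hc
    have := hx (.stat (w a)) rfl a
    rw [evX_stat, if_pos hc, h4] at this
    exact one_ne_zero this
  · intro a
    by_contra hc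
    have hc' : S.allowed (fun d => s d a) (fun t => w (a + I.off (S.win t))) = false := by
      simpa using hc
    have := hx (.win (fun d => s d a) fun t => w (a + I.off (S.win t))) rfl a
    rw [evX_win, if_pos ⟨hc', fun _ => rfl⟩, Finset.prod_eq_one fun i _ => h4 _] at this
    exact one_ne_zero this

theorem viol_iff (h2 : (1 : F) + 1 = 0) (x : S.Cell → I.J → F) :
    (∀ o : XOut S, o.viol = true → ∀ a, evX I s x o a = 0) ↔
      ∃ w, I.Valid s w ∧ x = onehot w := by
  constructor
  · exact exists_valid_of_viol I s h2 x
  · rintro ⟨w, hw, rfl⟩ o ho a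
    exact evX_viol_of_valid I s h2 hw o ho a

/-! ### The next configuration -/

theorem isRes_apply (z : Bool) (w : I.J → S.Cell) (h a : I.J) (e : S.Cell) :
    IsRes I z (fun d => s d h) (I.around w h) (w a) h a e ↔ I.apply s z w h a = e := by
  by_cases ha : ∃ o, S.upd o = true ∧ a = h + I.off o
  · obtain ⟨o, ho, rfl⟩ := ha
    rw [XInst.apply_upd z w h ho]
    constructor
    · rintro (⟨o', ho', h1, h2⟩ | ⟨h1, -⟩)
      · have : o' = o := I.off_inj _ _ ho' ho (add_left_cancel h1).symm
        rw [← this]; exact h2
      · exact absurd rfl (h1 o ho)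
    · intro h1
      exact Or.inl ⟨o, ho, rfl, h1⟩
  · push Not at ha
    rw [XInst.apply_off z w h ha]
    constructor
    · rintro (⟨o', ho', h1, h2⟩ | ⟨-, h1⟩)
      · exact absurd h1 (ha o' ho')
      · exact h1
    · intro h1
      exact Or.inr ⟨ha, h1⟩

theorem prod_val_onehot (w : I.J → S.Cell) (γ : XSlot S → Option (XCt S)) (α : XSlot S → I.J) :
    ∏ t, valO (F := F) (xarr s (onehot w)) (γ t) (α t) =
      if (∀ t e, γ t = some (.inl e) → w (α t) = e) ∧
        (∀ t d b, γ t = some (.inr (d, b)) → s d (α t) = b) then 1 else 0 := by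
  classical
  split_ifs with h
  · apply Finset.prod_eq_one
    intro t _
    rcases ht : γ t with _ | e | ⟨d, b⟩
    · rfl
    · have := h.1 t e ht
      simp [valO, xarr, onehot, this]
    · have := h.2 t d b ht
      simp [valO, xarr, lit, this]
  · rw [not_and_or] at h
    push Not at h
    rcases h with ⟨t, e, ht, hne⟩ | ⟨t, d, b, ht, hne⟩
    · apply Finset.prod_eq_zero (Finset.mem_univ t)
      rw [ht]
      exact onehot_ne w hne
    · apply Finset.prod_eq_zero (Finset.mem_univ t)
      rw [ht]
      simp [valO, xarr, lit, hne]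

theorem evX_next {w : I.J → S.Cell} {h : I.J} (H : I.IsHead w h) (z : Bool)
    (e : S.Cell) (a : I.J) :
    evX I s (onehot w) (.next z e) a = (onehot (I.step s z w) e a : F) := by
  classical
  unfold evX
  simp only [prod_val_onehot]
  -- the only term that counts
  have key : ∀ γ α, (kerX I (.next z e) γ a α ∧ ((∀ t e, γ t = some (.inl e) → w (α t) = e) ∧
      (∀ t d b, γ t = some (.inr (d, b)) → s d (α t) = b))) ↔
      (I.step s z w a = e ∧
        γ = gamN (opt (S.depR z (I.around w h)) fun d => s d h) (w a) (I.around w h) ∧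
        α = alN I (S.depR z (I.around w h)) a h) := by
    intro γ α
    constructor
    · rintro ⟨⟨β, g, e', h', hg, hres, hγ, hα⟩, hm, hm2⟩
      subst hγ hα
      have e1 : w a = e' := hm (Sum.inl none) e' rfl
      have e2 : ∀ o, w (h' + I.off o) = g o := fun o => hm (Sum.inl (some o)) (g o) rfl
      have e3 : g = I.around w h' := funext fun o => (e2 o).symm
      have e4 : h' = h := by
        apply H.2
        have := e2 S.zero
        rw [I.off_zero, add_zero] at this
        rw [this]
        exact hg
      subst e4
      subst e1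
      subst e3
      have e5 : S.depR z (I.around w h') = true → (fun d => s d h') = β := by
        intro hd
        funext d
        have h3 := hm2 (Sum.inr (Sum.inr d)) d (β d) (by simp [gamN, gamE, opt, hd])
        have h4 : alN I (S.depR z (I.around w h')) a h' (Sum.inr (Sum.inr d)) = h' := by
          show (if S.depR z (I.around w h') then h' else a) = h'
          rw [hd]
          rfl
        rw [h4] at h3
        exact h3
      have e6 : S.rule z β (I.around w h') = S.rule z (fun d => s d h') (I.around w h') := by
        cases hd : S.depR z (I.around w h')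
        · exact S.rule_dep z _ hd _ _
        · rw [e5 hd]
      have hres' : IsRes I z (fun d => s d h') (I.around w h') (w a) h' a e := by
        unfold IsRes at hres ⊢
        rw [e6] at hres
        exact hres
      refine ⟨?_, ?_, rfl⟩
      · rw [XInst.step_of_head H]
        exact (isRes_apply I s z w _ a e).1 hres'
      · congr 1
        cases hd : S.depR z (I.around w h')
        · rfl
        · rw [e5 hd]
    · rintro ⟨h1, hγ, hα⟩
      subst hγ hα
      refine ⟨⟨fun d => s d h, I.around w h, w a, h, ?_, ?_, rfl, rfl⟩, ?_, ?_⟩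
      · have : I.around w h S.zero = w h := by
          unfold XInst.around
          rw [I.off_zero, add_zero]
        rw [this]
        exact H.1
      · rw [isRes_apply]
        rw [XInst.step_of_head H] at h1
        exact h1
      · intro t e' ht
        rcases t with t | t | t
        · cases t with
          | none =>
            have h3 : some (Sum.inl (w a)) = some (Sum.inl e' : XCt S) := ht
            exact Sum.inl.inj (Option.some.inj h3)
          | some o =>
            have h3 : some (Sum.inl (I.around w h o)) = some (Sum.inl e' : XCt S) := ht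
            exact Sum.inl.inj (Option.some.inj h3)
        · exact absurd ht (by simp [gamN])
        · exact absurd ht (by
            cases hd : S.depR z (I.around w h) <;> simp [gamN, gamE, opt])
      · intro t d b ht
        rcases t with t | t | t
        · exact absurd ht (by simp [gamN])
        · exact absurd ht (by simp [gamN])
        · cases hd : S.depR z (I.around w h)
          · rw [hd] at ht
            exact absurd ht (by simp [gamN, gamE, opt])
          · rw [hd] at ht
            have h3 : some (Sum.inr (t, s t h)) = some (Sum.inr (d, b) : XCt S) := ht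
            have h4 := Sum.inr.inj (Option.some.inj h3)
            obtain ⟨h5, h6⟩ := Prod.mk.inj h4
            subst h5
            exact h6
  have h1 : ∀ γ α, (if kerX I (.next z e) γ a α then
      (if (∀ t e, γ t = some (.inl e) → w (α t) = e) ∧
        (∀ t d b, γ t = some (.inr (d, b)) → s d (α t) = b) then (1 : F) else 0) else 0) =
      if (I.step s z w a = e ∧
        γ = gamN (opt (S.depR z (I.around w h)) fun d => s d h) (w a) (I.around w h) ∧
        α = alN I (S.depR z (I.around w h)) a h) then 1 else 0 := by
    intro γ α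
    rw [← ite_and]
    exact if_congr (key γ α) rfl rfl
  rw [Finset.sum_congr rfl fun γ _ => Finset.sum_congr rfl fun α _ => h1 γ α]
  by_cases hs : I.step s z w a = e
  · rw [Finset.sum_eq_single (gamN (opt (S.depR z (I.around w h)) fun d => s d h) (w a)
      (I.around w h)), Finset.sum_eq_single (alN I (S.depR z (I.around w h)) a h)]
    · simp [hs, onehot]
    · intro α _ hα
      rw [if_neg fun hk => hα hk.2.2]
    · intro hh
      exact absurd (Finset.mem_univ _) hh
    · intro γ _ hγ
      apply Finset.sum_eq_zero
      intro α _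
      rw [if_neg fun hk => hγ hk.2.1]
    · intro hh
      exact absurd (Finset.mem_univ _) hh
  · rw [onehot_ne _ hs]
    apply Finset.sum_eq_zero
    intro γ _
    apply Finset.sum_eq_zero
    intro α _
    rw [if_neg fun hk => hs hk.1]

end evX

/-! ### The same with slots `Fin B` and addresses in any type -/

section transport

variable {F : Type*} [Field F] {A : Type} [Fintype A] {B : ℕ}

open Classical in
/-- the kernels with slots `Fin B` and addresses in `A` -/
noncomputable def kerXF (F : Type*) [Field F] (I : XInst S) (σ : XSlot S ≃ Fin B) (ε : I.J ≃ A)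
    (o : XOut S) (γ : Fin B → Option (XCt S)) (a : A) (α : Fin B → A) : F :=
  if kerX I o (fun t => γ (σ t)) (ε.symm a) (fun t => ε.symm (α (σ t))) then 1 else 0

omit [Fintype A] in
theorem kerXF_none (I : XInst S) (σ : XSlot S ≃ Fin B) (ε : I.J ≃ A) {o : XOut S}
    {γ : Fin B → Option (XCt S)} {a : A} {α : Fin B → A} (h : kerXF F I σ ε o γ a α ≠ 0)
    {t : Fin B} (ht : γ t = none) : α t = a := by
  classical
  have h1 : kerX I o (fun t => γ (σ t)) (ε.symm a) (fun t => ε.symm (α (σ t))) := by
    by_contra hc
    exact h (if_neg hc)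
  have h2 := kerX_none I h1 (t := σ.symm t) (by simpa using ht)
  simpa using h2

/-- the external bits on the addresses -/
def extA {A : Type} (I : XInst S) (ε : I.J ≃ A) (s : S.Ext → I.J → Bool) (d : S.Ext) (a : A) :
    Bool := s d (ε.symm a)

theorem evK_kerXF (I : XInst S) (σ : XSlot S ≃ Fin B) (ε : I.J ≃ A) (s : S.Ext → I.J → Bool)
    (o : XOut S) (x : S.Cell → A → F) (a : A) :
    evK (kerXF F I σ ε o) (xarr (extA I ε s) x) a =
      evX I s (fun e j => x e (ε j)) o (ε.symm a) := by
  classical
  unfold evK evX
  rw [← (Equiv.arrowCongr σ (Equiv.refl (Option (XCt S)))).sum_comp]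
  apply Finset.sum_congr rfl
  intro γ _
  rw [← (Equiv.arrowCongr σ ε).sum_comp]
  apply Finset.sum_congr rfl
  intro α _
  have e1 : ∀ t, (Equiv.arrowCongr σ (Equiv.refl (Option (XCt S)))) γ (σ t) = γ t := by
    intro t
    simp [Equiv.arrowCongr]
  have e2 : ∀ t, ε.symm ((Equiv.arrowCongr σ ε) α (σ t)) = α t := by
    intro t
    simp [Equiv.arrowCongr]
  unfold kerXF
  simp only [e1, e2]
  have e3 : ∏ t : Fin B, valO (xarr (extA I ε s) x)
      ((Equiv.arrowCongr σ (Equiv.refl (Option (XCt S)))) γ t)
      ((Equiv.arrowCongr σ ε) α t) =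
      ∏ t, valO (xarr s fun e j => x e (ε j)) (γ t) (α t) := by
    rw [← σ.prod_comp]
    apply Finset.prod_congr rfl
    intro t _
    rw [e1]
    have e4 : (Equiv.arrowCongr σ ε) α (σ t) = ε (α t) := by
      simp [Equiv.arrowCongr]
    rw [e4]
    rcases γ t with _ | e | ⟨d, b⟩
    · rfl
    · rfl
    · simp [valO, xarr, lit, extA]
  rw [e3]
  split_ifs <;> simp

/-- the array of a configuration on the addresses `A` -/
noncomputable def xcf (I : XInst S) (ε : I.J ≃ A) (w : I.J → S.Cell) : S.Cell → A → F :=
  onehot fun a => w (ε.symm a)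

omit [Fintype A] in
theorem xcf_comp (I : XInst S) (ε : I.J ≃ A) (w : I.J → S.Cell) :
    (fun e j => xcf (F := F) I ε w e (ε j)) = onehot w := by
  funext e j
  simp [xcf, onehot]

omit [Fintype A] in
theorem xcf_inj (I : XInst S) (ε : I.J ≃ A) {w w' : I.J → S.Cell}
    (h : xcf (F := F) I ε w = xcf I ε w') : w = w' := by
  have h1 := congrArg (fun x : S.Cell → A → F => fun e j => x e (ε j)) h
  simp only [xcf_comp] at h1
  exact onehot_inj h1

/-- **Violations.** -/
theorem evK_viol_iff (I : XInst S) (σ : XSlot S ≃ Fin B) (ε : I.J ≃ A) (s : S.Ext → I.J → Bool)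
    (h2 : (1 : F) + 1 = 0) (x : S.Cell → A → F) :
    (∀ o : XOut S, o.viol = true → ∀ a, evK (kerXF F I σ ε o) (xarr (extA I ε s) x) a = 0) ↔
      ∃ w, I.Valid s w ∧ x = xcf I ε w := by
  simp only [evK_kerXF]
  have h3 : (∀ o : XOut S, o.viol = true → ∀ a : A,
      evX I s (fun e j => x e (ε j)) o (ε.symm a) = 0) ↔
      ∀ o : XOut S, o.viol = true → ∀ j : I.J, evX I s (fun e j => x e (ε j)) o j = 0 := by
    constructor
    · intro h o ho j
      have := h o ho (ε j)
      rwa [Equiv.symm_apply_apply] at this
    · intro h o ho a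
      exact h o ho _
  rw [h3, viol_iff I s h2]
  constructor
  · rintro ⟨w, hw, hx⟩
    refine ⟨w, hw, ?_⟩
    funext e a
    have := congrFun (congrFun hx e) (ε.symm a)
    simpa [xcf, onehot] using this
  · rintro ⟨w, hw, rfl⟩
    exact ⟨w, hw, xcf_comp I ε w⟩

/-- **Projection.** -/
theorem evK_proj (I : XInst S) (σ : XSlot S ≃ Fin B) (ε : I.J ≃ A) (s : S.Ext → I.J → Bool)
    (x : S.Cell → A → F) (e : S.Cell) (a : A) :
    evK (kerXF F I σ ε (.proj e)) (xarr (extA I ε s) x) a = x e a := by
  rw [evK_kerXF, evX_proj, Equiv.apply_symm_apply]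

/-- **Next and previous configuration.** -/
theorem evK_next (I : XInst S) (σ : XSlot S ≃ Fin B) (ε : I.J ≃ A) (s : S.Ext → I.J → Bool)
    {w : I.J → S.Cell} (hw : ∃ h, I.IsHead w h) (z : Bool) (e : S.Cell) (a : A) :
    evK (kerXF F I σ ε (.next z e)) (xarr (extA I ε s) (xcf I ε w)) a =
      xcf I ε (I.step s z w) e a := by
  obtain ⟨h, H⟩ := hw
  rw [evK_kerXF, xcf_comp, evX_next I s H]
  simp [xcf, onehot]

end transport

end Vale.Agent.P330.FM
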