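import Vale.Agent.P330.Q.CbFam

/-!
# Functional modules: positions as numbers

`epsZ k : ZMod (2 ^ k) ≃ Addr k`, `ptZ k n` the position with number `n`; equality of positions and
translations by offsets given on numbers are decidable in polynomial time.
-/

namespace Vale.Agent.P330.FM

open Finset Vale.Agent.Lib.PolyTime Vale.Agent.P330.Q

/-- The position with number `n`. -/
def ptZ (k n : ℕ) : ZMod (2 ^ k) := (n : ZMod (2 ^ k))

theorem ptZ_eq_iff (k a b : ℕ) : ptZ k a = ptZ k b ↔ a % 2 ^ k = b % 2 ^ k :=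
  ZMod.natCast_eq_natCast_iff _ _ _

theorem ptZ_mod (k a : ℕ) : ptZ k (a % 2 ^ k) = ptZ k a :=
  (ptZ_eq_iff k _ _).2 (Nat.mod_mod _ _)

theorem val_ptZ (k a : ℕ) : (ptZ k a).val = a % 2 ^ k := ZMod.val_natCast _ _

theorem ptZ_val {k : ℕ} (j : ZMod (2 ^ k)) : ptZ k j.val = j := ZMod.natCast_zmod_val j

theorem ptZ_add (k a b : ℕ) : ptZ k a + ptZ k b = ptZ k (a + b) := (Nat.cast_add a b).symm

/-- The positions as addresses. -/
noncomputable def epsZ (k : ℕ) : ZMod (2 ^ k) ≃ Addr k :=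
  (Equiv.ofBijective (fun n : Fin (2 ^ k) => ptZ k n) (by
    rw [Fintype.bijective_iff_injective_and_card]
    refine ⟨fun a b h => ?_, by rw [ZMod.card, Fintype.card_fin]⟩
    have h1 := (ptZ_eq_iff k _ _).1 h
    rw [Nat.mod_eq_of_lt a.2, Nat.mod_eq_of_lt b.2] at h1
    exact Fin.ext h1)).symm.trans (adrE k)

theorem epsZ_ptZ {k n : ℕ} (hn : n < 2 ^ k) : epsZ k (ptZ k n) = adr k n := by
  unfold epsZ
  rw [Equiv.trans_apply]
  have h1 : ptZ k n = Equiv.ofBijective (fun n : Fin (2 ^ k) => ptZ k n) (by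
      rw [Fintype.bijective_iff_injective_and_card]
      refine ⟨fun a b h => ?_, by rw [ZMod.card, Fintype.card_fin]⟩
      have h1 := (ptZ_eq_iff k _ _).1 h
      rw [Nat.mod_eq_of_lt a.2, Nat.mod_eq_of_lt b.2] at h1
      exact Fin.ext h1) ⟨n, hn⟩ := rfl
  rw [h1, Equiv.symm_apply_apply]
  rfl

theorem epsZ_ptZ' (k n : ℕ) : epsZ k (ptZ k n) = adr k n := by
  rw [← ptZ_mod, epsZ_ptZ (Nat.mod_lt _ (Nat.two_pow_pos _)), adr_mod]

theorem epsZ_symm_adr (k n : ℕ) : (epsZ k).symm (adr k n) = ptZ k n := by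
  rw [Equiv.symm_apply_eq, epsZ_ptZ']

section PT

variable {A : Set Word} {β : Type*} [Enc β] {k : β → ℕ}

theorem PT_two_pow (hk : PT A k) (hb : PBd fun b => 2 ^ k b) : PT A fun b => 2 ^ k b :=
  PT.pow (PT.const 2) hk (hb.mono fun _ => Nat.lt_two_pow_self.le)

theorem DP_ptZ (hk : PT A k) (hb : PBd fun b => 2 ^ k b) {m n : β → ℕ} (hm : PT A m)
    (hn : PT A n) : DP A fun b => ptZ (k b) (m b) = ptZ (k b) (n b) :=
  (DP.eqNat (PT.mod hm (PT_two_pow hk hb)) (PT.mod hn (PT_two_pow hk hb))).congr fun _ =>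
    (ptZ_eq_iff _ _ _).symm

/-- Translation by an offset with the number `o`. -/
theorem DP_ptZ_add (hk : PT A k) (hb : PBd fun b => 2 ^ k b) {m n o : β → ℕ} (hm : PT A m)
    (hn : PT A n) (ho : PT A o) :
    DP A fun b => ptZ (k b) (m b) = ptZ (k b) (n b) + ptZ (k b) (o b) :=
  (DP_ptZ hk hb hm (PT.add hn ho)).congr fun b => by rw [ptZ_add]

/-- The negative of a number modulo `2 ^ k`. -/
def negZ (k o : ℕ) : ℕ := 2 ^ k - o % 2 ^ k

theorem ptZ_neg (k o : ℕ) : ptZ k (negZ k o) = -ptZ k o := by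
  rw [eq_neg_iff_add_eq_zero, ptZ_add]
  have h1 : o % 2 ^ k < 2 ^ k := Nat.mod_lt _ (Nat.two_pow_pos _)
  have h2 : (negZ k o + o) % 2 ^ k = 0 % 2 ^ k := by
    unfold negZ
    have h3 : 2 ^ k - o % 2 ^ k + o = 2 ^ k * (1 + o / 2 ^ k) := by
      have h4 := Nat.div_add_mod o (2 ^ k)
      rw [mul_add, mul_one]
      omega
    rw [h3, Nat.mul_mod_right, Nat.zero_mod]
  rw [(ptZ_eq_iff k _ _).2 h2]
  exact Nat.cast_zero

theorem PT_negZ (hk : PT A k) (hb : PBd fun b => 2 ^ k b) {o : β → ℕ} (ho : PT A o) :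
    PT A fun b => negZ (k b) (o b) :=
  PT.sub (PT_two_pow hk hb) (PT.mod ho (PT_two_pow hk hb))

end PT

end Vale.Agent.P330.FM
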