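import Vale.Agent.P330.FM.XDef
import Vale.Agent.P330.FM.XPub
import Vale.Agent.P330.FM.KerNum
import Vale.Agent.P330.FM.Zn

/-!
# Functional modules: the kernels of a family of machines on numbers

`XNum I k`: numbers for the positions of a family of instances `I a : XInst S`, with `2 ^ k a`
positions; static contents, start contents and offsets in polynomial time.  From this:
* `XNum.DP_ker`: the kernels `kerX` are decidable in polynomial time;
* `XNum.cof`: the coefficients `kerXF` on numbers, as `Coef`;
* `XNum.DP_pred`: the predecessor of the start configuration.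
-/

namespace Vale.Agent.P330.FM

open Finset Vale.Agent.Lib.PolyTime Vale.Agent.P330.Q

/-! ### Closed form of the kernels -/

theorem kerX_next_iff {S : XSpec} (I : XInst S) (z : Bool) (e : S.Cell)
    (γ : XSlot S → Option (XCt S)) (a : I.J) (α : XSlot S → I.J) :
    kerX I (.next z e) γ a α ↔ ∃ (β : S.Ext → Bool) (g : S.Off → S.Cell) (e' : S.Cell),
      S.hd (g S.zero) = true ∧ γ = gamN (opt (S.depR z g) β) e' g ∧
      IsRes I z β g e' (α (Sum.inl (some S.zero))) a e ∧
      α = alN I (S.depR z g) a (α (Sum.inl (some S.zero))) := by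
  constructor
  · rintro ⟨β, g, e', h, hd, hres, hγ, hα⟩
    have h1 : α (Sum.inl (some S.zero)) = h := by
      rw [hα]
      show h + I.off S.zero = h
      rw [I.off_zero, add_zero]
    refine ⟨β, g, e', hd, hγ, ?_, ?_⟩
    · rw [h1]
      exact hres
    · rw [h1]
      exact hα
  · rintro ⟨β, g, e', hd, hγ, hres, hα⟩
    exact ⟨β, g, e', _, hd, hres, hγ, hα⟩

/-! ### Numbers for a family of instances -/

/-- Positions, static contents and start contents on numbers. -/
structure XNum (A : Set Word) {α : Type} [Enc α] {S : XSpec} (I : α → XInst S) (k : α → ℕ) where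
  /-- positions as addresses -/
  ε : ∀ a, (I a).J ≃ Addr (k a)
  /-- position with number `n` -/
  pt : ∀ a, ℕ → (I a).J
  ε_symm : ∀ a n, (ε a).symm (adr (k a) n) = pt a n
  DP_pt : ∀ {β : Type} [Enc β] {g : β → α} {m n : β → ℕ}, PT A g → PT A m → PT A n →
    DP A fun b => pt (g b) (m b) = pt (g b) (n b)
  /-- numbers of the offsets -/
  offN : α → S.Off → ℕ
  pt_add : ∀ a n o, pt a n + (I a).off o = pt a (n + offN a o)
  PT_off : ∀ o, PT A fun a => offN a o
  DP_stat : ∀ {β : Type} [Enc β] {g : β → α} {m : β → ℕ}, PT A g → PT A m → ∀ s : S.Stat,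
    DP A fun b => (I (g b)).stat (pt (g b) (m b)) = s
  DP_w0 : ∀ {β : Type} [Enc β] {g : β → α} {m : β → ℕ}, PT A g → PT A m → ∀ e : S.Cell,
    DP A fun b => (I (g b)).w0 (pt (g b) (m b)) = e

namespace XNum

variable {A : Set Word} {α : Type} [Enc α] {S : XSpec} {I : α → XInst S} {k : α → ℕ}
  (X : XNum A I k)

theorem DP_pt_off {β : Type} [Enc β] {g : β → α} {m n : β → ℕ} (hg : PT A g) (hm : PT A m)
    (hn : PT A n) (o : S.Off) :
    DP A fun b => X.pt (g b) (m b) = X.pt (g b) (n b) + (I (g b)).off o :=
  (X.DP_pt hg hm (PT.add hn ((X.PT_off o).comp hg))).congr fun b => by rw [X.pt_add]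

/-- **The kernels in polynomial time.** -/
theorem DP_ker {β : Type} [Enc β] {g : β → α} (hg : PT A g) (o : XOut S)
    (γ : XSlot S → Option (XCt S)) {m : β → ℕ} (hm : PT A m) {n : β → XSlot S → ℕ}
    (hn : ∀ t, PT A fun b => n b t) :
    DP A fun b => kerX (I (g b)) o γ (X.pt (g b) (m b)) fun t => X.pt (g b) (n b t) := by
  have hall : DP A fun b => (fun t => X.pt (g b) (n b t)) =
      fun _ : XSlot S => X.pt (g b) (m b) :=
    (DP.forall (κ := XSlot S) fun t => X.DP_pt hg (hn t) hm).congr fun b => funext_iff.symm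
  cases o with
  | two e e' => exact (DP.const _).and ((DP.const _).and hall)
  | sum => exact (DP.const _).and hall
  | stat e =>
    exact ((X.DP_stat hg hm (S.statOf e)).congr fun b => eq_comm).not.and
      ((DP.const _).and hall)
  | win β' c =>
    refine (DP.const _).and ((DP.const _).and ?_)
    refine (DP.forall (κ := XSlot S) (p := fun t b => X.pt (g b) (n b t) =
      alW (I (g b)) (X.pt (g b) (m b)) t) fun t => ?_).congr fun b => funext_iff.symm
    rcases t with t | t | t
    · exact X.DP_pt hg (hn _) hm
    · exact X.DP_pt_off hg (hn _) hm _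
    · exact X.DP_pt hg (hn _) hm
  | proj e => exact (DP.const _).and hall
  | next z e =>
    have hh := hn (Sum.inl (some S.zero))
    refine DP.congr ?_ fun b => (kerX_next_iff (I (g b)) z e γ _ _).symm
    refine DP.exists (κ := S.Ext → Bool) fun β' => DP.exists (κ := S.Off → S.Cell) fun G =>
      DP.exists (κ := S.Cell) fun e' => (DP.const _).and ((DP.const _).and (DP.and ?_ ?_))
    · refine DP.or ?_ ?_
      · exact DP.exists (κ := S.Off) fun o' =>
          (DP.const _).and ((X.DP_pt_off hg hm hh o').and (DP.const _))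
      · exact (DP.forall (κ := S.Off) fun o' =>
          (DP.const _).imp (X.DP_pt_off hg hm hh o').not).and (DP.const _)
    · refine (DP.forall (κ := XSlot S) (p := fun t b => X.pt (g b) (n b t) =
        alN (I (g b)) (S.depR z G) (X.pt (g b) (m b))
          (X.pt (g b) (n b (Sum.inl (some S.zero)))) t) fun t => ?_).congr
          fun b => funext_iff.symm
      rcases t with (_ | t) | t | t
      · exact X.DP_pt hg (hn _) hm
      · exact X.DP_pt_off hg (hn _) hh _
      · exact X.DP_pt hg (hn _) hm
      · cases hd : S.depR z G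
        · exact X.DP_pt hg (hn _) hm
        · exact X.DP_pt hg (hn _) hh

/-! ### The coefficients -/

variable (K : Type) [Field K] [Fintype K] {B : ℕ} (σ : XSlot S ≃ Fin B)

/-- **The coefficients on numbers.** -/
noncomputable def cof (o : XOut S) (γ : Fin B → Option (XCt S)) : Coef A α K B where
  X a m n := kerXF K (I a) σ (X.ε a) o γ (adr (k a) m) fun t => adr (k a) (n t)
  pt := by
    intro β _ g m n hg hm hn
    classical
    have h1 := X.DP_ker hg o (fun t => γ (σ t)) hm (n := fun b t => n b (σ t)) fun t => hn (σ t)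
    refine (PTt.boolK (K := K) h1).congr fun b => ?_
    unfold kerXF
    simp only [X.ε_symm, decide_eq_true_eq]

/-! ### The predecessor of the start configuration -/

omit [Enc α] in
/-- The step of a configuration with the head at `h`, if the rule does not look at the external
bits. -/
theorem step_eq_iff' {I : XInst S} {s : S.Ext → I.J → Bool} {w : I.J → S.Cell} {h : I.J} (H : I.IsHead w h)
    {z : Bool} (hd : S.depR z (I.around w h) = false) (j : I.J) (e : S.Cell) :
    I.step s z w j = e ↔ ∃ G : S.Off → S.Cell, (∀ o, w (h + I.off o) = G o) ∧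
      ((∃ o, S.upd o = true ∧ j = h + I.off o ∧ (S.rule z (fun _ => false) G).2 o = e) ∨
        ((∀ o, S.upd o = true → j ≠ h + I.off o) ∧
          ∃ e', w j = e' ∧ (S.rule z (fun _ => false) G).1 e' = e)) := by
  have hr := S.rule_dep z _ hd (fun d => s d h) fun _ => false
  constructor
  · intro he
    refine ⟨I.around w h, fun _ => rfl, ?_⟩
    by_cases hj : ∃ o, S.upd o = true ∧ j = h + I.off o
    · obtain ⟨o, ho, rfl⟩ := hj
      left
      refine ⟨o, ho, rfl, ?_⟩
      rw [← he, XInst.step_upd H z ho, hr]
    · push Not at hj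
      right
      refine ⟨hj, w j, rfl, ?_⟩
      rw [← he, XInst.step_off H z hj, hr]
  · rintro ⟨G, hG, h1⟩
    have hG' : I.around w h = G := funext hG
    subst hG'
    rcases h1 with ⟨o, ho, rfl, h2⟩ | ⟨hj, e', h2, h3⟩
    · rw [XInst.step_upd H z ho, hr, h2]
    · rw [XInst.step_off H z hj, hr, h2, h3]

/-- The predecessor of the start configuration in polynomial time; `h0` is the number of the
position of the head. -/
theorem DP_pred {h0 : α → ℕ} (hh : PT A h0) {s : ∀ a, S.Ext → (I a).J → Bool}
    (H : ∀ a, (I a).IsHead (I a).w0 (X.pt a (h0 a)))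
    (hd : ∀ a, S.depR true ((I a).around (I a).w0 (X.pt a (h0 a))) = false)
    {β : Type} [Enc β] {g : β → α} {m : β → ℕ} (hg : PT A g) (hm : PT A m) (e : S.Cell) :
    DP A fun b => (I (g b)).step (s (g b)) true (I (g b)).w0 (X.pt (g b) (m b)) = e := by
  have hhg : PT A fun b => h0 (g b) := hh.comp hg
  refine DP.congr ?_ fun b => (step_eq_iff' (H (g b)) (hd (g b)) _ e).symm
  refine DP.exists (κ := S.Off → S.Cell) fun G => DP.and ?_ (DP.or ?_ ?_)
  · refine DP.forall (κ := S.Off) fun o => ?_
    exact (X.DP_w0 hg (PT.add hhg ((X.PT_off o).comp hg)) (G o)).congr fun b => by rw [X.pt_add]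
  · exact DP.exists (κ := S.Off) fun o =>
      (DP.const _).and ((X.DP_pt_off hg hm hhg o).and (DP.const _))
  · refine (DP.forall (κ := S.Off) fun o =>
      (DP.const _).imp (X.DP_pt_off hg hm hhg o).not).and ?_
    exact DP.exists (κ := S.Cell) fun e' => (X.DP_w0 hg hm e').and (DP.const _)

end XNum

end Vale.Agent.P330.FM
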