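import Vale.Agent.P330.Q.TSMain

/-!
# Functional module: the local test with arbitrary public bits

The part of the soundness of the test which does not depend on the public bits.  If the line test
and the consistency test fail with small probability then there is a word `s` such that all
corrected reads of the table are the bits of `s`, with high probability.
-/

namespace Vale.Agent.P330.FM

open Finset PCP.AR
open Vale.Agent.P330.Q Vale.Agent.P330.Q.TS
open Vale.Agent.P318.S (crv Low sgn ind CharBd fdist word PolyLe expect_nn expect_mono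
  expect_prod' ind_add_le ind_nonneg ind_le_one crv_zero)
open Vale.Agent.P330.S (b2)
open scoped BigOperators

variable {N : Code}

/-- The corrected read `k` of the table `f`. -/
def rdc (I : CInst N) (f : I.P → Bool) (k : N.K ⊕ N.KT) (ω : I.P × I.Z) : Bool :=
  decide (∑ p : N.U, b2 (f (I.rd (.inl (k, p)) ω).1) = 1)

/-- The bit of the word `s` which is read by `k`. -/
def bitc (I : CInst N) (s : I.Y → I.E) (k : N.K ⊕ N.KT) (x : I.P) : Bool :=
  N.bit (I.A k x.1 x.2) (s (I.g k x.1))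

/-- The raw reads of the test, in the table `f`. -/
def rawT (I : CInst N) (f : I.P → Bool) (ω : I.P × I.Z) (k : N.spec.TK) : Bool :=
  f (I.rd (N.spec.tRd k).1 ω).1

theorem self_eq' (I : CInst N) (ω : I.P × I.Z) : (I.rd (.inr 0) ω).1 = ω.1 :=
  I.self_eq ω.1.1 ω.1.2 ω.2

/-- The three tests. -/
theorem tF_iff (I : CInst N) (f : I.P → Bool) (ω : I.P × I.Z) (pv : N.V → Bool) :
    N.spec.tF (rawT I f ω) pv = true ↔
      (∑ u : N.F, b2 (f (I.rd (.inr u) ω).1) ≠ 0) ∨
      f ω.1 ≠ rdc I f (.inr N.kt0) ω ∨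
      N.testF (fun k => rdc I f (.inr k) ω) pv = true := by
  have e1 : N.spec.tF (rawT I f ω) pv =
      (decide (∑ u : N.F, b2 (f (I.rd (.inr u) ω).1) ≠ 0) ||
      decide (f (I.rd (.inr 0) ω).1 ≠
        decide (∑ p : N.U, b2 (f (I.rd (.inl (.inr N.kt0, p)) ω).1) = 1)) ||
      N.testF (fun k => decide (∑ p : N.U, b2 (f (I.rd (.inl (.inr k, p)) ω).1) = 1)) pv) := rfl
  rw [e1, self_eq']
  simp only [Bool.or_eq_true, decide_eq_true_eq, or_assoc]
  rfl

theorem b2_rdc (I : CInst N) (f : I.P → Bool) (k : N.K ⊕ N.KT) (x : I.P) (z : I.Z) :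
    b2 (rdc I f k (x, z)) = rdSum (tabOf f) I.r (I.g k x.1) (I.A k x.1 x.2) z.2.2 z.2.1 z.1 := by
  have h := I.cval_eq f k x.1 x.2 z
  unfold rdc
  rw [h, b2_decide]

theorem b2_bitc (I : CInst N) (s : I.Y → I.E) (k : N.K ⊕ N.KT) (x : I.P) :
    b2 (bitc I s k x) = N.φ (∑ j, I.A k x.1 x.2 j * s (I.g k x.1) j) := by
  unfold bitc Code.bit
  rw [b2_decide]

/-- **The word of a table.** -/
theorem word_core (I : CInst N) {lam δ : ℝ} (inj : ∀ i, Function.Injective (I.r i))
    (spr : Spr I.r lam) (hlam : (Fintype.card N.F : ℝ) * lam ≤ 1 / 16)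
    (h1 : δ ≤ 1 / (160 * (Fintype.card N.F : ℝ) ^ 2)) (f : I.P → Bool)
    (hl : pr (fun ω : I.P × QPad N.F I.R I.ι N.D =>
      ∑ u : N.F, b2 (f (I.rd (.inr u) ω).1) ≠ 0) ≤ δ)
    (hc : pr (fun ω : I.P × QPad N.F I.R I.ι N.D => f ω.1 ≠ rdc I f (.inr N.kt0) ω) ≤ δ) :
    ∃ (s : I.Y → I.E) (J : Finset I.ι),
      (∀ i ∈ J, ∀ y, Low (Fintype.card N.F - 2 - N.D) fun u : N.F => s (y + I.r i u)) ∧
      (1 - 4 * (Fintype.card N.F : ℝ) * δ) * Fintype.card I.ι ≤ #J ∧
      (∀ k : N.K ⊕ N.KT, pr (fun ω : I.P × QPad N.F I.R I.ι N.D =>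
        rdc I f k ω ≠ bitc I s k ω.1) ≤ (6 + 8 * (Fintype.card N.F : ℝ)) * δ) ∧
      pr (fun x : I.P => f x ≠ N.bit x.2 (s x.1)) ≤ (7 + 8 * (Fintype.card N.F : ℝ)) * δ := by
  classical
  set q : ℕ := Fintype.card N.F with hq
  have a1 : 𝔼 x : I.P, 𝔼 z : QPad N.F I.R I.ι N.D,
      ind (tsum (tabOf f) (I.r (z.2.2 0)) x.1 (Fin.cons x.2 (z.2.1 0) : Fin (N.D + 1) → I.E)) ≤
      δ := by
    rw [pr_sites (Y := I.Y) (E := I.E) (Z := QPad N.F I.R I.ι N.D)] at hl
    refine (expect_mono fun x => expect_mono fun z => ?_).trans hl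
    have e := I.line_eq f x.1 x.2 z
    by_cases h : tsum (tabOf f) (I.r (z.2.2 0)) x.1
      (Fin.cons x.2 (z.2.1 0) : Fin (N.D + 1) → I.E) = 0
    · rw [h, Vale.Agent.P318.S.ind_zero]
      split_ifs <;> norm_num
    · rw [if_pos (by rw [← e] at h; exact h)]
      exact ind_le_one _
  have a2 : 𝔼 x : I.P, 𝔼 z : QPad N.F I.R I.ι N.D,
      ind (rdSum (tabOf f) I.r x.1 x.2 z.2.2 z.2.1 z.1 + tabOf f x.1 x.2) ≤ δ := by
    rw [pr_sites (Y := I.Y) (E := I.E) (Z := QPad N.F I.R I.ι N.D)] at hc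
    refine (expect_mono fun x => expect_mono fun z => ?_).trans hc
    have e : b2 (rdc I f (.inr N.kt0) (x, z)) =
        rdSum (tabOf f) I.r x.1 x.2 z.2.2 z.2.1 z.1 := by
      rw [b2_rdc, I.g_kt0, I.A_kt0]
    by_cases h : rdSum (tabOf f) I.r x.1 x.2 z.2.2 z.2.1 z.1 = tabOf f x.1 x.2
    · rw [h, CharTwo.add_self_eq_zero, Vale.Agent.P318.S.ind_zero]
      split_ifs <;> norm_num
    · rw [if_pos]
      · exact ind_le_one _
      · intro h2
        apply h
        rw [← e, ← h2]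
        rfl
  obtain ⟨s, J, hJ, hlow, hcard, herr⟩ := ltc_core N.φ N.hφ hq.symm N.hD N.hD2 I.exp2 I.r inj
    spr hlam (tabOf f) a1 h1
  refine ⟨s, J, hlow, hcard, fun k => ?_, ?_⟩
  · rw [pr_sites (Y := I.Y) (E := I.E) (Z := QPad N.F I.R I.ι N.D)]
    refine le_trans (expect_mono fun x => expect_mono fun z => ?_)
      (herr (fun x => I.g k x.1) (fun h => ?_) fun x => I.A k x.1 x.2)
    · by_cases h : rdc I f k (x, z) = bitc I s k x
      · rw [if_neg (not_not.2 h)]
        exact err_nonneg _ _ _ _ _ _ _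
      · rw [if_pos h]
        refine one_le_ind fun h0 => h ?_
        have h3 := eq_of_add h0
        rw [← b2_inj, b2_rdc, b2_bitc]
        exact h3
    · rw [expect_prod' (fun x : I.Y × I.E => h (I.g k x.1))]
      have hE : Nonempty I.E := ⟨fun _ => 0⟩
      simp only [Fintype.expect_const]
      exact Fintype.expect_equiv (I.g k) _ _ fun y => rfl
  · have hE : Nonempty I.E := ⟨fun _ => 0⟩
    have h5 := dist_core N.φ I.r (tabOf f) s a2 (herr (fun x => x.1) (fun h => by
      rw [expect_prod' (fun x : I.Y × I.E => h x.1)]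
      simp) fun x => x.2)
    have h6 : fdist (tabOf f) (word N.φ 0 s) ≤ (7 + 8 * (q : ℝ)) * δ :=
      h5.trans (le_of_eq (by ring))
    refine le_trans (le_of_eq ?_) h6
    rw [pr_eq_expect]
    unfold fdist
    rw [← expect_prod' (fun x : I.Y × I.E =>
      ind (tabOf f x.1 x.2 + word N.φ 0 s x.1 x.2))]
    refine expect_congr rfl fun p _ => ?_
    have e1 : f p ≠ N.bit p.2 (s p.1) ↔ tabOf f p.1 p.2 + word N.φ 0 s p.1 p.2 ≠ 0 := by
      constructor
      · intro h h0
        apply h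
        have h1 := eq_of_add h0
        simp only [tabOf, word, Pi.zero_apply, zero_add] at h1
        rw [← b2_inj, Code.bit, b2_decide]
        exact h1
      · intro h h1
        apply h
        simp only [tabOf, word, Pi.zero_apply, zero_add]
        rw [h1, Code.bit, b2_decide, CharTwo.add_self_eq_zero]
    by_cases h : tabOf f p.1 p.2 + word N.φ 0 s p.1 p.2 = 0
    · rw [if_neg (by rw [e1]; exact fun h' => h' h), h, Vale.Agent.P318.S.ind_zero]
    · rw [if_pos (e1.2 h)]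
      rcases Vale.Agent.P318.S.zmod2_cases (tabOf f p.1 p.2 + word N.φ 0 s p.1 p.2) with h1 | h1
      · exact absurd h1 h
      · rw [h1, Vale.Agent.P318.S.ind_one]

end Vale.Agent.P330.FM
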