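import Vale.Agent.P330.FM.FSys

/-!
# The core network: good sites

`Good`: all definitions hold at the site and all averages are close to the means.
`exists_good`: for small parameters almost all sites are good.
-/

namespace Vale.Agent.P330.FM

open Finset PCP.AR
open H855 (mean)
open S (BitDef MDef Sem IsB)
open Vale.Agent.P330.Q (LSpec LReg LInst net)

variable {S : FSpec}

/-- The value of a renamed Boolean function of known bits. -/
theorem rel_mapBit {Reg Reg' Rd Rd' CB CB' Ω : Type} {f : Reg → Reg'} {r : Rd → Rd'}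
    {c : CB → CB'} {B : BitDef Reg Rd CB} {E : Sem Rd' CB' Ω} {ε lam : ℝ} {x : Reg' → Ω → ℝ}
    {ρ : Reg'} {ω : Ω} (h : (XDef.bit (mapBit f r c B)).Rel E ε lam x ρ ω)
    (v : Rd → Reg → Bool)
    (hv : ∀ i R a, B.inp i = .inl (R, a) → IsB ε (v R a) (x (f a) (E.rd (r R) ω))) :
    IsB ε (evB B v fun κ => E.cb (c κ) ω) (x ρ ω) := by
  refine rel_bit h _ fun y hy => ?_
  show B.f y = B.f _
  congr 1
  funext i
  have h1 := hy i
  simp only [mapBit] at h1
  rcases hi : B.inp i with ⟨R, a⟩ | κ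
  · rw [hi] at h1
    exact h1 _ (hv i R a hi)
  · rw [hi] at h1
    exact h1

theorem pr_le_of_or {Ω : Type*} [Fintype Ω] {p q r : Ω → Prop} (h : ∀ ω, p ω → q ω ∨ r ω) :
    pr p ≤ pr q + pr r := (pr_mono h).trans (pr_or _ _)

theorem pr_ex {Ω κ : Type*} [Fintype Ω] [Fintype κ] (E : κ → Ω → Prop) {c : ℝ}
    (h : ∀ k, pr (E k) ≤ c) : pr (fun t => ∃ k, E k t) ≤ Fintype.card κ * c :=
  S.pr_exists_le E c h

theorem pr_bij {Ω : Type*} [Fintype Ω] {f : Ω → Ω} (hf : Function.Bijective f) (p : Ω → Prop) :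
    pr (fun ω => p (f ω)) = pr p := pr_equiv (Equiv.ofBijective f hf) p

/-- A function which is close to a bit has a mean close to the probability. -/
theorem mean_le_of_isB_false {Ω : Type*} [Fintype Ω] [Nonempty Ω] {f : Ω → ℝ} {ε c : ℝ} (hε : 0 ≤ ε)
    (hf : ∀ ω, 0 ≤ f ω ∧ f ω ≤ 1) (h : pr (fun ω => ¬ IsB ε false (f ω)) ≤ c) :
    mean f ≤ ε + c := by
  classical
  obtain ⟨p, hp⟩ : ∃ p : Ω → Prop, ∀ ω, (¬ IsB ε false (f ω)) ↔ p ω := ⟨_, fun _ => Iff.rfl⟩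
  rw [pr_congr hp] at h
  have h1 : ∀ ω, f ω ≤ ε + if p ω then (1 : ℝ) else 0 := by
    intro ω
    by_cases h2 : p ω
    · simp only [h2, if_true]
      linarith [(hf ω).2]
    · simp only [h2, if_false, add_zero]
      rw [← hp, not_not] at h2
      simpa [IsB] using h2
  refine (S.mean_mono h1).trans ?_
  rw [S.mean_add, S.mean_const, ← S.pr_eq_mean]
  linarith

theorem le_mean_of_isB_true {Ω : Type*} [Fintype Ω] [Nonempty Ω] {f : Ω → ℝ} {ε c : ℝ} (hε : 0 ≤ ε)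
    (hf : ∀ ω, 0 ≤ f ω ∧ f ω ≤ 1) (h : pr (fun ω => ¬ IsB ε true (f ω)) ≤ c) :
    1 - ε - c ≤ mean f := by
  classical
  obtain ⟨p, hp⟩ : ∃ p : Ω → Prop, ∀ ω, (¬ IsB ε true (f ω)) ↔ p ω := ⟨_, fun _ => Iff.rfl⟩
  rw [pr_congr hp] at h
  have h1 : ∀ ω, (1 - ε) ≤ f ω + if p ω then (1 : ℝ) else 0 := by
    intro ω
    by_cases h2 : p ω
    · simp only [h2, if_true]
      linarith [(hf ω).1]
    · simp only [h2, if_false, add_zero]
      rw [← hp, not_not] at h2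
      simpa [IsB] using h2
  have h2 := S.mean_mono h1
  rw [S.mean_add, S.mean_const, ← S.pr_eq_mean] at h2
  linarith

theorem pr_true_le_mean {Ω : Type*} [Fintype Ω] {f : Ω → ℝ} {ε : ℝ} (hε : ε ≤ 1 / 2)
    (hf : ∀ ω, 0 ≤ f ω ∧ f ω ≤ 1) : pr (fun ω => IsB ε true (f ω)) ≤ 2 * mean f := by
  have h := S.mul_pr_le_mean (f := f) (p := fun ω => IsB ε true (f ω)) (c := 1 / 2)
    (fun ω => (hf ω).1) fun ω hω => by
      have : 1 - ε ≤ f ω := by simpa [IsB] using hω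
      linarith
  linarith

/-- mean of the register `x false c` over the pads -/
noncomputable def mX (I : FInst S) (x : CReg S → I.W → ℝ) (c : S.N.C) (p : I.P) : ℝ :=
  mean fun z => x (.inn (.x false c)) (p, z)

/-- mean of the register `m l` over the pads -/
noncomputable def mM (I : FInst S) (x : CReg S → I.W → ℝ) (l : S.L) (p : I.P) : ℝ :=
  mean fun z => x (.m l) (p, z)

/-- All definitions hold at the site and all averages are close to the means. -/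
structure Good (I : FInst S) (q : CConst) (ε lam δ : ℝ) (x : CReg S → I.W → ℝ)
    (u : S.K × S.L → I.W → ℝ) (ω : I.W) : Prop where
  rel : ∀ ρ, (coreDef q ρ).Rel I.sem ε lam (Sum.elim x u) (.inl ρ) ω
  xp : ∀ c, |x (.xp c) ω - mX I x c ω.1| ≤ δ
  p : ∀ l, |x (.p l) ω - mM I x l ω.1| ≤ δ
  ea : |x .ea ω - mean (x .e)| ≤ δ
  ta : |x .ta ω - mean (x .t)| ≤ δ

/-- **Almost all sites are good.** -/
theorem exists_good (S : FSpec) {g δ : ℝ} (hg0 : 0 ≤ g) (hg1 : g < 1) (hδ : 0 < δ) :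
    ∃ η : ℝ, 0 < η ∧ ∀ I : FInst S, H855.Gap I.sP g → H855.Gap I.sZ g → ∀ (q : CConst)
      (ε lam β : ℝ), Small η ε lam β → ∀ (x : CReg S → I.W → ℝ) (u : S.K × S.L → I.W → ℝ),
      CObeys I q ε lam β x u → 2 * ε ≤ δ ∧ pr (fun ω => ¬ Good I q ε lam δ x u ω) ≤ δ := by
  classical
  set n : ℝ := (Fintype.card (CReg S) : ℝ) + Fintype.card S.N.C + Fintype.card S.L + 2 with hn
  have hn2 : 2 ≤ n := by
    have h1 : (0 : ℝ) ≤ Fintype.card (CReg S) := Nat.cast_nonneg _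
    have h2 : (0 : ℝ) ≤ Fintype.card S.N.C := Nat.cast_nonneg _
    have h3 : (0 : ℝ) ≤ Fintype.card S.L := Nat.cast_nonneg _
    rw [hn]; linarith
  set δ' : ℝ := δ / n with hδ'
  have hδ'0 : 0 < δ' := by positivity
  have hδ'1 : δ' ≤ δ := div_le_self hδ.le (by linarith)
  have hδ'n : δ' * n = δ := by rw [hδ']; field_simp
  obtain ⟨η₁, h1, H1⟩ := ra_glob_small (g := g) (δ := δ') hg0 hg1 hδ'0
  obtain ⟨η₂, h2, H2⟩ := ra_pad_small (g := g) (δ := δ') hg0 hg1 hδ'0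
  refine ⟨min (min η₁ η₂) (min 1 (δ' / 2)), lt_min (lt_min h1 h2) (lt_min one_pos (by linarith)), ?_⟩
  intro I gP gZ q ε lam β hs x u hO
  have s1 : Small η₁ ε lam β := hs.mono ((min_le_left _ _).trans (min_le_left _ _))
  have s2 : Small η₂ ε lam β := hs.mono ((min_le_left _ _).trans (min_le_right _ _))
  have s3 : Small 1 ε lam β := hs.mono ((min_le_right _ _).trans (min_le_left _ _))
  have s4 : Small (δ' / 2) ε lam β := hs.mono ((min_le_right _ _).trans (min_le_right _ _))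
  have hlam1 : lam ≤ 1 := s3.lam_le
  have hε : 2 * ε ≤ δ' := by
    have := s4.ε_le
    have := s4.lam_pos
    nlinarith
  have hβ : β ≤ δ' := by
    have := s4.β_le
    have := s4.lam_pos
    nlinarith
  refine ⟨hε.trans hδ'1, ?_⟩
  -- the averages
  have nbE : ∀ (k : Fin 8) (ω : I.P × I.Z), I.sem.nb k ω =
      if h : (k : ℕ) < 4 then (ω.1, I.sZ ⟨k, h⟩ ω.2) else (I.sP ⟨k - 4, by omega⟩ ω.1, ω.2) :=
    fun _ _ => rfl
  have hglob : ∀ ρ ρ' : CReg S, coreDef q ρ = .ra none true (.inl ρ') →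
      pr (fun ω => δ' < |x ρ ω - mean (x ρ')|) ≤ δ' := by
    intro ρ ρ' hd
    refine H1 gP gZ nbE (hO.mem ρ) (hO.mem ρ') s1 ?_
    have h3 := hO.rel ρ
    rw [hd] at h3
    exact h3
  have hpad : ∀ ρ ρ' : CReg S, coreDef q ρ = .ra none false (.inl ρ') →
      pr (fun ω : I.P × I.Z => δ' < |x ρ ω - mean fun z => x ρ' (ω.1, z)|) ≤ δ' := by
    intro ρ ρ' hd
    refine H2 gZ (hO.mem ρ) (hO.mem ρ') s2 ?_
    have h3 := hO.rel ρ
    rw [hd] at h3
    exact h3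
  have k1 : pr (fun ω => ∃ ρ, ¬ (coreDef q ρ).Rel I.sem ε lam (Sum.elim x u) (.inl ρ) ω) ≤
      Fintype.card (CReg S) * δ' := pr_ex _ fun ρ => (hO.rel ρ).trans hβ
  have k2 : pr (fun ω : I.W => ∃ c : S.N.C, δ' < |x (.xp c) ω - mX I x c ω.1|) ≤
      Fintype.card S.N.C * δ' := pr_ex _ fun c => hpad (.xp c) _ rfl
  have k3 : pr (fun ω : I.W => ∃ l : S.L, δ' < |x (.p l) ω - mM I x l ω.1|) ≤
      Fintype.card S.L * δ' := pr_ex _ fun l => hpad (.p l) _ rfl
  have k4 := hglob .ea .e rfl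
  have k5 := hglob .ta .t rfl
  have key : pr (fun ω => ¬ Good I q ε lam δ x u ω) ≤
      pr (fun ω => ∃ ρ, ¬ (coreDef q ρ).Rel I.sem ε lam (Sum.elim x u) (.inl ρ) ω) +
      (pr (fun ω : I.W => ∃ c : S.N.C, δ' < |x (.xp c) ω - mX I x c ω.1|) +
      (pr (fun ω : I.W => ∃ l : S.L, δ' < |x (.p l) ω - mM I x l ω.1|) +
      (pr (fun ω => δ' < |x .ea ω - mean (x .e)|) +
        pr (fun ω => δ' < |x .ta ω - mean (x .t)|)))) := by
    refine (pr_le_of_or (q := fun ω => ∃ ρ, ¬ (coreDef q ρ).Rel I.sem ε lam (Sum.elim x u) (.inl ρ) ω)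
      (r := fun ω : I.W => (∃ c : S.N.C, δ' < |x (.xp c) ω - mX I x c ω.1|) ∨
        (∃ l : S.L, δ' < |x (.p l) ω - mM I x l ω.1|) ∨ δ' < |x .ea ω - mean (x .e)| ∨
        δ' < |x .ta ω - mean (x .t)|) fun ω hω => ?_).trans ?_
    · by_contra hc
      push Not at hc
      obtain ⟨c1, c2, c3, c4, c5⟩ := hc
      exact hω ⟨c1, fun c => (c2 c).trans hδ'1, fun l => (c3 l).trans hδ'1, c4.trans hδ'1,
        c5.trans hδ'1⟩
    · gcongr
      refine (pr_or _ _).trans ?_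
      gcongr
      refine (pr_or _ _).trans ?_
      gcongr
      exact pr_or _ _
  refine key.trans ?_
  have : (Fintype.card (CReg S) : ℝ) * δ' + (Fintype.card S.N.C * δ' + (Fintype.card S.L * δ' +
      (δ' + δ'))) = δ := by
    rw [← hδ'n, hn]; ring
  linarith

end Vale.Agent.P330.FM
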