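import Vale.Agent.P330.FM.CoreA

/-!
# The core network: the decoder

`decoder`: if the raw output is `ρ`-near the code of the block `b`, for a small constant `ρ`, then
the output of the decoder is as near to this code as we like.
-/

namespace Vale.Agent.P330.FM

open Finset PCP.AR
open H855 (mean)
open S (BitDef MDef Sem IsB)

variable {S : FSpec} {I : FInst S} {q : CConst} {ε lam δ : ℝ} {x : CReg S → I.W → ℝ}
  {u : S.K × S.L → I.W → ℝ}

/-! ### Thresholds at good sites -/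

theorem thr_true {t t' α : ℝ}
    (h : (α + 2 * ε < t' → IsB ε true t) ∧ (t' < α - 2 * ε → IsB ε false t)) {m : ℝ}
    (hm : |t' - m| ≤ δ) (h2 : 2 * ε ≤ δ) (hα : α + 2 * δ < m) : IsB ε true t := by
  refine h.1 ?_
  have := (abs_le.1 hm).1
  linarith

theorem thr_false {t t' α : ℝ}
    (h : (α + 2 * ε < t' → IsB ε true t) ∧ (t' < α - 2 * ε → IsB ε false t)) {m : ℝ}
    (hm : |t' - m| ≤ δ) (h2 : 2 * ε ≤ δ) (hα : m < α - 2 * δ) : IsB ε false t := by
  refine h.2 ?_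
  have := (abs_le.1 hm).2
  linarith

/-! ### The decoder -/

/-- the raw output is wrong -/
def XoW (I : FInst S) (ε : ℝ) (x : CReg S → I.W → ℝ) (b : I.Bl) (ω : I.W) : Prop :=
  ∃ l, ¬ IsB ε (I.enc b l ω.1) (x (.xo l) ω)

/-- the output of the decoder is wrong -/
def YW (I : FInst S) (ε : ℝ) (x : CReg S → I.W → ℝ) (b : I.Bl) (ω : I.W) : Prop :=
  ∃ l, ¬ IsB ε (I.enc b l ω.1) (x (.y l) ω)

/-- the input of the average of the decoder is wrong -/
def MW (I : FInst S) (ε : ℝ) (x : CReg S → I.W → ℝ) (b : I.Bl) (ω : I.W) : Prop :=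
  ∃ l, ¬ IsB ε (I.enc b l ω.1) (x (.m l) ω)

/-- points whose average may be wrong or ambiguous -/
def BY (I : FInst S) (x : CReg S → I.W → ℝ) (b : I.Bl) (p : I.P) : Prop :=
  ∃ l, (I.enc b l p = true ∧ mM I x l p < 5 / 8) ∨ (I.enc b l p = false ∧ 3 / 8 < mM I x l p)

/-- points with many wrong pads -/
def BM (I : FInst S) (ε : ℝ) (x : CReg S → I.W → ℝ) (b : I.Bl) (p : I.P) : Prop :=
  5 / 32 ≤ pr fun z => MW I ε x b (p, z)

theorem not_BM_mean {b : I.Bl} {p : I.P} (hε : 0 ≤ ε) (hx : ∀ ρ ω, 0 ≤ x ρ ω ∧ x ρ ω ≤ 1)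
    (h : ¬ BM I ε x b p) (l : S.L) :
    (I.enc b l p = true → 27 / 32 - ε ≤ mM I x l p) ∧
      (I.enc b l p = false → mM I x l p ≤ 5 / 32 + ε) := by
  unfold BM at h
  push Not at h
  constructor
  · intro hb
    have h1 : pr (fun z => ¬ IsB ε true (x (.m l) (p, z))) ≤ 5 / 32 :=
      (pr_mono fun z hz => ⟨l, by rw [hb]; exact hz⟩).trans h.le
    have h2 := le_mean_of_isB_true hε (fun z => hx (.m l) (p, z)) h1
    show 27 / 32 - ε ≤ mean fun z => x (.m l) (p, z)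
    linarith
  · intro hb
    have h1 : pr (fun z => ¬ IsB ε false (x (.m l) (p, z))) ≤ 5 / 32 :=
      (pr_mono fun z hz => ⟨l, by rw [hb]; exact hz⟩).trans h.le
    have h2 := mean_le_of_isB_false hε (fun z => hx (.m l) (p, z)) h1
    show mean (fun z => x (.m l) (p, z)) ≤ 5 / 32 + ε
    linarith

theorem BY_imp_BM {b : I.Bl} {p : I.P} (hε : 0 ≤ ε) (hε2 : ε < 1 / 8)
    (hx : ∀ ρ ω, 0 ≤ x ρ ω ∧ x ρ ω ≤ 1) (h : BY I x b p) : BM I ε x b p := by
  by_contra hc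
  obtain ⟨l, h1 | h1⟩ := h
  · have := (not_BM_mean hε hx hc l).1 h1.1
    linarith [h1.2]
  · have := (not_BM_mean hε hx hc l).2 h1.1
    linarith [h1.2]

/-- Claim 1: at good sites outside `BM` all thresholds are right. -/
theorem right_of_not_BM {b : I.Bl} {ω : I.W} (hε : 0 ≤ ε) (hδ : δ ≤ 1 / 64) (h2 : 2 * ε ≤ δ)
    (hx : ∀ ρ ω, 0 ≤ x ρ ω ∧ x ρ ω ≤ 1) (hg : Good I q ε lam δ x u ω)
    (h : ¬ BM I ε x b ω.1) (l : S.L) : IsB ε (I.enc b l ω.1) (x (.y l) ω) ∧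
      IsB ε (I.enc b l ω.1) (x (.yl l) ω) ∧ IsB ε (I.enc b l ω.1) (x (.yh l) ω) := by
  have hm := not_BM_mean hε hx h l
  have r1 := hg.rel (.y l)
  have r2 := hg.rel (.yl l)
  have r3 := hg.rel (.yh l)
  have hp := hg.p l
  have c1 : ((1 / 2 : ℚ) : ℝ) = 1 / 2 := by push_cast; rfl
  have c2 : ((1 / 4 : ℚ) : ℝ) = 1 / 4 := by push_cast; rfl
  have c3 : ((3 / 4 : ℚ) : ℝ) = 3 / 4 := by push_cast; rfl
  cases hb : I.enc b l ω.1 with
  | true =>
    have h3 := hm.1 hb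
    refine ⟨thr_true r1 hp h2 ?_, thr_true r2 hp h2 ?_, thr_true r3 hp h2 ?_⟩
    · rw [c1]; linarith
    · rw [c2]; linarith
    · rw [c3]; linarith
  | false =>
    have h3 := hm.2 hb
    refine ⟨thr_false r1 hp h2 ?_, thr_false r2 hp h2 ?_, thr_false r3 hp h2 ?_⟩
    · rw [c1]; linarith
    · rw [c2]; linarith
    · rw [c3]; linarith

/-- Claim 1': at good sites outside `BY` the output is right. -/
theorem y_right_of_not_BY {b : I.Bl} {ω : I.W} (hδ : δ ≤ 1 / 64) (h2 : 2 * ε ≤ δ)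
    (hg : Good I q ε lam δ x u ω) (h : ¬ BY I x b ω.1) : ¬ YW I ε x b ω := by
  rintro ⟨l, hl⟩
  apply hl
  unfold BY at h
  push Not at h
  have hm := h l
  have r1 := hg.rel (.y l)
  have hp := hg.p l
  have c1 : ((1 / 2 : ℚ) : ℝ) = 1 / 2 := by push_cast; rfl
  cases hb : I.enc b l ω.1 with
  | true =>
    have h3 := hm.1 hb
    refine thr_true r1 hp h2 ?_
    rw [c1]; linarith
  | false =>
    have h3 := hm.2 hb
    refine thr_false r1 hp h2 ?_
    rw [c1]; linarith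

/-- Claim 2: the multiplexer. -/
theorem m_right {ρ₁ g : ℝ} (hF : I.Facts ρ₁ g) {b : I.Bl} {ω : I.W} (hε : ε < 1 / 2)
    (hg : Good I q ε lam δ x u ω)
    (h : ((¬ XoW I ε x b ω) ∧ (IsB ε true (x .nok ω) ∨ ¬ ∃ k : S.DK, YW I ε x b (I.rd (S.dRd k) ω))) ∨
      ((¬ ∃ k : S.DK, YW I ε x b (I.rd (S.dRd k) ω)) ∧ IsB ε false (x .nok ω))) :
    ¬ MW I ε x b ω := by
  rintro ⟨l, hl⟩
  apply hl
  have hself : I.sem.rd S.self ω = ω := hF.rd_self ω
  refine rel_bit (hg.rel (.m l)) _ fun y hy => ?_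
  have e1 := hy none
  have e2 := hy (some none)
  have e3 : ∀ k : S.DK, _ := fun k => hy (some (some k))
  simp only [mBit, Sum.elim_inl, hself] at e1 e2 e3
  -- the value of the corrected read
  have hD : (¬ ∃ k : S.DK, YW I ε x b (I.rd (S.dRd k) ω)) →
      S.dF (fun k => y (some (some k))) = I.enc b l ω.1 := by
    intro hY
    push Not at hY
    rw [← hF.d_ok b l ω]
    congr 1
    funext k
    have h4 := hY k
    unfold YW at h4
    push Not at h4
    exact e3 k _ (h4 l)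
  have hX : ¬ XoW I ε x b ω → y (some none) = I.enc b l ω.1 := by
    intro hX
    unfold XoW at hX
    push Not at hX
    exact e2 _ (hX l)
  show (if y none = true then y (some none) else S.dF fun k => y (some (some k))) = _
  rcases h with ⟨h1, h1' | h1'⟩ | ⟨h1, h1'⟩
  · rw [e1 true h1', if_pos rfl]
    exact hX h1
  · by_cases hn : y none = true
    · rw [if_pos hn]; exact hX h1
    · rw [if_neg hn]; exact hD h1'
  · rw [e1 false h1', if_neg (by simp)]
    exact hD h1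

/-- Claim 3: a point of `BY` gives an alarm, or the raw output is wrong. -/
theorem e_true_of_BY {b : I.Bl} {ω : I.W} (hF : ∀ ω, I.rd S.self ω = ω)
    (hδ : δ ≤ 1 / 64) (h2 : 2 * ε ≤ δ)
    (hg : Good I q ε lam δ x u ω) (h : BY I x b ω.1) (hX : ¬ XoW I ε x b ω) :
    IsB ε true (x .e ω) := by
  classical
  obtain ⟨l, hl⟩ := h
  have hself : I.sem.rd S.self ω = ω := hF ω
  refine rel_bit (hg.rel .e) _ fun y hy => ?_
  have e0 := hy (0, l)
  have e1 := hy (1, l)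
  have e2 := hy (2, l)
  have e3 := hy (3, l)
  simp only [eBit, Sum.elim_inl, hself, Fin.isValue, if_true, if_neg (by decide : ¬ (1 : Fin 4) = 0),
    if_neg (by decide : ¬ (2 : Fin 4) = 0), if_neg (by decide : ¬ (2 : Fin 4) = 1),
    if_neg (by decide : ¬ (3 : Fin 4) = 0), if_neg (by decide : ¬ (3 : Fin 4) = 1),
    if_neg (by decide : ¬ (3 : Fin 4) = 2)] at e0 e1 e2 e3
  unfold XoW at hX
  push Not at hX
  have e3' := e3 _ (hX l)
  have r0 := hg.rel (.y l)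
  have r1 := hg.rel (.yl l)
  have r2 := hg.rel (.yh l)
  have hp := hg.p l
  have c1 : ((1 / 2 : ℚ) : ℝ) = 1 / 2 := by push_cast; rfl
  have c2 : ((1 / 4 : ℚ) : ℝ) = 1 / 4 := by push_cast; rfl
  have c3 : ((3 / 4 : ℚ) : ℝ) = 3 / 4 := by push_cast; rfl
  show decide (∃ l, (y (1, l) = true ∧ y (2, l) = false) ∨ y (0, l) ≠ y (3, l)) = true
  refine decide_eq_true ⟨l, ?_⟩
  by_cases hm : 3 / 8 < mM I x l ω.1 ∧ mM I x l ω.1 < 5 / 8
  · left
    refine ⟨e1 true (thr_true r1 hp h2 ?_), e2 false (thr_false r2 hp h2 ?_)⟩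
    · rw [c2]; linarith [hm.1]
    · rw [c3]; linarith [hm.2]
  · right
    rcases hl with ⟨hb, h1⟩ | ⟨hb, h1⟩
    · have h3 : mM I x l ω.1 ≤ 3 / 8 := by
        by_contra hc
        exact hm ⟨not_le.1 hc, h1⟩
      have h4 : y (0, l) = false := e0 false (thr_false r0 hp h2 (by rw [c1]; linarith))
      rw [h4, e3', hb]
      decide
    · have h3 : 5 / 8 ≤ mM I x l ω.1 := by
        by_contra hc
        exact hm ⟨h1, not_le.1 hc⟩
      have h4 : y (0, l) = true := e0 true (thr_true r0 hp h2 (by rw [c1]; linarith))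
      rw [h4, e3', hb]
      decide

/-- Claim 4: no alarm at good sites outside `BM` where the raw output is right. -/
theorem e_false_of {b : I.Bl} {ω : I.W} (hF : ∀ ω, I.rd S.self ω = ω) (hε : 0 ≤ ε)
    (hδ : δ ≤ 1 / 64) (h2 : 2 * ε ≤ δ) (hx : ∀ ρ ω, 0 ≤ x ρ ω ∧ x ρ ω ≤ 1)
    (hg : Good I q ε lam δ x u ω) (h : ¬ BM I ε x b ω.1) (hX : ¬ XoW I ε x b ω) :
    IsB ε false (x .e ω) := by
  classical
  have hself : I.sem.rd S.self ω = ω := hF ω
  refine rel_bit (hg.rel .e) _ fun y hy => ?_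
  have e0 := fun l => hy (0, l)
  have e1 := fun l => hy (1, l)
  have e2 := fun l => hy (2, l)
  have e3 := fun l => hy (3, l)
  simp only [eBit, Sum.elim_inl, hself, Fin.isValue, if_true, if_neg (by decide : ¬ (1 : Fin 4) = 0),
    if_neg (by decide : ¬ (2 : Fin 4) = 0), if_neg (by decide : ¬ (2 : Fin 4) = 1),
    if_neg (by decide : ¬ (3 : Fin 4) = 0), if_neg (by decide : ¬ (3 : Fin 4) = 1),
    if_neg (by decide : ¬ (3 : Fin 4) = 2)] at e0 e1 e2 e3
  unfold XoW at hX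
  push Not at hX
  show decide (∃ l, (y (1, l) = true ∧ y (2, l) = false) ∨ y (0, l) ≠ y (3, l)) = false
  refine decide_eq_false ?_
  rintro ⟨l, hl⟩
  obtain ⟨a0, a1, a2⟩ := right_of_not_BM hε hδ h2 hx hg h l
  have b0 := e0 l _ a0
  have b1 := e1 l _ a1
  have b2 := e2 l _ a2
  have b3 := e3 l _ (hX l)
  rw [b0, b1, b2, b3] at hl
  rcases hl with ⟨h3, h4⟩ | h3
  · rw [h3] at h4; exact absurd h4 (by simp)
  · exact h3 rfl

/-! ### The probabilities -/

/-- the site or one of the sites read by the decoder is not good -/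
def NG (I : FInst S) (q : CConst) (ε lam δ : ℝ) (x : CReg S → I.W → ℝ)
    (u : S.K × S.L → I.W → ℝ) (ω : I.W) : Prop :=
  ¬ Good I q ε lam δ x u ω ∨ ∃ k : S.DK, ¬ Good I q ε lam δ x u (I.rd (S.dRd k) ω)

theorem pr_NG {ρ₁ g : ℝ} (hF : I.Facts ρ₁ g) (h : pr (fun ω => ¬ Good I q ε lam δ x u ω) ≤ δ) :
    pr (NG I q ε lam δ x u) ≤ (Fintype.card S.DK + 1) * δ := by
  have h1 : pr (fun ω => ∃ k : S.DK, ¬ Good I q ε lam δ x u (I.rd (S.dRd k) ω)) ≤
      Fintype.card S.DK * δ :=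
    pr_ex _ fun k => (pr_bij (hF.rd_bij (S.dRd k)) fun ω => ¬ Good I q ε lam δ x u ω).le.trans h
  have h2 := pr_or (fun ω => ¬ Good I q ε lam δ x u ω)
    (fun ω => ∃ k : S.DK, ¬ Good I q ε lam δ x u (I.rd (S.dRd k) ω))
  have h3 : pr (NG I q ε lam δ x u) = pr (fun ω => ¬ Good I q ε lam δ x u ω ∨
    ∃ k : S.DK, ¬ Good I q ε lam δ x u (I.rd (S.dRd k) ω)) := rfl
  linarith

/-- **Contraction.** -/
theorem contract {ρ₁ g : ℝ} (hF : I.Facts ρ₁ g) {b : I.Bl} (hε : 0 ≤ ε) (hδ : δ ≤ 1 / 64)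
    (h2 : 2 * ε ≤ δ) (hx : ∀ ρ ω, 0 ≤ x ρ ω ∧ x ρ ω ≤ 1) (E : I.W → Prop)
    (hE : ∀ ω, Good I q ε lam δ x u ω → MW I ε x b ω →
      E ω ∨ ∃ k : S.DK, YW I ε x b (I.rd (S.dRd k) ω))
    (hB : pr (BY I x b) ≤ ρ₁) :
    pr (BM I ε x b) ≤ 64 * pr (fun ω => NG I q ε lam δ x u ω ∨ E ω) := by
  classical
  set G : I.W → Prop := fun ω => NG I q ε lam δ x u ω ∨ E ω with hG
  have key : ∀ ω, MW I ε x b ω → G ω ∨ ∃ k : S.DK, BY I x b (I.rd (S.dRd k) ω).1 := by
    intro ω hω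
    by_cases hgω : Good I q ε lam δ x u ω
    swap
    · exact Or.inl (Or.inl (Or.inl hgω))
    rcases hE ω hgω hω with h | ⟨k, hk⟩
    · exact Or.inl (Or.inr h)
    · by_cases hg : Good I q ε lam δ x u (I.rd (S.dRd k) ω)
      · right
        refine ⟨k, ?_⟩
        by_contra hc
        exact y_right_of_not_BY hδ h2 hg hc hk
      · exact Or.inl (Or.inl (Or.inr ⟨k, hg⟩))
  have h3 : ∀ p, BM I ε x b p → (1 / 32 ≤ pr fun z => G (p, z)) ∨
      1 / 8 ≤ pr fun z : I.Z => ∃ k : S.DK, BY I x b (I.rd (S.dRd k) (p, z)).1 := by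
    intro p hp
    by_contra hc
    push Not at hc
    have h4 : pr (fun z => MW I ε x b (p, z)) ≤ pr (fun z => G (p, z)) +
        pr fun z : I.Z => ∃ k : S.DK, BY I x b (I.rd (S.dRd k) (p, z)).1 :=
      pr_le_of_or fun z hz => key (p, z) hz
    have h5 : (5 : ℝ) / 32 ≤ pr fun z => MW I ε x b (p, z) := hp
    linarith
  have h4 : pr (BM I ε x b) ≤ pr (fun p => 1 / 32 ≤ pr fun z => G (p, z)) +
      pr (fun p => 1 / 8 ≤ pr fun z : I.Z => ∃ k : S.DK, BY I x b (I.rd (S.dRd k) (p, z)).1) :=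
    pr_le_of_or h3
  have h5 := hF.samp (BY I x b) hB
  have h6 : pr (BY I x b) ≤ pr (BM I ε x b) := pr_mono fun p hp => BY_imp_BM hε (by linarith) hx hp
  have h7 := Vale.Agent.P330.S.pr_fiber (V := I.P) (W := I.Z) G (1 / 32)
  linarith

/-- Markov for `BM`. -/
theorem BM_le {b : I.Bl} (E : I.W → Prop) (hE : ∀ ω, MW I ε x b ω → E ω) :
    pr (BM I ε x b) ≤ 32 / 5 * pr E := by
  have h1 := Vale.Agent.P330.S.pr_fiber (V := I.P) (W := I.Z) (MW I ε x b) (5 / 32)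
  have h2 : pr (MW I ε x b) ≤ pr E := pr_mono hE
  have h3 : pr (BM I ε x b) = pr (fun p => 5 / 32 ≤ pr fun z => MW I ε x b (p, z)) := rfl
  rw [h3]
  linarith

/-- **The decoder.** -/
theorem decoder {ρ₁ g ρD : ℝ} (hF : I.Facts ρ₁ g) {b : I.Bl} (hε : 0 ≤ ε)
    (h2 : 2 * ε ≤ δ) (hδ0 : 0 < δ) (hx : ∀ ρ ω, 0 ≤ x ρ ω ∧ x ρ ω ≤ 1)
    (hG : pr (fun ω => ¬ Good I q ε lam δ x u ω) ≤ δ)
    (hX : pr (XoW I ε x b) ≤ ρD) (hδ : δ ≤ 1 / 64)
    (hc1 : 2 * (q.τ₁ : ℝ) + 5 * δ + ρD ≤ ρ₁)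
    (hc2 : 65 * ρD + (70 + 64 * Fintype.card S.DK) * δ < q.τ₁) :
    pr (YW I ε x b) ≤ (130 + 64 * Fintype.card S.DK) * δ := by
  classical
  have hD0 : (0 : ℝ) ≤ Fintype.card S.DK := Nat.cast_nonneg _
  have hρD : 0 ≤ ρD := (pr_nonneg _).trans hX
  have hDδ : 0 ≤ (Fintype.card S.DK : ℝ) * δ := mul_nonneg hD0 hδ0.le
  have hNG := pr_NG hF hG
  have hNG0 : pr (NG I q ε lam δ x u) ≤ Fintype.card S.DK * δ + δ := by linarith
  -- alarms
  have hme : mean (x .e) ≤ ε + (δ + (pr (BM I ε x b) + pr (XoW I ε x b))) := by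
    refine mean_le_of_isB_false hε (hx .e) ?_
    refine (pr_le_of_or (q := fun ω => ¬ Good I q ε lam δ x u ω)
      (r := fun ω => BM I ε x b ω.1 ∨ XoW I ε x b ω) fun ω hω => ?_).trans ?_
    · by_contra hc
      push Not at hc
      exact hω (e_false_of hF.rd_self hε hδ h2 hx hc.1 hc.2.1 hc.2.2)
    · have h3 := pr_or (fun ω : I.W => BM I ε x b ω.1) (XoW I ε x b)
      have h4 : pr (fun ω : I.W => BM I ε x b ω.1) = pr (BM I ε x b) :=
        pr_fst (Ω' := I.Z) (BM I ε x b)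
      linarith
  have hnok : ∀ b' : Bool, (if b' then (q.τ₁ : ℝ) + 2 * δ < mean (x .e)
      else mean (x .e) < (q.τ₁ : ℝ) - 2 * δ) → pr (fun ω => ¬ IsB ε b' (x .nok ω)) ≤ δ := by
    intro b' hb'
    refine (pr_mono fun ω hω hg => hω ?_).trans hG
    cases b' with
    | true =>
      simp only [if_true] at hb'
      exact thr_true (hg.rel .nok) hg.ea h2 hb'
    | false =>
      simp only [Bool.false_eq_true, if_false] at hb'
      exact thr_false (hg.rel .nok) hg.ea h2 hb'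
  -- the final estimate
  have hfin : pr (BM I ε x b) ≤ (129 + 64 * Fintype.card S.DK) * δ →
      pr (YW I ε x b) ≤ (130 + 64 * Fintype.card S.DK) * δ := by
    intro hB
    have h3 : pr (YW I ε x b) ≤ pr (fun ω => ¬ Good I q ε lam δ x u ω) +
        pr (fun ω : I.W => BM I ε x b ω.1) := pr_le_of_or fun ω hω => by
      by_contra hc
      push Not at hc
      obtain ⟨l, hl⟩ := hω
      exact hl (right_of_not_BM hε hδ h2 hx hc.1 hc.2 l).1
    have h4 : pr (fun ω : I.W => BM I ε x b ω.1) = pr (BM I ε x b) :=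
      pr_fst (Ω' := I.Z) (BM I ε x b)
    linarith
  by_cases hA : (q.τ₁ : ℝ) + 2 * δ < mean (x .e)
  · -- the decoder copies the raw output
    exfalso
    have h3 := hnok true (by simpa using hA)
    have h4 : pr (BM I ε x b) ≤ 32 / 5 * pr (fun ω => ¬ Good I q ε lam δ x u ω ∨
        (XoW I ε x b ω ∨ ¬ IsB ε true (x .nok ω))) := BM_le _ fun ω hω => by
      by_contra hc
      push Not at hc
      exact m_right hF (by linarith) hc.1 (Or.inl ⟨hc.2.1, Or.inl hc.2.2⟩) hω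
    have h5 := pr_or (fun ω => ¬ Good I q ε lam δ x u ω)
      (fun ω => XoW I ε x b ω ∨ ¬ IsB ε true (x .nok ω))
    have h6 := pr_or (XoW I ε x b) (fun ω => ¬ IsB ε true (x .nok ω))
    linarith
  · push Not at hA
    -- few bad points
    have h3 : pr (BY I x b) ≤ ρ₁ := by
      have h4 : pr (fun ω : I.W => BY I x b ω.1) = pr (BY I x b) :=
        pr_fst (Ω' := I.Z) (BY I x b)
      have h5 : pr (fun ω : I.W => BY I x b ω.1) ≤ pr (fun ω => ¬ Good I q ε lam δ x u ω) +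
          pr (fun ω => XoW I ε x b ω ∨ IsB ε true (x .e ω)) := pr_le_of_or fun ω hω => by
        by_contra hc
        push Not at hc
        exact hc.2.2 (e_true_of_BY hF.rd_self hδ h2 hc.1 hω hc.2.1)
      have h6 := pr_or (XoW I ε x b) (fun ω => IsB ε true (x .e ω))
      have h7 := pr_true_le_mean (f := x .e) (ε := ε) (by linarith) (hx .e)
      linarith
    have h4 : pr (BM I ε x b) ≤ 64 * pr (fun ω => NG I q ε lam δ x u ω ∨ XoW I ε x b ω) := by
      refine contract hF hε hδ h2 hx (XoW I ε x b) (fun ω hg hω => ?_) h3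
      by_contra hc
      push Not at hc
      exact m_right hF (by linarith) hg (Or.inl ⟨hc.1, Or.inr (by push Not; exact hc.2)⟩) hω
    have h5 := pr_or (NG I q ε lam δ x u) (XoW I ε x b)
    have h6 := hnok false (by
      simp only [Bool.false_eq_true, if_false]
      linarith)
    have h7 : pr (BM I ε x b) ≤
        64 * pr (fun ω => NG I q ε lam δ x u ω ∨ ¬ IsB ε false (x .nok ω)) := by
      refine contract hF hε hδ h2 hx (fun ω => ¬ IsB ε false (x .nok ω)) (fun ω hg hω => ?_) h3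
      by_contra hc
      push Not at hc
      exact m_right hF (by linarith) hg (Or.inr ⟨by push Not; exact hc.2, hc.1⟩) hω
    have h8 := pr_or (NG I q ε lam δ x u) (fun ω => ¬ IsB ε false (x .nok ω))
    exact hfin (by linarith)

end Vale.Agent.P330.FM
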