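import Vale.Agent.P330.FM.CoreB

/-!
# The core network: honest inputs

`honest`: if the inputs are near codes of blocks then the raw output is near the code of the value
of the function and there is no flag.
-/

namespace Vale.Agent.P330.FM

open Finset PCP.AR
open H855 (mean)
open S (BitDef MDef Sem IsB)
open Vale.Agent.P330.Q (LSpec LReg LInst net)

attribute [local instance] BitDef.fι

/-- The number of inputs of finitely many Boolean functions. -/
noncomputable def nIn {ι Reg Rd CB : Type} [Fintype ι] (B : ι → BitDef Reg Rd CB) : ℝ :=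
  Fintype.card (Σ i, (B i).ι)

theorem nIn_nonneg {ι Reg Rd CB : Type} [Fintype ι] (B : ι → BitDef Reg Rd CB) : 0 ≤ nIn B :=
  Nat.cast_nonneg _

/-- The probability that one of the inputs is bad. -/
theorem pr_nIn {ι Reg Rd CB Ω : Type} [Fintype ι] [Fintype Ω] (B : ι → BitDef Reg Rd CB)
    (bad : Rd → Reg → Ω → Prop) {c : ℝ} (hc : 0 ≤ c) (h : ∀ R a, pr (bad R a) ≤ c) :
    pr (fun ω => ∃ i j R a, (B i).inp j = .inl (R, a) ∧ bad R a ω) ≤ nIn B * c := by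
  have h1 : pr (fun ω => ∃ i j R a, (B i).inp j = .inl (R, a) ∧ bad R a ω) =
      pr (fun ω => ∃ k : Σ i, (B i).ι, ∃ R a, (B k.1).inp k.2 = .inl (R, a) ∧ bad R a ω) :=
    pr_congr fun ω => ⟨fun ⟨i, j, h⟩ => ⟨⟨i, j⟩, h⟩, fun ⟨⟨i, j⟩, h⟩ => ⟨i, j, h⟩⟩
  rw [h1]
  refine pr_ex _ fun k => ?_
  rcases hk : (B k.1).inp k.2 with ⟨R, a⟩ | κ
  · refine (pr_mono fun ω hω => ?_).trans (h R a)
    obtain ⟨R', a', h2, h3⟩ := hω
    simp only [Sum.inl.injEq, Prod.mk.injEq] at h2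
    obtain ⟨rfl, rfl⟩ := h2
    exact h3
  · refine (pr_mono (r := fun _ => False) fun ω hω => ?_).trans ?_
    · obtain ⟨R', a', h2, h3⟩ := hω
      exact absurd h2 (by simp)
    · have : pr (fun _ : Ω => False) = 0 := by simp [pr]
      linarith

variable {S : FSpec} {I : FInst S} {q : CConst} {ε lam δ : ℝ} {x : CReg S → I.W → ℝ}
  {u : S.K × S.L → I.W → ℝ}

/-! ### The hard-wired bits and the inner network -/

/-- A hard-wired bit is right. -/
theorem hw_right {ρ₁ g : ℝ} (hF : I.Facts ρ₁ g) {s : S.K → I.Bl} {ω : I.W}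
    (hg : Good I q ε lam δ x u ω) (κ : S.N.CB)
    (h : ∀ i R a, (S.hw κ).inp i = .inl (R, a) →
      IsB ε (I.enc (s a.1) a.2 (I.rd R ω).1) (u a (I.rd R ω))) :
    IsB ε (I.icb s κ ω) (x (.hw κ) ω) := by
  rw [← hF.hw_ok s κ ω]
  exact rel_mapBit (hg.rel (.hw κ)) (fun R a => I.enc (s a.1) a.2 (I.rd R ω).1) fun i R a hi =>
    h i R a hi

/-- The inner network is obeyed if the hard-wired bits are right. -/
theorem inner_rel {ρ₁ g : ℝ} (hF : I.Facts ρ₁ g) {s : S.K → I.Bl} {ω : I.W}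
    (hg : Good I q ε lam δ x u ω) (h : ∀ κ, IsB ε (I.icb s κ ω) (x (.hw κ) ω))
    (ρ : LReg S.N.C) :
    (net S.N q.τ₀ ρ).Rel (I.toL s).sem ε q.lam₀ (fun ρ => x (.inn ρ)) ρ ω := by
  have h1 := hg.rel (.inn ρ)
  have hself : I.sem.rd S.self ω = ω := hF.rd_self ω
  change (innDef q.lam₀ (net S.N q.τ₀ ρ)).Rel I.sem ε lam (Sum.elim x u) (.inl (.inn ρ)) ω at h1
  generalize net S.N q.τ₀ ρ = d at h1
  cases d with
  | bit B =>
    intro b hb
    refine rel_bit (B := innBit B) h1 b fun y hy => hb y fun i => ?_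
    have h2 := hy i
    simp only [innBit] at h2
    rcases hi : B.inp i with ⟨R, a⟩ | κ
    · rw [hi] at h2
      exact h2
    · rw [hi] at h2
      simp only [Sum.elim_inl, hself] at h2
      exact h2 _ (h κ)
  | thr α ρ' => exact h1
  | ra gl ρ' => exact h1

/-! ### The table -/

/-- points at which many pads of the inner register are wrong -/
def BX (I : FInst S) (ε : ℝ) (x : CReg S → I.W → ℝ) (w : I.Cf) (p : I.P) : Prop :=
  1 / 8 ≤ pr fun z => ∃ c, ¬ IsB ε (I.cod w c p) (x (.inn (.x false c)) (p, z))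

/-- The table is right at good sites outside `BX`. -/
theorem table_right {w : I.Cf} {ω : I.W} (hε : 0 ≤ ε) (hδ : δ ≤ 1 / 64) (h2 : 2 * ε ≤ δ)
    (hx : ∀ ρ ω, 0 ≤ x ρ ω ∧ x ρ ω ≤ 1) (hg : Good I q ε lam δ x u ω)
    (h : ¬ BX I ε x w ω.1) (c : S.N.C) : IsB ε (I.cod w c ω.1) (x (.xx c) ω) ∧
      IsB ε (I.cod w c ω.1) (x (.xl c) ω) ∧ IsB ε (I.cod w c ω.1) (x (.xh c) ω) := by
  unfold BX at h
  push Not at h
  have r1 := hg.rel (.xx c)
  have r2 := hg.rel (.xl c)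
  have r3 := hg.rel (.xh c)
  have hp := hg.xp c
  have c1 : ((1 / 2 : ℚ) : ℝ) = 1 / 2 := by push_cast; rfl
  have c2 : ((1 / 4 : ℚ) : ℝ) = 1 / 4 := by push_cast; rfl
  have c3 : ((3 / 4 : ℚ) : ℝ) = 3 / 4 := by push_cast; rfl
  cases hb : I.cod w c ω.1 with
  | true =>
    have h1 : pr (fun z => ¬ IsB ε true (x (.inn (.x false c)) (ω.1, z))) ≤ 1 / 8 :=
      (pr_mono fun z hz => ⟨c, by rw [hb]; exact hz⟩).trans h.le
    have h3 : 1 - ε - 1 / 8 ≤ mX I x c ω.1 :=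
      le_mean_of_isB_true hε (fun z => hx (.inn (.x false c)) (ω.1, z)) h1
    refine ⟨thr_true r1 hp h2 ?_, thr_true r2 hp h2 ?_, thr_true r3 hp h2 ?_⟩
    · rw [c1]; linarith
    · rw [c2]; linarith
    · rw [c3]; linarith
  | false =>
    have h1 : pr (fun z => ¬ IsB ε false (x (.inn (.x false c)) (ω.1, z))) ≤ 1 / 8 :=
      (pr_mono fun z hz => ⟨c, by rw [hb]; exact hz⟩).trans h.le
    have h3 : mX I x c ω.1 ≤ ε + 1 / 8 :=
      mean_le_of_isB_false hε (fun z => hx (.inn (.x false c)) (ω.1, z)) h1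
    refine ⟨thr_false r1 hp h2 ?_, thr_false r2 hp h2 ?_, thr_false r3 hp h2 ?_⟩
    · rw [c1]; linarith
    · rw [c2]; linarith
    · rw [c3]; linarith

/-- The raw output is a function of the table. -/
theorem xo_right {ω : I.W} (hg : Good I q ε lam δ x u ω) (f : S.N.C → I.P → Bool) (l : S.L)
    (h : ∀ j R c, (S.xo l).inp j = .inl (R, c) → IsB ε (f c (I.rd R ω).1) (x (.xx c) (I.rd R ω))) :
    IsB ε (evB (S.xo l) (fun R c => f c (I.rd R ω).1) fun c => I.cb c ω) (x (.xo l) ω) :=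
  rel_mapBit (hg.rel (.xo l)) (fun R c => f c (I.rd R ω).1) fun i R c hi => h i R c hi

/-- The flag of a site is `false`. -/
theorem t_false {ω : I.W} (hF : ∀ ω, I.rd S.self ω = ω) (hg : Good I q ε lam δ x u ω)
    (f : S.N.C → I.P → Bool)
    (h : ∀ j R c, S.tt.inp j = .inl (R, c) → IsB ε (f c (I.rd R ω).1) (x (.xx c) (I.rd R ω)))
    (h1 : ∀ c, IsB ε (f c ω.1) (x (.xl c) ω) ∧ IsB ε (f c ω.1) (x (.xh c) ω))
    (h2 : evB S.tt (fun R c => f c (I.rd R ω).1) (fun c => I.cb c ω) = false) :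
    IsB ε false (x .t ω) := by
  classical
  have hself : I.sem.rd S.self ω = ω := hF ω
  refine rel_bit (hg.rel .t) _ fun y hy => ?_
  have e0 := fun c => hy (.inl (false, c))
  have e1 := fun c => hy (.inl (true, c))
  have e2 := fun i => hy (.inr i)
  simp only [tBit, Sum.elim_inl, hself, if_true, Bool.false_eq_true, if_false] at e0 e1 e2
  show decide ((∃ c, y (.inl (false, c)) = true ∧ y (.inl (true, c)) = false) ∨
    S.tt.f (fun i => y (.inr i)) = true) = false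
  refine decide_eq_false ?_
  rintro (⟨c, h3, h4⟩ | h3)
  · rw [e0 c _ (h1 c).1] at h3
    rw [e1 c _ (h1 c).2] at h4
    rw [h3] at h4
    exact absurd h4 (by simp)
  · have h5 : S.tt.f (fun i => y (.inr i)) =
        evB S.tt (fun R c => f c (I.rd R ω).1) (fun c => I.cb c ω) := by
      unfold evB
      congr 1
      funext i
      have h6 := e2 i
      rcases hi : S.tt.inp i with ⟨R, c⟩ | κ
      · rw [hi] at h6
        simp only [Sum.elim_inl] at h6 ⊢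
        exact h6 _ (h i R c hi)
      · rw [hi] at h6
        exact h6
    have h7 : S.tt.f (fun i => y (.inr i)) = false := h5.trans h2
    exact absurd (h3.symm.trans h7) (by simp)

/-- The flag of a site is `true` if the test fails. -/
theorem t_true {ω : I.W} (hg : Good I q ε lam δ x u ω) (f : S.N.C → I.P → Bool)
    (h : ∀ j R c, S.tt.inp j = .inl (R, c) → IsB ε (f c (I.rd R ω).1) (x (.xx c) (I.rd R ω)))
    (h2 : evB S.tt (fun R c => f c (I.rd R ω).1) (fun c => I.cb c ω) = true) :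
    IsB ε true (x .t ω) := by
  classical
  refine rel_bit (hg.rel .t) _ fun y hy => ?_
  have e2 := fun i => hy (.inr i)
  simp only [tBit] at e2
  show decide ((∃ c, y (.inl (false, c)) = true ∧ y (.inl (true, c)) = false) ∨
    S.tt.f (fun i => y (.inr i)) = true) = true
  refine decide_eq_true (Or.inr ?_)
  rw [← h2]
  unfold evB
  congr 1
  funext i
  have h6 := e2 i
  rcases hi : S.tt.inp i with ⟨R, c⟩ | κ
  · rw [hi] at h6
    simp only [Sum.elim_inl] at h6 ⊢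
    exact h6 _ (h i R c hi)
  · rw [hi] at h6
    exact h6

/-- The flag of a site is `true` if the table is ambiguous. -/
theorem t_amb {ω : I.W} (hF : ∀ ω, I.rd S.self ω = ω) (hg : Good I q ε lam δ x u ω) (c : S.N.C)
    (h1 : IsB ε true (x (.xl c) ω)) (h2 : IsB ε false (x (.xh c) ω)) : IsB ε true (x .t ω) := by
  classical
  have hself : I.sem.rd S.self ω = ω := hF ω
  refine rel_bit (hg.rel .t) _ fun y hy => ?_
  have e0 := hy (.inl (false, c))
  have e1 := hy (.inl (true, c))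
  simp only [tBit, Sum.elim_inl, hself, if_true, Bool.false_eq_true, if_false] at e0 e1
  show decide ((∃ c, y (.inl (false, c)) = true ∧ y (.inl (true, c)) = false) ∨
    S.tt.f (fun i => y (.inr i)) = true) = true
  exact decide_eq_true (Or.inl ⟨c, e0 _ h1, e1 _ h2⟩)

/-! ### Honest inputs -/

/-- the site is not good or its point is in `BX` -/
def TX (I : FInst S) (q : CConst) (ε lam δ : ℝ) (x : CReg S → I.W → ℝ)
    (u : S.K × S.L → I.W → ℝ) (w : I.Cf) (ω : I.W) : Prop :=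
  ¬ Good I q ε lam δ x u ω ∨ BX I ε x w ω.1

/-- **Honest inputs**: the inner network computes. -/
theorem honest_inner {ρ₁ g ρ₀ ρc β₀ : ℝ} (hF : I.Facts ρ₁ g) {s : S.K → I.Bl}
    (hx : ∀ ρ ω, 0 ≤ x ρ ω ∧ x ρ ω ≤ 1)
    (hG : pr (fun ω => ¬ Good I q ε lam δ x u ω) ≤ δ) (hρc : 0 ≤ ρc)
    (hcl : ∀ a, I.Clean ε ρc (s a) fun l => u (a, l))
    (hβ : δ + nIn S.hw * ρc ≤ β₀)
    (HL : (I.toL s).Obeys q.τ₀ ε q.lam₀ β₀ (fun ρ => x (.inn ρ)) →
      (∃ w, (I.toL s).Valid w ∧ (I.toL s).Near ε ρ₀ (fun ρ => x (.inn ρ)) false w ∧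
        ¬ (I.toL s).Valid ((I.toL s).step false w)) ∨
      (∃ w, (I.toL s).Valid w ∧ w ≠ (I.toL s).w0 ∧
        (I.toL s).Near ε ρ₀ (fun ρ => x (.inn ρ)) true w ∧
        ¬ (I.toL s).Valid ((I.toL s).step true w))) :
    ∃ w, I.Valid s w ∧ ¬ I.Valid s (I.step s false w) ∧ pr (BX I ε x w) ≤ 8 * ρ₀ := by
  have hbad : pr (fun ω => ∃ κ j R a, (S.hw κ).inp j = .inl (R, a) ∧
      ¬ IsB ε (I.enc (s a.1) a.2 (I.rd R ω).1) (u a (I.rd R ω))) ≤ nIn S.hw * ρc := by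
    refine pr_nIn S.hw (fun R a ω => ¬ IsB ε (I.enc (s a.1) a.2 (I.rd R ω).1) (u a (I.rd R ω)))
      hρc fun R a => ?_
    refine (pr_bij (hF.rd_bij R) fun ω => ¬ IsB ε (I.enc (s a.1) a.2 ω.1) (u a ω)).le.trans ?_
    exact (pr_mono fun ω hω => ⟨a.2, hω⟩).trans (hcl a.1)
  have hO : (I.toL s).Obeys q.τ₀ ε q.lam₀ β₀ (fun ρ => x (.inn ρ)) := by
    refine ⟨fun ρ ω => hx _ ω, fun ρ => ?_⟩
    refine (pr_le_of_or (q := fun ω => ¬ Good I q ε lam δ x u ω)
      (r := fun ω => ∃ κ j R a, (S.hw κ).inp j = .inl (R, a) ∧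
        ¬ IsB ε (I.enc (s a.1) a.2 (I.rd R ω).1) (u a (I.rd R ω))) fun ω hω => ?_).trans
      ((add_le_add hG hbad).trans hβ)
    by_contra hc
    push Not at hc
    exact hω (inner_rel hF hc.1 (fun κ => hw_right hF hc.1 κ fun i R a hi => hc.2 κ i R a hi) ρ)
  have hN : ∀ w, (I.toL s).Near ε ρ₀ (fun ρ => x (.inn ρ)) false w → pr (BX I ε x w) ≤ 8 * ρ₀ := by
    intro w hw
    have h1 := Vale.Agent.P330.S.pr_fiber (V := I.P) (W := I.Z)
      (fun ω : I.P × I.Z => ∃ c, ¬ IsB ε (I.cod w c ω.1) (x (.inn (.x false c)) ω)) (1 / 8)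
    have h2 : pr (fun ω : I.P × I.Z => ∃ c, ¬ IsB ε (I.cod w c ω.1) (x (.inn (.x false c)) ω)) ≤ ρ₀ :=
      hw
    have h3 : pr (BX I ε x w) = pr (fun p : I.P => 1 / 8 ≤ pr fun z : I.Z =>
      ∃ c, ¬ IsB ε (I.cod w c p) (x (.inn (.x false c)) (p, z))) := rfl
    rw [h3]
    linarith
  rcases HL hO with ⟨w, h1, h2, h3⟩ | ⟨w, h1, h2, -, h4⟩
  · exact ⟨w, h1, h3, hN w h2⟩
  · exact absurd (hF.noend s w h1 h2) h4

/-- **Honest inputs**: the raw output. -/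
theorem honest_xo {ρ₁ g ρ₀ : ℝ} (hF : I.Facts ρ₁ g) {s : S.K → I.Bl} {w : I.Cf}
    (hw : I.Valid s w) (hw2 : ¬ I.Valid s (I.step s false w)) (hε : 0 ≤ ε) (hδ : δ ≤ 1 / 64)
    (h2 : 2 * ε ≤ δ) (hx : ∀ ρ ω, 0 ≤ x ρ ω ∧ x ρ ω ≤ 1)
    (hG : pr (fun ω => ¬ Good I q ε lam δ x u ω) ≤ δ) (hB : pr (BX I ε x w) ≤ 8 * ρ₀) :
    pr (XoW I ε x (I.F s)) ≤ δ + nIn S.xo * (δ + 8 * ρ₀) := by
  have h0 : 0 ≤ δ := (pr_nonneg _).trans hG
  have h0' : 0 ≤ 8 * ρ₀ := (pr_nonneg _).trans hB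
  have hTX : pr (TX I q ε lam δ x u w) ≤ δ + 8 * ρ₀ := by
    have h3 := pr_or (fun ω => ¬ Good I q ε lam δ x u ω) (fun ω : I.W => BX I ε x w ω.1)
    have h4 : pr (fun ω : I.W => BX I ε x w ω.1) = pr (BX I ε x w) :=
      pr_fst (Ω' := I.Z) (BX I ε x w)
    have h5 : pr (TX I q ε lam δ x u w) =
      pr (fun ω : I.W => ¬ Good I q ε lam δ x u ω ∨ BX I ε x w ω.1) := rfl
    linarith
  refine (pr_le_of_or (q := fun ω => ¬ Good I q ε lam δ x u ω)
    (r := fun ω => ∃ l j R c, (S.xo l).inp j = .inl (R, c) ∧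
      TX I q ε lam δ x u w (I.rd R ω)) fun ω hω => ?_).trans (add_le_add hG ?_)
  · by_contra hc
    push Not at hc
    obtain ⟨l, hl⟩ := hω
    refine hl ?_
    rw [← hF.xo_ok s w hw hw2 l ω]
    refine xo_right hc.1 (I.cod w) l fun j R c hj => ?_
    have h3 := hc.2 l j R c hj
    unfold TX at h3
    push Not at h3
    exact (table_right hε hδ h2 hx h3.1 h3.2 c).1
  · exact pr_nIn S.xo (fun R _ ω => TX I q ε lam δ x u w (I.rd R ω)) (by linarith) fun R _ =>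
      (pr_bij (hF.rd_bij R) (TX I q ε lam δ x u w)).le.trans hTX

/-- **Honest inputs**: there is no flag. -/
theorem honest_tf {ρ₁ g ρ₀ : ℝ} (hF : I.Facts ρ₁ g) {s : S.K → I.Bl} {w : I.Cf}
    (hw : I.Valid s w) (hw2 : ¬ I.Valid s (I.step s false w)) (hε : 0 ≤ ε) (hδ : δ ≤ 1 / 64)
    (h2 : 2 * ε ≤ δ) (hx : ∀ ρ ω, 0 ≤ x ρ ω ∧ x ρ ω ≤ 1)
    (hG : pr (fun ω => ¬ Good I q ε lam δ x u ω) ≤ δ) (hB : pr (BX I ε x w) ≤ 8 * ρ₀)
    (hτ : ε + (δ + 8 * ρ₀ + nIn (fun _ : Unit => S.tt) * (δ + 8 * ρ₀)) < (q.τ₂ : ℝ) - 2 * δ) :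
    pr (fun ω => ¬ IsB ε false (x .tf ω)) ≤ δ := by
  have h0 : 0 ≤ δ := (pr_nonneg _).trans hG
  have h0' : 0 ≤ 8 * ρ₀ := (pr_nonneg _).trans hB
  have hTX : pr (TX I q ε lam δ x u w) ≤ δ + 8 * ρ₀ := by
    have h3 := pr_or (fun ω => ¬ Good I q ε lam δ x u ω) (fun ω : I.W => BX I ε x w ω.1)
    have h4 : pr (fun ω : I.W => BX I ε x w ω.1) = pr (BX I ε x w) :=
      pr_fst (Ω' := I.Z) (BX I ε x w)
    have h5 : pr (TX I q ε lam δ x u w) =
      pr (fun ω : I.W => ¬ Good I q ε lam δ x u ω ∨ BX I ε x w ω.1) := rfl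
    linarith
  have ht : pr (fun ω => ¬ IsB ε false (x .t ω)) ≤
      δ + 8 * ρ₀ + nIn (fun _ : Unit => S.tt) * (δ + 8 * ρ₀) := by
    refine (pr_le_of_or (q := TX I q ε lam δ x u w)
      (r := fun ω => ∃ (_ : Unit) (j : S.tt.ι) (R : S.Rd) (c : S.N.C), S.tt.inp j = .inl (R, c) ∧
        TX I q ε lam δ x u w (I.rd R ω)) fun ω hω => ?_).trans (add_le_add hTX ?_)
    · by_contra hc
      push Not at hc
      obtain ⟨h3, h4⟩ := hc
      unfold TX at h3
      push Not at h3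
      have h5 := table_right hε hδ h2 hx h3.1 h3.2
      refine hω (t_false hF.rd_self h3.1 (I.cod w) (fun j R c hj => ?_)
        (fun c => ⟨(h5 c).2.1, (h5 c).2.2⟩) (hF.tt_ok s w hw hw2 ω))
      have h6 := h4 () j R c hj
      unfold TX at h6
      push Not at h6
      exact (table_right hε hδ h2 hx h6.1 h6.2 c).1
    · exact pr_nIn (fun _ : Unit => S.tt) (fun R _ ω => TX I q ε lam δ x u w (I.rd R ω))
        (by linarith) fun R _ => (pr_bij (hF.rd_bij R) (TX I q ε lam δ x u w)).le.trans hTX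
  have hm : mean (x .t) ≤ ε + (δ + 8 * ρ₀ + nIn (fun _ : Unit => S.tt) * (δ + 8 * ρ₀)) :=
    mean_le_of_isB_false hε (hx .t) ht
  refine (pr_mono fun ω hω hg => hω ?_).trans hG
  exact thr_false (hg.rel .tf) hg.ta h2 (by linarith)

end Vale.Agent.P330.FM
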