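import Vale.Agent.P330.FM.CoreC

/-!
# The core network: arbitrary inputs, and soundness

`garbage_xo`: if there is no flag then the raw output is near the code of some block.
`coreSound`: soundness of the core.
-/

namespace Vale.Agent.P330.FM

open Finset PCP.AR
open H855 (mean)
open S (BitDef MDef Sem IsB)
open Vale.Agent.P330.Q (LSpec LReg LInst net)

attribute [local instance] BitDef.fι

variable {S : FSpec} {I : FInst S} {q : CConst} {ε lam δ : ℝ} {x : CReg S → I.W → ℝ}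
  {u : S.K × S.L → I.W → ℝ}

/-- the site is not good or it is flagged -/
def TB (I : FInst S) (q : CConst) (ε lam δ : ℝ) (x : CReg S → I.W → ℝ)
    (u : S.K × S.L → I.W → ℝ) (ω : I.W) : Prop :=
  ¬ Good I q ε lam δ x u ω ∨ IsB ε true (x .t ω)

/-- the table of the pad averages -/
noncomputable def fTab (I : FInst S) (x : CReg S → I.W → ℝ) (c : S.N.C) (p : I.P) : Bool := by
  classical
  exact decide (1 / 2 < mX I x c p)

/-- Sites which are good and not flagged agree with the table. -/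
theorem xx_fTab {ω : I.W} (hF : ∀ ω, I.rd S.self ω = ω) (hδ : δ ≤ 1 / 64) (h2 : 2 * ε ≤ δ)
    (h : ¬ TB I q ε lam δ x u ω) (c : S.N.C) : IsB ε (fTab I x c ω.1) (x (.xx c) ω) := by
  classical
  unfold TB at h
  push Not at h
  obtain ⟨hg, ht⟩ := h
  have r1 := hg.rel (.xx c)
  have r2 := hg.rel (.xl c)
  have r3 := hg.rel (.xh c)
  have hp := hg.xp c
  have c1 : ((1 / 2 : ℚ) : ℝ) = 1 / 2 := by push_cast; rfl
  have c2 : ((1 / 4 : ℚ) : ℝ) = 1 / 4 := by push_cast; rfl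
  have c3 : ((3 / 4 : ℚ) : ℝ) = 3 / 4 := by push_cast; rfl
  have hamb : ¬ (3 / 8 < mX I x c ω.1 ∧ mX I x c ω.1 < 5 / 8) := by
    rintro ⟨h3, h4⟩
    refine ht (t_amb hF hg c (thr_true r2 hp h2 ?_) (thr_false r3 hp h2 ?_))
    · rw [c2]; linarith
    · rw [c3]; linarith
  unfold fTab
  by_cases hm : 1 / 2 < mX I x c ω.1
  · rw [decide_eq_true hm]
    have h3 : 5 / 8 ≤ mX I x c ω.1 := by
      by_contra hc
      exact hamb ⟨by linarith, not_le.1 hc⟩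
    exact thr_true r1 hp h2 (by rw [c1]; linarith)
  · rw [decide_eq_false hm]
    have h3 : mX I x c ω.1 ≤ 3 / 8 := by
      by_contra hc
      exact hamb ⟨not_le.1 hc, by linarith⟩
    exact thr_false r1 hp h2 (by rw [c1]; linarith)

/-- Without a flag few sites are flagged. -/
theorem pr_TB (hε : ε ≤ 1 / 2) (hδ : δ ≤ 1 / 64) (h2 : 2 * ε ≤ δ)
    (hx : ∀ ρ ω, 0 ≤ x ρ ω ∧ x ρ ω ≤ 1)
    (hG : pr (fun ω => ¬ Good I q ε lam δ x u ω) ≤ δ)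
    (hf : pr (fun ω => IsB ε true (x .tf ω)) ≤ 1 / 2) :
    pr (TB I q ε lam δ x u) ≤ 5 * δ + 2 * q.τ₂ := by
  have hm : mean (x .t) ≤ (q.τ₂ : ℝ) + 2 * δ := by
    by_contra hc
    push Not at hc
    have h3 : pr (fun ω => ¬ IsB ε true (x .tf ω)) ≤ δ := by
      refine (pr_mono fun ω hω hg => hω ?_).trans hG
      exact thr_true (hg.rel .tf) hg.ta h2 (by linarith)
    have h4 : (1 : ℝ) ≤ pr (fun ω => IsB ε true (x .tf ω)) +
        pr (fun ω => ¬ IsB ε true (x .tf ω)) := by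
      have h5 := pr_or (fun ω => IsB ε true (x .tf ω)) (fun ω => ¬ IsB ε true (x .tf ω))
      have h6 : pr (fun ω => IsB ε true (x .tf ω) ∨ ¬ IsB ε true (x .tf ω)) = 1 := by
        have h7 : pr (fun ω => IsB ε true (x .tf ω) ∨ ¬ IsB ε true (x .tf ω)) =
            pr (fun _ : I.W => True) := pr_congr fun ω => by simp [em]
        rw [h7]
        simp [pr]
      linarith
    linarith
  have h3 := pr_true_le_mean (f := x .t) hε (hx .t)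
  have h4 := pr_or (fun ω => ¬ Good I q ε lam δ x u ω) (fun ω => IsB ε true (x .t ω))
  have h5 : pr (TB I q ε lam δ x u) =
    pr (fun ω => ¬ Good I q ε lam δ x u ω ∨ IsB ε true (x .t ω)) := rfl
  linarith

/-- **Arbitrary inputs**: without a flag the raw output is near the code of a block. -/
theorem garbage_xo {ρ₁ g ρ' κ : ℝ} (hF : I.Facts ρ₁ g) (hε : ε ≤ 1 / 2) (hδ : δ ≤ 1 / 64)
    (h2 : 2 * ε ≤ δ) (hx : ∀ ρ ω, 0 ≤ x ρ ω ∧ x ρ ω ≤ 1)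
    (hG : pr (fun ω => ¬ Good I q ε lam δ x u ω) ≤ δ)
    (hf : pr (fun ω => IsB ε true (x .tf ω)) ≤ 1 / 2)
    (hκ : (1 + nIn fun _ : Unit => S.tt) * (5 * δ + 2 * q.τ₂) ≤ κ)
    (HT : ∀ f : S.N.C → I.P → Bool,
      pr (fun ω : I.W => evB S.tt (fun R c => f c (I.rd R ω).1) (fun c => I.cb c ω) = true) ≤ κ →
        ∃ b : I.Bl, pr (fun ω : I.W => ∃ l,
          evB (S.xo l) (fun R c => f c (I.rd R ω).1) (fun c => I.cb c ω) ≠ I.enc b l ω.1) ≤ ρ') :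
    ∃ b : I.Bl, pr (XoW I ε x b) ≤ ρ' + (δ + nIn S.xo * (5 * δ + 2 * q.τ₂)) := by
  have hTB := pr_TB hε hδ h2 hx hG hf
  have h0 : 0 ≤ 5 * δ + 2 * (q.τ₂ : ℝ) := (pr_nonneg _).trans hTB
  have hR : ∀ R, pr (fun ω => TB I q ε lam δ x u (I.rd R ω)) ≤ 5 * δ + 2 * q.τ₂ := fun R =>
    (pr_bij (hF.rd_bij R) (TB I q ε lam δ x u)).le.trans hTB
  obtain ⟨b, hb⟩ := HT (fTab I x) (by
    refine le_trans ?_ hκ
    refine (pr_le_of_or (q := TB I q ε lam δ x u)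
      (r := fun ω => ∃ (_ : Unit) (j : S.tt.ι) (R : S.Rd) (c : S.N.C), S.tt.inp j = .inl (R, c) ∧
        TB I q ε lam δ x u (I.rd R ω)) fun ω hω => ?_).trans ?_
    · by_contra hc
      push Not at hc
      obtain ⟨h3, h4⟩ := hc
      have h5 := h3
      unfold TB at h5
      push Not at h5
      exact h5.2 (t_true h5.1 (fTab I x) (fun j R c hj =>
        xx_fTab hF.rd_self hδ h2 (h4 () j R c hj) c) hω)
    · have h6 := pr_nIn (fun _ : Unit => S.tt) (fun R _ ω => TB I q ε lam δ x u (I.rd R ω)) h0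
        fun R _ => hR R
      have h7 : (1 + nIn fun _ : Unit => S.tt) * (5 * δ + 2 * (q.τ₂ : ℝ)) =
          (5 * δ + 2 * q.τ₂) + (nIn fun _ : Unit => S.tt) * (5 * δ + 2 * q.τ₂) := by ring
      rw [h7]
      exact add_le_add hTB h6)
  refine ⟨b, ?_⟩
  refine (pr_le_of_or (q := fun ω : I.W => ∃ l,
      evB (S.xo l) (fun R c => fTab I x c (I.rd R ω).1) (fun c => I.cb c ω) ≠ I.enc b l ω.1)
    (r := fun ω => ¬ Good I q ε lam δ x u ω ∨ ∃ l j R c, (S.xo l).inp j = .inl (R, c) ∧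
      TB I q ε lam δ x u (I.rd R ω)) fun ω hω => ?_).trans (add_le_add hb ?_)
  · by_contra hc
    push Not at hc
    obtain ⟨h3, h4, h5⟩ := hc
    obtain ⟨l, hl⟩ := hω
    refine hl ?_
    rw [← h3 l]
    exact xo_right h4 (fTab I x) l fun j R c hj => xx_fTab hF.rd_self hδ h2 (h5 l j R c hj) c
  · refine (pr_or _ _).trans (add_le_add hG ?_)
    exact pr_nIn S.xo (fun R _ ω => TB I q ε lam δ x u (I.rd R ω)) h0 fun R _ => hR R

/-! ### Soundness -/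

/-- A small positive number. -/
theorem exists_delta {a M : ℝ} (ha : 0 < a) (hM : 0 < M) : ∃ δ : ℝ, 0 < δ ∧ M * δ ≤ a :=
  ⟨a / M, div_pos ha hM, by rw [mul_div_cancel₀ _ hM.ne']⟩

/-- The constants of the core and their inequalities. -/
structure CBound (S : FSpec) (q : CConst) (ρ₁ ρD κ ρ₀ β₀ ρc : ℝ) : Prop where
  τ₁0 : 0 < (q.τ₁ : ℝ)
  τ₁1 : 8 * (q.τ₁ : ℝ) ≤ ρ₁
  ρD0 : 0 < ρD
  ρD1 : 200 * ρD ≤ q.τ₁
  κ0 : 0 < κ
  τ₂0 : 0 < (q.τ₂ : ℝ)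
  τ₂1 : (1 + nIn fun _ : Unit => S.tt) * (4 * q.τ₂) ≤ κ
  τ₂2 : (1 + nIn S.xo) * (8 * q.τ₂) ≤ ρD
  ρ₀0 : 0 < ρ₀
  ρ₀1 : (1 + nIn S.xo) * (16 * ρ₀) ≤ ρD
  ρ₀2 : (1 + nIn fun _ : Unit => S.tt) * (16 * ρ₀) ≤ q.τ₂
  β₀0 : 0 < β₀
  ρc0 : 0 < ρc
  ρc1 : (1 + nIn S.hw) * (2 * ρc) ≤ β₀

theorem CBound.exists_delta {q : CConst} {ρ₁ ρD κ ρ₀ β₀ ρc ρ : ℝ}
    (h : CBound S q ρ₁ ρD κ ρ₀ β₀ ρc) (hρ : 0 < ρ) : ∃ δ : ℝ, 0 < δ ∧ δ ≤ 1 / 64 ∧
      (130 + 64 * Fintype.card S.DK) * δ ≤ ρ ∧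
      2 * (q.τ₁ : ℝ) + 5 * δ + ρD ≤ ρ₁ ∧
      65 * ρD + (70 + 64 * Fintype.card S.DK) * δ < q.τ₁ ∧
      δ + nIn S.hw * ρc ≤ β₀ ∧ δ / 2 ≤ β₀ ∧
      δ + nIn S.xo * (δ + 8 * ρ₀) ≤ ρD ∧
      δ / 2 + (δ + 8 * ρ₀ + nIn (fun _ : Unit => S.tt) * (δ + 8 * ρ₀)) < (q.τ₂ : ℝ) - 2 * δ ∧
      (1 + nIn fun _ : Unit => S.tt) * (5 * δ + 2 * q.τ₂) ≤ κ ∧
      ρD / 2 + (δ + nIn S.xo * (5 * δ + 2 * q.τ₂)) ≤ ρD := by
  set D : ℝ := ((Fintype.card S.DK : ℕ) : ℝ) with hD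
  set A : ℝ := nIn S.hw with hA
  set B : ℝ := nIn S.xo with hB
  set T : ℝ := nIn fun _ : Unit => S.tt with hT
  have D0 : 0 ≤ D := Nat.cast_nonneg _
  have A0 : 0 ≤ A := nIn_nonneg _
  have B0 : 0 ≤ B := nIn_nonneg _
  have T0 : 0 ≤ T := nIn_nonneg _
  have t1 := h.τ₁0
  have t2 := h.τ₂0
  have t3 := h.κ0
  have t4 := h.ρD0
  have t5 := h.β₀0
  have t6 := h.ρ₀0
  have t7 := h.ρc0
  obtain ⟨δ, hδ, hM⟩ := FM.exists_delta (a := min (min 1 ρ) (min (min (q.τ₁ : ℝ) q.τ₂)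
    (min (min κ ρD) β₀))) (M := 400 * (1 + D + A + B + T))
    (lt_min (lt_min one_pos hρ) (lt_min (lt_min t1 t2) (lt_min (lt_min t3 t4) t5)))
    (by positivity)
  have m1 : 400 * (1 + D + A + B + T) * δ ≤ 1 :=
    hM.trans ((min_le_left _ _).trans (min_le_left _ _))
  have m2 : 400 * (1 + D + A + B + T) * δ ≤ ρ :=
    hM.trans ((min_le_left _ _).trans (min_le_right _ _))
  have m3 : 400 * (1 + D + A + B + T) * δ ≤ q.τ₁ :=
    hM.trans ((min_le_right _ _).trans ((min_le_left _ _).trans (min_le_left _ _)))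
  have m4 : 400 * (1 + D + A + B + T) * δ ≤ q.τ₂ :=
    hM.trans ((min_le_right _ _).trans ((min_le_left _ _).trans (min_le_right _ _)))
  have m5 : 400 * (1 + D + A + B + T) * δ ≤ κ :=
    hM.trans ((min_le_right _ _).trans ((min_le_right _ _).trans
      ((min_le_left _ _).trans (min_le_left _ _))))
  have m6 : 400 * (1 + D + A + B + T) * δ ≤ ρD :=
    hM.trans ((min_le_right _ _).trans ((min_le_right _ _).trans
      ((min_le_left _ _).trans (min_le_right _ _))))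
  have m7 : 400 * (1 + D + A + B + T) * δ ≤ β₀ :=
    hM.trans ((min_le_right _ _).trans ((min_le_right _ _).trans (min_le_right _ _)))
  have e : 400 * (1 + D + A + B + T) * δ =
      400 * δ + 400 * (D * δ) + 400 * (A * δ) + 400 * (B * δ) + 400 * (T * δ) := by ring
  rw [e] at m1 m2 m3 m4 m5 m6 m7
  have p1 : 0 ≤ D * δ := mul_nonneg D0 hδ.le
  have p2 : 0 ≤ A * δ := mul_nonneg A0 hδ.le
  have p3 : 0 ≤ B * δ := mul_nonneg B0 hδ.le
  have p4 : 0 ≤ T * δ := mul_nonneg T0 hδ.le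
  have s1 := h.τ₁1
  have s2 := h.ρD1
  have s3 := h.τ₂1
  have s4 := h.τ₂2
  have s5 := h.ρ₀1
  have s6 := h.ρ₀2
  have s7 := h.ρc1
  have q1 : 0 ≤ B * ρ₀ := mul_nonneg B0 t6.le
  have q2 : 0 ≤ T * ρ₀ := mul_nonneg T0 t6.le
  have q3 : 0 ≤ A * ρc := mul_nonneg A0 t7.le
  have q4 : 0 ≤ T * q.τ₂ := mul_nonneg T0 t2.le
  have q5 : 0 ≤ B * q.τ₂ := mul_nonneg B0 t2.le
  refine ⟨δ, hδ, ?_, ?_, ?_, ?_, ?_, ?_, ?_, ?_, ?_, ?_⟩
  all_goals linarith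

/-- **Soundness of the core.** -/
theorem coreSound {Q : FInst S → Prop} {ρ₁ g : ℝ} (hρ₁ : 0 < ρ₁) (hg : g < 1)
    (HF : ∀ I, Q I → I.Facts ρ₁ g) (HL : LSoundR S.N (innClass Q)) (HT : TTSound S Q) :
    ∃ (q : CConst) (ρc : ℝ), 0 < q.τ₀ ∧ q.τ₀ < 1 ∧ 0 < q.lam₀ ∧ q.lam₀ < 1 ∧ 0 < q.τ₁ ∧
      q.τ₁ < 1 ∧ 0 < q.τ₂ ∧ q.τ₂ < 1 ∧ CoreSound S Q q ρc := by
  -- the constants
  have T0 : 0 ≤ nIn fun _ : Unit => S.tt := nIn_nonneg _
  have B0 : 0 ≤ nIn S.xo := nIn_nonneg _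
  have A0 : 0 ≤ nIn S.hw := nIn_nonneg _
  obtain ⟨τ₁, t10, t11⟩ := exists_rat_btwn (lt_min one_pos (div_pos hρ₁ (by norm_num : (0 : ℝ) < 8)))
  have t12 : (τ₁ : ℝ) < 1 := t11.trans_le (min_le_left _ _)
  have t13 : 8 * (τ₁ : ℝ) ≤ ρ₁ := by
    have := t11.trans_le (min_le_right _ _)
    linarith
  set ρD : ℝ := τ₁ / 200 with hρD
  have d0 : 0 < ρD := by positivity
  obtain ⟨κ, hκ, HT'⟩ := HT (ρD / 2) (half_pos d0)
  obtain ⟨τ₂, t20, t21⟩ := exists_rat_btwn (lt_min one_pos (lt_min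
    (div_pos hκ (by positivity : 0 < (1 + nIn fun _ : Unit => S.tt) * 4))
    (div_pos d0 (by positivity : 0 < (1 + nIn S.xo) * 8))))
  have t22 : (τ₂ : ℝ) < 1 := t21.trans_le (min_le_left _ _)
  have t23 : (1 + nIn fun _ : Unit => S.tt) * (4 * (τ₂ : ℝ)) ≤ κ := by
    have := t21.trans_le ((min_le_right _ _).trans (min_le_left _ _))
    rw [lt_div_iff₀ (by positivity)] at this
    linarith
  have t24 : (1 + nIn S.xo) * (8 * (τ₂ : ℝ)) ≤ ρD := by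
    have := t21.trans_le ((min_le_right _ _).trans (min_le_right _ _))
    rw [lt_div_iff₀ (by positivity)] at this
    linarith
  set ρ₀ : ℝ := min (ρD / ((1 + nIn S.xo) * 16)) (τ₂ / ((1 + nIn fun _ : Unit => S.tt) * 16))
    with hρ₀
  have r0 : 0 < ρ₀ := lt_min (by positivity) (by positivity)
  have r1 : (1 + nIn S.xo) * (16 * ρ₀) ≤ ρD := by
    have := min_le_left (ρD / ((1 + nIn S.xo) * 16))
      (τ₂ / ((1 + nIn fun _ : Unit => S.tt) * 16))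
    rw [← hρ₀, le_div_iff₀ (by positivity)] at this
    linarith
  have r2 : (1 + nIn fun _ : Unit => S.tt) * (16 * ρ₀) ≤ τ₂ := by
    have := min_le_right (ρD / ((1 + nIn S.xo) * 16))
      (τ₂ / ((1 + nIn fun _ : Unit => S.tt) * 16))
    rw [← hρ₀, le_div_iff₀ (by positivity)] at this
    linarith
  obtain ⟨τ₀, h00, h01, lam₀, l0, l1, β₀, b0, b1, HL'⟩ := HL ρ₀ r0
  set ρc : ℝ := β₀ / ((1 + nIn S.hw) * 2) with hρc
  have c0 : 0 < ρc := by positivity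
  have c1 : (1 + nIn S.hw) * (2 * ρc) ≤ β₀ := by
    have : (1 + nIn S.hw) * (2 * ρc) = β₀ := by
      rw [hρc]; field_simp
    exact this.le
  set q : CConst := ⟨τ₀, lam₀, τ₁, τ₂⟩ with hq
  have hB : CBound S q ρ₁ ρD κ ρ₀ β₀ ρc := by
    refine ⟨t10, t13, d0, ?_, hκ, t20, t23, t24, r0, r1, r2, b0, c0, c1⟩
    rw [hρD]
    show 200 * ((τ₁ : ℝ) / 200) ≤ τ₁
    linarith
  have HF' : ∀ I, Q I → H855.Gap I.sP (max g 0) ∧ H855.Gap I.sZ (max g 0) := fun I hI =>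
    ⟨Vale.Agent.P330.Q.gap_mono (le_max_left _ _) (HF I hI).gapP,
      Vale.Agent.P330.Q.gap_mono (le_max_left _ _) (HF I hI).gapZ⟩
  refine ⟨q, ρc, h00, h01, l0, l1, by exact_mod_cast t10, by exact_mod_cast t12,
    by exact_mod_cast t20, by exact_mod_cast t22, c0, ?_, ?_⟩
  · -- honest inputs
    intro ρ hρ
    obtain ⟨δ, hδ, h64, e1, e2, e3, e4, e5, e6, e7, e8, e9⟩ := hB.exists_delta hρ
    obtain ⟨η, hη, HG⟩ := exists_good S (le_max_right g 0) (max_lt hg one_pos) hδ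
    refine ⟨η, hη, ?_⟩
    intro I hI ε lam β hs x u hO s hcl
    obtain ⟨h2, hG⟩ := HG I (HF' I hI).1 (HF' I hI).2 q ε lam β hs x u hO
    have hF := HF I hI
    have hε := hs.ε_pos
    obtain ⟨w, w1, w2, w3⟩ := honest_inner (ρ₀ := ρ₀) hF hO.mem hG c0.le hcl e4 fun h =>
      HL' (I.toL s) ⟨I, s, hI, rfl⟩ _ ε hε (by linarith) h
    have hX := (honest_xo hF w1 w2 hε.le h64 h2 hO.mem hG w3).trans e6
    have hY := decoder hF hε.le h2 hδ hO.mem hG hX h64 e2 e3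
    have hT := honest_tf hF w1 w2 hε.le h64 h2 hO.mem hG w3 (by linarith)
    refine ⟨hY.trans e1, hT.trans ?_⟩
    have hD : (0 : ℝ) ≤ Fintype.card S.DK := Nat.cast_nonneg _
    nlinarith
  · -- arbitrary inputs
    intro ρ hρ
    obtain ⟨δ, hδ, h64, e1, e2, e3, e4, e5, e6, e7, e8, e9⟩ := hB.exists_delta hρ
    obtain ⟨η, hη, HG⟩ := exists_good S (le_max_right g 0) (max_lt hg one_pos) hδ
    refine ⟨η, hη, ?_⟩
    intro I hI ε lam β hs x u hO hf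
    obtain ⟨h2, hG⟩ := HG I (HF' I hI).1 (HF' I hI).2 q ε lam β hs x u hO
    have hF := HF I hI
    have hε := hs.ε_pos
    obtain ⟨b, hb⟩ := garbage_xo hF (by linarith) h64 h2 hO.mem hG hf e8 (HT' I hI)
    exact ⟨b, (decoder hF hε.le h2 hδ hO.mem hG (hb.trans e9) h64 e2 e3).trans e1⟩

end Vale.Agent.P330.FM
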