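import Vale.Agent.P330.H972.MFam

/-!
# Corrected reads of the codes of blocks

The bits `strB a x l p` of the code of an array `x` depend on the second component of the point
only.  `dRaw u`, `u ≠ 0`: the raw reads of the corrected read with the identity move.
* `str_read`: the sum of the raw reads is the bit, for every array.
* `str_samp`: the raw reads mix.
-/

namespace Vale.Agent.P330.FM

open Finset PCP.AR Vale.Agent.Lib.PolyTime Vale.Agent.P330.Q Vale.Agent.P330.H972
open Vale.Agent.P318.S (PolyLe)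
open S (b2)

variable {nC B m : ℕ} {C : XC nC B m} {S : XSpec} {α : Type} [Enc α] (U : XFam C S α) (a : α)

/-- Names of the reads of the decoder. -/
abbrev DU (C : XC nC B m) : Type := {u : C.K // u ≠ 0}

/-- The raw reads of the decoder. -/
noncomputable def dRaw (C : XC nC B m) (S : XSpec) (u : DU C) : (codeX C S).Raw :=
  .inl (.inl (codeX C S).k0, (0, u))

/-- The value of the decoder. -/
noncomputable def dXor (C : XC nC B m) (y : DU C → Bool) : Bool :=
  decide (∑ u : DU C, b2 (y u) = 1)

/-- The direction of the second component of the first line. -/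
def djr (ω : (U.sk a).P × (U.sk a).Z) : C.ι (U.k a) := (ω.2.2.2 0).2

theorem py2_rd (u : DU C) (ω : (U.sk a).P × (U.sk a).Z) :
    U.py2 a ((U.sk a).rd (dRaw C S u) ω).1 =
      U.py2 a ω.1 + C.dir (U.k a) (djr U a ω) (u : C.K) := rfl

theorem XC.t_le (C : XC nC B m) : C.P0.t + 2 ≤ Fintype.card C.K := by
  have h1 := C.P.d_le
  have h2 : C.P.d = (B + 2) * ((B + 2) * C.P0.t) := rfl
  have h3 : C.P0.t ≤ (B + 2) * ((B + 2) * C.P0.t) :=
    (Nat.le_mul_of_pos_left _ (by omega)).trans (Nat.le_mul_of_pos_left _ (by omega))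
  rw [C.card_K]
  omega

theorem sum_ne_zero_add {F W : Type*} [Field F] [Fintype F] [DecidableEq F] [AddCommGroup W]
    (g : F → W) : ∑ u : {u : F // u ≠ 0}, g u + g 0 = ∑ u, g u := by
  rw [← Finset.sum_subtype (Finset.univ.erase (0 : F)) (fun x => by simp) g]
  exact Finset.sum_erase_add _ _ (mem_univ 0)

/-- The sum of the values of the code of an array on a punctured line. -/
theorem code_line_sum (k : ℕ) (x : Addr k → C.K) (y : C.Y k) (j : C.ι k) :
    ∑ u : DU C, (C.sys k).code x (y + C.dir k j (u : C.K)) = (C.sys k).code x y := by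
  have hlow : PolyLe C.K (fun u => (C.sys k).code x (y + C.dir k j u)) C.P0.t :=
    code_low (C.sys k) (fun f y i => C.E_low k f y i) x y j
  have hsum : ∑ u : C.K, (C.sys k).code x (y + C.dir k j u) = 0 :=
    hlow.sum_eq_zero (XC.t_le C)
  have h1 := sum_ne_zero_add fun u : C.K => (C.sys k).code x (y + C.dir k j u)
  rw [hsum, map_zero, add_zero] at h1
  exact CharTwo.add_eq_zero.1 h1

/-- **Corrected reads of codes of blocks.** -/
theorem str_read (x : Addr (U.k a) → C.K) (l : C.K) (ω : (U.sk a).P × (U.sk a).Z) :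
    dXor C (fun u => U.strB a x l ((U.sk a).rd (dRaw C S u) ω).1) = U.strB a x l ω.1 := by
  classical
  unfold dXor XFam.strB
  congr 1
  have e : ∀ u : DU C, b2 (decide (C.φ (l * (C.sys (U.k a)).code x
      (U.py2 a ((U.sk a).rd (dRaw C S u) ω).1)) = 1)) =
      C.φ (l * (C.sys (U.k a)).code x
        (U.py2 a ω.1 + C.dir (U.k a) (djr U a ω) (u : C.K))) := by
    intro u
    rw [b2_dec', py2_rd]
  rw [Finset.sum_congr rfl fun u _ => e u, ← map_sum, ← Finset.mul_sum, code_line_sum]

/-- **The raw reads mix.** -/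
theorem str_samp (hC : Fintype.card S.Cell = nC) (B' : (U.sk a).P → Prop)
    (hB : pr B' ≤ ρX C S) :
    pr (fun p : (U.sk a).P => 1 / 8 ≤ pr fun z : (U.sk a).Z =>
      ∃ u : DU C, B' ((U.sk a).rd (dRaw C S u) (p, z)).1) ≤ 1 / 2 * pr B' := by
  classical
  have h1 := (lfactsX C (U.I a) U.σ (U.ε a) (U.s0 a) (U.hI0 a) hC ((U.nm a).sP (U.nm_ok a))
    ((U.nm a).sZ (U.nm_ok a)) ((U.nm a).gap_sP (U.nm_ok a)) ((U.nm a).gap_sZ (U.nm_ok a))).samp
      B' hB
  refine le_trans (pr_mono fun p hp => ?_) h1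
  refine le_trans hp (pr_mono fun z hz => ?_)
  obtain ⟨u, hu⟩ := hz
  refine ⟨((codeX C S).k0, (0, u)), ?_⟩
  exact hu

/-! ### The ends of the extended dynamics -/

section ends

variable {k : ℕ} (I : XInst S) (σ : XSlot S ≃ Fin B) (ε : I.J ≃ Addr k)
  (s : S.Ext → I.J → Bool) (hI : I.Facts s)
  (sP : Fin 4 → (famX C I σ ε s hI).P ≃ (famX C I σ ε s hI).P)
  (sZ : Fin 4 → (famX C I σ ε s hI).Z ≃ (famX C I σ ε s hI).Z)

/-- The local code of the machine. -/
noncomputable abbrev lfX : LInst (codeX C S).spec :=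
  (famX C I σ ε s hI).toLInst sP sZ (lowX C I σ ε s hI)

/-- **Every state except the start has a predecessor**, if this is so for the machine. -/
theorem lfX_noend (hb : ∀ w, I.Valid s w → w ≠ I.w0 → I.Valid s (I.step s true w))
    (w : (lfX (C := C) I σ ε s hI sP sZ).Cf)
    (hw : (lfX (C := C) I σ ε s hI sP sZ).Valid w)
    (hne : w ≠ (lfX (C := C) I σ ε s hI sP sZ).w0) :
    (lfX (C := C) I σ ε s hI sP sZ).Valid ((lfX (C := C) I σ ε s hI sP sZ).step true w) := by
  obtain ⟨st, hst, he⟩ := hw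
  have hC := factsX C I σ ε s hI
  show (famX C I σ ε s hI).WVal ((famX C I σ ε s hI).wstep true w.1)
  rw [he, (famX C I σ ε s hI).wstep_eq hC true hst]
  refine ⟨_, ?_, rfl⟩
  by_contra hc
  have hne' : st ≠ (xdyn I s hI).st0 (C.h k + 1) := by
    intro h1
    apply hne
    apply Subtype.ext
    rw [he, h1]
    rfl
  obtain ⟨h1, h2, h3⟩ := Dyn.reveal_true (D := xdyn I s hI) (Nat.succ_pos _) hst hne' hc
  exact h3 (hb _ h1 h2)

/-- The last state of the extended dynamics. -/
noncomputable def endSt (I : XInst S) (s : S.Ext → I.J → Bool) (h : ℕ) (w : I.J → S.Cell) :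
    Q.St (I.J → S.Cell) :=
  ⟨true, fun σ => if σ then I.step s false w else w, fun σ => if σ then h else h + 1⟩

/-- **The end**: the only state without successor. -/
theorem lfX_end {fin : I.J → S.Cell}
    (he : ∀ w, I.Valid s w → ¬ I.Valid s (I.step s false w) → w = fin)
    (w : (lfX (C := C) I σ ε s hI sP sZ).Cf)
    (hw : (lfX (C := C) I σ ε s hI sP sZ).Valid w)
    (hne : ¬ (lfX (C := C) I σ ε s hI sP sZ).Valid
      ((lfX (C := C) I σ ε s hI sP sZ).step false w)) :
    w.1 = (famX C I σ ε s hI).sec (endSt I s (C.h k) fin) ∧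
      (famX C I σ ε s hI).Val (endSt I s (C.h k) fin) := by
  obtain ⟨st, hst, hs⟩ := hw
  have hC := factsX C I σ ε s hI
  have hc : ¬ (xdyn I s hI).VE (C.h k + 1) ((xdyn I s hI).stepE (C.h k + 1) false st) := by
    intro hc
    apply hne
    show (famX C I σ ε s hI).WVal ((famX C I σ ε s hI).wstep false w.1)
    rw [hs, (famX C I σ ε s hI).wstep_eq hC false hst]
    exact ⟨_, hc, rfl⟩
  obtain ⟨h1, h2, h3, h4, h5, h6⟩ := Dyn.not_ve_stepE (D := xdyn I s hI) (Nat.succ_pos _) hst hc
  have h7 : st.base false = fin := he _ h4 h6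
  have h8 : st = endSt I s (C.h k) fin := by
    refine Q.St.ext h1 (funext fun τ => ?_) (funext fun τ => ?_)
    · cases τ
      · exact h7
      · show st.base (!false) = I.step s false fin
        rw [h5, h7]
        rfl
    · cases τ
      · exact h2
      · have h9 : st.ht true + 1 = C.h k + 1 := h3
        show st.ht true = C.h k
        omega
  rw [← h8]
  exact ⟨hs, hst⟩

end ends

end Vale.Agent.P330.FM
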