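import Vale.Agent.P330.FM.TMStep
import Vale.Agent.P330.H800.TabPT

/-!
# The final configuration of the machine of a tableau

* `fin s`: the final configuration; `valid_end`, `step_fin`: it is the only valid configuration
  without valid successor, and the step only removes the head.
* `fin_out`, `fin_inb`: output and stored external bits.
* `dep_w0`, `dep_back`: the start configuration and its predecessor do not look at external bits.
* `exists_machine`: every function in `PT` is computed by such a machine.
-/

namespace Vale.Agent.P330.FM.TM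

open Finset Vale.Agent.P330.H800 Vale.Agent.Lib.PolyTime Vale.Agent.Lib.PolyTime.ToTM2

variable {k : ℕ} {τ : Tab k} {P : Prm} {L : ℕ}

/-- The final configuration. -/
def fin (τ : Tab k) (P : Prm) (L : ℕ) (s : Fin k → ZMod L → Bool) : ZMod L → Cell τ.A k :=
  conf τ P s (L + P.m)

theorem fin_valid (h : Good P L) (s : Fin k → ZMod L → Bool) :
    (inst τ h).Valid s (fin τ P L s) := conf_valid h s le_rfl

theorem step_fin (h : Good P L) (s : Fin k → ZMod L → Bool) :
    (inst τ h).step s false (fin τ P L s) = nohd (fin τ P L s) := step_end h s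

theorem eq_fin (h : Good P L) {s : Fin k → ZMod L → Bool} {w : ZMod L → Cell τ.A k}
    (hw : (inst τ h).Valid s w) (hw' : ¬ (inst τ h).Valid s ((inst τ h).step s false w)) :
    w = fin τ P L s := valid_end h hw hw'

/-- The output. -/
theorem fin_out (s : Fin k → ZMod L → Bool) (j : ZMod L) :
    (fin τ P L s j).out = if j.val < P.m then some (outv τ P s j.val) else none := by
  show (if j.val + L < L + P.m then _ else _) = _
  exact if_congr (by omega) rfl rfl

/-- The stored external bits. -/
theorem fin_inb' (h : Good P L) (s : Fin k → ZMod L → Bool) (d : Fin k) (j : ZMod L) :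
    (fin τ P L s j).inb d = (decide (j.val < P.m) && s d j) := by
  have : NeZero L := ⟨h.pos.ne'⟩
  have hj := j.val_lt
  have e : (fin τ P L s j).con = some (cont τ P s j.val) := by
    show (if _ then _ else _) = _
    rw [if_pos (by omega)]
  unfold Cell.inb
  rw [e]
  simp only [Option.map_some, Option.getD_some, cont]
  rw [pt_val]

theorem fin_inb (h : Good P L) {s : Fin k → ZMod L → Bool}
    (hs : ∀ d (j : ZMod L), P.m ≤ j.val → s d j = false) (d : Fin k) (j : ZMod L) :
    (fin τ P L s j).inb d = s d j := by
  rw [fin_inb' h]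
  by_cases h1 : j.val < P.m
  · simp [h1]
  · simp [h1, hs d j (by omega)]

/-- All cells of the final configuration are filled. -/
theorem fin_con (h : Good P L) (s : Fin k → ZMod L → Bool) (j : ZMod L) :
    (fin τ P L s j).con.isSome = true := by
  have : NeZero L := ⟨h.pos.ne'⟩
  have hj := j.val_lt
  have e : (fin τ P L s j).con = some (cont τ P s j.val) := by
    show (if _ then _ else _) = _
    rw [if_pos (by omega)]
  rw [e]
  rfl

theorem nohd_out (w : ZMod L → Cell τ.A k) (j : ZMod L) : (nohd w j).out = (w j).out := rfl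

theorem nohd_inb (w : ZMod L → Cell τ.A k) (j : ZMod L) (d : Fin k) :
    (nohd w j).inb d = (w j).inb d := rfl

theorem nohd_con (w : ZMod L → Cell τ.A k) (j : ZMod L) : (nohd w j).con = (w j).con := rfl

theorem nohd_st (w : ZMod L → Cell τ.A k) (j : ZMod L) : (nohd w j).st = (w j).st := rfl

/-! ### The start does not look at the external bits -/

theorem dep_w0 (h : Good P L) (j : (inst τ h).J) :
    (spec τ).dep (fun t => (inst τ h).w0 (j + (inst τ h).off ((spec τ).win t))) = false := rfl

theorem dep_back (h : Good P L) (s : Fin k → ZMod L → Bool) (j : (inst τ h).J) :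
    (spec τ).dep (fun t => (inst τ h).step s true (inst τ h).w0
      (j + (inst τ h).off ((spec τ).win t))) = false := by
  have e : (inst τ h).step s true (inst τ h).w0 = nohd (blank τ P L) := back_blank h s
  rw [e]
  rfl

theorem depR_w0 (h : Good P L) (z : Bool) (p : (inst τ h).J) :
    (spec τ).depR z ((inst τ h).around (inst τ h).w0 p) = false := by
  cases z <;> rfl

theorem depR_back (h : Good P L) (s : Fin k → ZMod L → Bool) (z : Bool) (p : (inst τ h).J) :
    (spec τ).depR z ((inst τ h).around ((inst τ h).step s true (inst τ h).w0) p) = false := by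
  have e : (inst τ h).step s true (inst τ h).w0 = nohd (blank τ P L) := back_blank h s
  rw [e]
  cases z <;> rfl

/-- A window looks at the external bits only if its cell is a filled input cell. -/
theorem dep_iff (c : Fin 6 → Cell τ.A k) :
    (spec τ).dep c = true ↔ (c 0).con.isSome = true ∧ (c 0).st.row0 = true ∧
      (c 0).st.io = true := by
  show depC τ (c 0) = true ↔ _
  unfold depC
  simp

/-- The rule looks at the external bits only if the head is at an input cell which is not
filled. -/
theorem depR_iff (z : Bool) (g : Off → Cell τ.A k) :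
    (spec τ).depR z g = true ↔ z = false ∧ (g .o0).ph = true ∧ (g .o0).con = none ∧
      (g .o0).st.row0 = true ∧ (g .o0).st.io = true := by
  show depRC τ z (g .o0) = true ↔ _
  unfold depRC
  cases z <;> simp [and_assoc]

/-- Windows of output cells: a cell with output which is not an input cell is not allowed (for no
external bits). -/
theorem not_allowed_of_out {β : Fin k → Bool} {c : Fin 6 → Cell τ.A k} (h : (c 0).out ≠ none)
    (h' : (c 0).st.io = false) : (spec τ).allowed β c = false := by
  by_contra hc
  have h1 : (spec τ).allowed β c = true := by simpa using hc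
  simp only [spec, decide_eq_true_eq] at h1
  have := h1.2.oio h
  rw [h'] at this
  exact absurd this (by simp)

/-! ### Functions in `PT` -/

/-- The input words. -/
def wd (P : Prm) (s : Fin k → ZMod L → Bool) (d : Fin k) : List Bool :=
  (List.range P.m).map fun i => s d (pt L i)

theorem wd_length (s : Fin k → ZMod L → Bool) (d : Fin k) : (wd P s d).length = P.m := by
  simp [wd]

theorem wd_get (s : Fin k → ZMod L → Bool) (d : Fin k) (i : ℕ) :
    (wd P s d)[i]? = inp P s d i := by
  unfold wd inp
  rw [List.getElem?_map]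
  split_ifs with h
  · rw [List.getElem?_range h]
    rfl
  · rw [List.getElem?_eq_none (by simpa using h)]
    rfl

/-- **Every function in `PT` is computed by a machine.** -/
theorem exists_machine {F : List (List Bool) → List Bool} (hF : PT ∅ F) (k : ℕ) :
    ∃ (τ : Tab k) (c : ℕ), ∀ (P : Prm) (L : ℕ), Good P L → pb c P.m ≤ P.W →
      pb c P.m + 1 ≤ P.T → ∀ (s : Fin k → ZMod L → Bool) (p : ℕ), p < P.m →
        outv τ P s p = ((F (List.ofFn (wd P s)))[p]?).getD false := by
  obtain ⟨τ, c, hτ⟩ := exists_tab hF k
  refine ⟨τ, c, fun P L h h1 h2 s p hp => ?_⟩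
  have hW := h.W2
  have hm := h.m1
  unfold outv
  rw [τ.lin_add (by omega) _ _ _ (by omega)]
  have e : inp P s = fun d i => (wd P s d)[i]? := by
    funext d i
    rw [wd_get]
  rw [e, hτ (wd P s) P.m P.W (P.T - 1) (fun d => (wd_length s d).le) h1 (by omega)]

/-- The same with inputs in the format `Raw`. -/
theorem exists_machine_raw {F : List Raw → Raw} (hF : PT ∅ F) (k : ℕ) :
    ∃ (τ : Tab k) (c : ℕ), ∀ (P : Prm) (L : ℕ), Good P L → pb c P.m ≤ P.W →
      pb c P.m + 1 ≤ P.T → ∀ (s : Fin k → ZMod L → Bool) (p : ℕ), p < P.m →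
        outv τ P s p = ((F ((List.ofFn (wd P s)).map Raw.mk)).w[p]?).getD false := by
  obtain ⟨τ, c, hτ⟩ := exists_tab_raw hF k
  refine ⟨τ, c, fun P L h h1 h2 s p hp => ?_⟩
  have hW := h.W2
  have hm := h.m1
  unfold outv
  rw [τ.lin_add (by omega) _ _ _ (by omega)]
  have e : inp P s = fun d i => (wd P s d)[i]? := by
    funext d i
    rw [wd_get]
  rw [e, hτ (wd P s) P.m P.W (P.T - 1) (fun d => (wd_length s d).le) h1 (by omega)]

/-- Parameters with powers of two: `L = 2 ^ (2 a)`. -/
def prmOf (a m : ℕ) : Prm := ⟨2 ^ a, 2 ^ a, m⟩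

theorem good_prmOf {a m : ℕ} (ha : 1 ≤ a) (hm : m ≤ 2 ^ a) : Good (prmOf a m) (2 ^ (2 * a)) where
  W2 := by
    show 2 ≤ 2 ^ a
    calc 2 = 2 ^ 1 := by norm_num
      _ ≤ 2 ^ a := Nat.pow_le_pow_right (by norm_num) ha
  T2 := by
    show 2 ≤ 2 ^ a
    calc 2 = 2 ^ 1 := by norm_num
      _ ≤ 2 ^ a := Nat.pow_le_pow_right (by norm_num) ha
  m1 := hm
  hL := by
    show 2 ^ (2 * a) = 2 ^ a * 2 ^ a
    rw [two_mul, pow_add]

end Vale.Agent.P330.FM.TM
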