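import Vale.Agent.P330.FM.Sel
import Vale.Agent.P330.FM.TMEnd

/-!
# Machines for functions of words of length `m`

* `wbits X`: the external bits, for `k` words of length `m`.
* `exists_mach`: every function in `PT` of `k` words is computed by a machine.
* `exists_msel`: the same for the function `fsel` (selector, public word, `K` words).
-/

namespace Vale.Agent.P330.FM

open Vale.Agent.Lib.PolyTime Vale.Agent.Lib.PolyTime.ToTM2
open Vale.Agent.P330.H475 (Wd wd toWd wd0)
open Vale.Agent.P330.H800 (Tab)

/-- The external bits, for `k` words of length `m`. -/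
def wbits {k m : ℕ} (L : ℕ) (X : Fin k → Wd m) (d : Fin k) (j : ZMod L) : Bool :=
  if h : j.val < m then X d ⟨j.val, h⟩ else false

theorem wbits_eq_false {k m L : ℕ} (X : Fin k → Wd m) (d : Fin k) {j : ZMod L} (h : m ≤ j.val) :
    wbits L X d j = false := dif_neg (by omega)

theorem wbits_pt {k m L : ℕ} (X : Fin k → Wd m) (d : Fin k) {i : ℕ} (hL : m ≤ L) (h : i < m) :
    wbits L X d (TM.pt L i) = X d ⟨i, h⟩ := by
  have e : (TM.pt L i).val = i := TM.val_pt (by omega)
  unfold wbits
  rw [dif_pos (by omega)]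
  congr 1
  exact Fin.ext e

theorem wd_wbits {k m L : ℕ} (P : TM.Prm) (hP : P.m = m) (hL : m ≤ L) (X : Fin k → Wd m)
    (d : Fin k) : TM.wd P (wbits L X) d = wd (X d) := by
  subst hP
  unfold TM.wd wd
  refine List.ext_getElem (by simp) fun i h1 h2 => ?_
  rw [List.getElem_map, List.getElem_range, List.getElem_ofFn]
  simp only [List.length_ofFn] at h2
  rw [wbits_pt X d hL h2]

/-- **Every function in `PT` of `k` words is computed by a machine.** -/
theorem exists_mach {F : List Word → Word} (hF : PT ∅ F) (k : ℕ) :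
    ∃ (τ : Tab k) (c : ℕ), ∀ (P : TM.Prm) (L : ℕ), TM.Good P L → pb c P.m ≤ P.W →
      pb c P.m + 1 ≤ P.T → ∀ (X : Fin k → Wd P.m) (j : ZMod L),
        (TM.fin τ P L (wbits L X) j).out =
          if h : j.val < P.m then some (toWd P.m (F (List.ofFn fun d => wd (X d))) ⟨j.val, h⟩)
          else none := by
  obtain ⟨τ, c, hτ⟩ := TM.exists_machine hF k
  refine ⟨τ, c, fun P L h h1 h2 X j => ?_⟩
  have hm : P.m ≤ L := by
    have := h.WL
    have := h.m1
    omega
  rw [TM.fin_out]
  split_ifs with h3
  · rw [hτ P L h h1 h2 _ _ h3]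
    congr 1
    unfold toWd
    rw [← List.getD_eq_getElem?_getD]
    congr 3
    funext d
    exact wd_wbits P rfl hm X d
  · rfl

/-- The inputs of `fsel`, as a family over `Fin (K + 2)`. -/
def sel2 {K m : ℕ} (X : Option (Option (Fin K)) → Wd m) : Fin (K + 2) → Wd m :=
  Fin.cons (X none) (Fin.cons (X (some none)) fun i => X (some (some i)))

/-- The number of an input. -/
def sno {K : ℕ} : Option (Option (Fin K)) → Fin (K + 2)
  | none => 0
  | some none => 1
  | some (some i) => i.succ.succ

theorem sel2_sno {K m : ℕ} (X : Option (Option (Fin K)) → Wd m) (a : Option (Option (Fin K))) :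
    sel2 X (sno a) = X a := by
  rcases a with _ | _ | i
  · rfl
  · rfl
  · show Fin.cons (α := fun _ => Wd m) (X none) _ i.succ.succ = _
    rw [Fin.cons_succ, Fin.cons_succ]

/-- The equivalence of the two index sets. -/
def snoE (K : ℕ) : Option (Option (Fin K)) ≃ Fin (K + 2) where
  toFun := sno
  invFun := Fin.cases none fun i => some (Fin.cases none some i)
  left_inv a := by
    rcases a with _ | _ | i
    · rfl
    · rfl
    · show Fin.cases (motive := fun _ => Option (Option (Fin K))) none
        (fun i => some (Fin.cases none some i)) i.succ.succ = _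
      rw [Fin.cases_succ, Fin.cases_succ]
  right_inv i := by
    refine Fin.cases rfl (fun i => ?_) i
    refine Fin.cases rfl (fun i => ?_) i
    show sno (Fin.cases (motive := fun _ => Option (Option (Fin K))) none
        (fun i => some (Fin.cases none some i)) i.succ.succ) = _
    rw [Fin.cases_succ, Fin.cases_succ]
    rfl

theorem ofFn_sel2 {K m : ℕ} (X : Option (Option (Fin K)) → Wd m) :
    List.ofFn (fun d => wd (sel2 X d)) = slst X := by
  rw [List.ofFn_succ, List.ofFn_succ]
  rfl

/-- **The machine for all site functions.** -/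
theorem exists_msel {fc fe : List Word → Word} {fs : Bool → List Word → Word}
    (hc : PT ∅ fc) (he : PT ∅ fe) (hs : ∀ z, PT ∅ (fs z)) (K : ℕ) :
    ∃ (τ : Tab (K + 2)) (c : ℕ), ∀ (P : TM.Prm) (L : ℕ), TM.Good P L → pb c P.m ≤ P.W →
      pb c P.m + 1 ≤ P.T → ∀ (X : Option (Option (Fin K)) → Wd P.m) (j : ZMod L),
        (TM.fin τ P L (wbits L (sel2 X)) j).out =
          if h : j.val < P.m then some (fselW fc fe fs X ⟨j.val, h⟩) else none := by
  obtain ⟨τ, c, hτ⟩ := exists_mach (PT.fsel hc he hs) (K + 2)
  refine ⟨τ, c, fun P L h h1 h2 X j => ?_⟩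
  rw [hτ P L h h1 h2 (sel2 X) j, ofFn_sel2]
  rfl

/-- The stored bits of the final configuration. -/
theorem fin_inb_wbits {k : ℕ} {τ : Tab k} {P : TM.Prm} {L : ℕ} (h : TM.Good P L)
    (X : Fin k → Wd P.m) (d : Fin k) (j : ZMod L) :
    (TM.fin τ P L (wbits L X) j).inb d = wbits L X d j :=
  TM.fin_inb h (fun d _ hj => wbits_eq_false X d hj) d j

end Vale.Agent.P330.FM
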