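import Vale.Agent.P330.FM.E3Dec
import Vale.Agent.P330.FM.MachSel

/-!
# The family of the machines of a tableau: corrected reads and ends

* `enc_read`, `enc_samp`: `d_ok` and `samp` for the codes of blocks.
* `mf_noend`, `mf_end`: the ends of the local codes; the last state consists of the final
  configuration `fin` and of the same without head.
* `fin_out_aOf`: the output of the final configuration.
-/

namespace Vale.Agent.P330.FM

open Finset PCP.AR Vale.Agent.Lib.PolyTime Vale.Agent.Lib.PolyTime.ToTM2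
open Vale.Agent.P330.Q Vale.Agent.P330.H972 Vale.Agent.P330.FM.TM
open Vale.Agent.P330.H800 (Tab)
open Vale.Agent.P330.H475 (Wd toWd)

section

variable {kk mm : ℕ} {τ : Tab kk} (C : XC (nCm τ) (nBm τ) mm) (c : ℕ) {α : Type} [Enc α]
  {m : α → ℕ} (hm : PT ∅ m) (hb : PBd m) (a : α)

/-- **Corrected reads of codes of blocks.** -/
theorem enc_read (b : Fin (m a) → Bool) (l : C.K)
    (ω : ((mfam C c hm hb).sk a).P × ((mfam C c hm hb).sk a).Z) :
    dXor C (fun u => encB C c hm hb a b l
      (((mfam C c hm hb).sk a).rd (dRaw C (TM.spec τ) u) ω).1) = encB C c hm hb a b l ω.1 :=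
  str_read (mfam C c hm hb) a _ l ω

/-- **The reads of the decoder mix.** -/
theorem enc_samp (B' : ((mfam C c hm hb).sk a).P → Prop) (hB : pr B' ≤ ρX C (TM.spec τ)) :
    pr (fun p : ((mfam C c hm hb).sk a).P => 1 / 8 ≤ pr fun z : ((mfam C c hm hb).sk a).Z =>
      ∃ u : DU C, B' (((mfam C c hm hb).sk a).rd (dRaw C (TM.spec τ) u) (p, z)).1) ≤
      1 / 2 * pr B' :=
  str_samp (mfam C c hm hb) a rfl B' hB

end

section ends

variable {kk mm : ℕ} {τ : Tab kk} {C : XC (nCm τ) (nBm τ) mm} {P : Prm} {L k : ℕ}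
  (h : Good P L) (σ : XSlot (TM.spec τ) ≃ Fin (nBm τ)) (ε : (inst τ h).J ≃ Addr k)
  (s : Fin kk → ZMod L → Bool)
  (sP : Fin 4 → (famX C (inst τ h) σ ε s (facts h s)).P ≃
    (famX C (inst τ h) σ ε s (facts h s)).P)
  (sZ : Fin 4 → (famX C (inst τ h) σ ε s (facts h s)).Z ≃
    (famX C (inst τ h) σ ε s (facts h s)).Z)

/-- **Every state except the start has a predecessor.** -/
theorem mf_noend (w : (lfX (C := C) (inst τ h) σ ε s (facts h s) sP sZ).Cf)
    (hw : (lfX (C := C) (inst τ h) σ ε s (facts h s) sP sZ).Valid w)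
    (hne : w ≠ (lfX (C := C) (inst τ h) σ ε s (facts h s) sP sZ).w0) :
    (lfX (C := C) (inst τ h) σ ε s (facts h s) sP sZ).Valid
      ((lfX (C := C) (inst τ h) σ ε s (facts h s) sP sZ).step true w) :=
  lfX_noend (inst τ h) σ ε s (facts h s) sP sZ (fun _ h1 h2 => valid_back h h1 h2) w hw hne

/-- The last state: the final configuration, and the same without head. -/
noncomputable def finSt (τ : Tab kk) (P : Prm) (L hC : ℕ) (s : Fin kk → ZMod L → Bool) :
    Q.St (ZMod L → Cell τ.A kk) :=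
  ⟨true, fun t => if t then nohd (TM.fin τ P L s) else TM.fin τ P L s,
    fun t => if t then hC else hC + 1⟩

/-- **The end.** -/
theorem mf_end (w : (lfX (C := C) (inst τ h) σ ε s (facts h s) sP sZ).Cf)
    (hw : (lfX (C := C) (inst τ h) σ ε s (facts h s) sP sZ).Valid w)
    (hne : ¬ (lfX (C := C) (inst τ h) σ ε s (facts h s) sP sZ).Valid
      ((lfX (C := C) (inst τ h) σ ε s (facts h s) sP sZ).step false w)) :
    w.1 = (famX C (inst τ h) σ ε s (facts h s)).sec (finSt τ P L (C.h k) s) ∧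
      (famX C (inst τ h) σ ε s (facts h s)).Val (finSt τ P L (C.h k) s) := by
  have h1 := lfX_end (inst τ h) σ ε s (facts h s) sP sZ (fin := TM.fin τ P L s)
    (fun _ h1 h2 => eq_fin h h1 h2) w hw hne
  have h2 : endSt (inst τ h) s (C.h k) (TM.fin τ P L s) = finSt τ P L (C.h k) s := by
    unfold endSt finSt
    rw [step_fin h s]
    rfl
  rwa [h2] at h1

end ends

/-- **The machine computes the function.** -/
theorem exists_mach_aOf {F : List Word → Word} (hF : PT ∅ F) (k : ℕ) :
    ∃ (τ : Tab k) (c : ℕ), ∀ (m : ℕ) (X : Fin k → Wd m) (j : ZMod (2 ^ (2 * aOf c m))),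
      (TM.fin τ (prmOf (aOf c m) m) (2 ^ (2 * aOf c m)) (fun d => extB (X d)) j).out =
        if h : j.val < m then
          some (toWd m (F (List.ofFn fun d => H475.wd (X d))) ⟨j.val, h⟩) else none := by
  obtain ⟨τ, c, hτ⟩ := exists_mach hF k
  refine ⟨τ, c, fun m X j => ?_⟩
  have h1 : pb c m + 1 ≤ 2 ^ aOf c m := pb_aOf c m
  have h2 := hτ (prmOf (aOf c m) m) _ (good_aOf c m) (by show pb c m ≤ 2 ^ aOf c m; omega)
    h1 X j
  exact h2

/-- **The machine for all site functions**, with `K + 2` words. -/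
theorem exists_msel_aOf {fc fe : List Word → Word} {fs : Bool → List Word → Word}
    (hc : PT ∅ fc) (he : PT ∅ fe) (hs : ∀ z, PT ∅ (fs z)) (K : ℕ) :
    ∃ (τ : Tab (K + 2)) (c : ℕ), ∀ (m : ℕ) (X : Fin (K + 2) → Wd m)
      (j : ZMod (2 ^ (2 * aOf c m))),
      (TM.fin τ (prmOf (aOf c m) m) (2 ^ (2 * aOf c m)) (fun d => extB (X d)) j).out =
        if h : j.val < m then
          some (toWd m (fsel fc fe fs (List.ofFn fun d => H475.wd (X d))) ⟨j.val, h⟩)
        else none :=
  exists_mach_aOf (PT.fsel hc he hs) (K + 2)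

/-- The stored bits. -/
theorem fin_inb_extB {k : ℕ} {τ : Tab k} {P : TM.Prm} {L : ℕ} (h : TM.Good P L)
    (X : Fin k → Wd P.m) (d : Fin k) (j : ZMod L) :
    (TM.fin τ P L (fun d => extB (X d)) j).inb d = extB (X d) j :=
  TM.fin_inb h (fun d _ hj => extB_of_le (X d) hj) d j

end Vale.Agent.P330.FM
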