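import Vale.Agent.P330.FM.XVal
import Vale.Agent.P330.FM.TMEnd

/-!
# Functional modules: the machines of tableaux on numbers

The machine of the tableau `τ` with `2 ^ a` rows of width `2 ^ a` and words of length `m` has
`2 ^ (2 a)` positions.
* `TM.xnum`: numbers (`XNum`) for a family of such machines, in polynomial time.
* `TM.blankOK`, `TM.blank_w0`, `TM.blank_back`, `TM.back_eq`: the start does not use the external
  bits.
* `TM.aOf c m`: an exponent which is large enough for the time bound `pb c m`.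
-/

namespace Vale.Agent.P330.FM.TM

open Finset Vale.Agent.P330.H800 Vale.Agent.P330.Q Vale.Agent.Lib.PolyTime
open Vale.Agent.Lib.PolyTime.ToTM2

/-! ### Blank contents -/

section blank

variable {k : ℕ} (τ : Tab k) {P : Prm} {L : ℕ}

/-- blank cells -/
def bl (e : (spec τ).Cell) : Bool := !(Cell.ph (A := τ.A) (k := k) e) && (Cell.con e).isNone

theorem blankOK : BlankOK (spec τ) (bl τ) where
  win c hc := by
    refine ⟨0, ?_⟩
    have h1 : (Cell.con (A := τ.A) (k := k) (c 0)).isSome = true := ((dep_iff c).1 hc).1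
    show (!(Cell.ph (A := τ.A) (k := k) (c 0)) && (Cell.con (A := τ.A) (k := k) (c 0)).isNone) =
      false
    rw [← Option.not_isSome, h1]
    simp
  rule z g hg := by
    refine ⟨.o0, ?_⟩
    have h1 : Cell.ph (A := τ.A) (k := k) (g .o0) = true := ((depR_iff z g).1 hg).2.1
    show (!(Cell.ph (A := τ.A) (k := k) (g .o0)) && _) = false
    rw [h1]
    simp

variable {τ}

theorem blank_w0 (h : Good P L) (j : (inst τ h).J) : bl τ ((inst τ h).w0 j) = true := rfl

theorem back_eq (h : Good P L) (s s' : Fin k → ZMod L → Bool) :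
    (inst τ h).step s true (inst τ h).w0 = (inst τ h).step s' true (inst τ h).w0 :=
  (back_blank h s).trans (back_blank h s').symm

theorem blank_back (h : Good P L) (s : Fin k → ZMod L → Bool) (j : (inst τ h).J) :
    bl τ ((inst τ h).step s true (inst τ h).w0 j) = true := by
  have e : (inst τ h).step s true (inst τ h).w0 = nohd (blank τ P L) := back_blank h s
  rw [e]
  rfl

end blank

/-! ### Numbers -/

theorem DP_decide {A : Set Word} {β : Type*} [Enc β] {p : β → Prop} [DecidablePred p]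
    (h : DP A p) (c : Bool) : DP A fun b => decide (p b) = c := by
  cases c
  · exact h.not.congr fun b => by simp
  · exact h.congr fun b => by simp

/-- Numbers of the offsets, `W = 2 ^ a`. -/
def offN (a : ℕ) : Off → ℕ
  | .o0 => 0
  | .p1 => 1
  | .l => negZ (2 * a) 1
  | .ul => negZ (2 * a) (2 ^ a + 1)
  | .u => negZ (2 * a) (2 ^ a)
  | .ur => negZ (2 * a) (2 ^ a - 1)

theorem ptZ_offN (a m : ℕ) (o : Off) :
    ptZ (2 * a) (offN a o) = (((prmOf a m).offZ o : ℤ) : ZMod (2 ^ (2 * a))) := by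
  cases o with
  | o0 => show ptZ (2 * a) 0 = ((0 : ℤ) : ZMod _); simp [ptZ]
  | p1 => show ptZ (2 * a) 1 = ((1 : ℤ) : ZMod _); simp [ptZ]
  | l =>
    show ptZ (2 * a) (negZ (2 * a) 1) = ((-1 : ℤ) : ZMod _)
    rw [ptZ_neg]
    simp [ptZ]
  | ul =>
    show ptZ (2 * a) (negZ (2 * a) (2 ^ a + 1)) = ((-((2 ^ a : ℕ) : ℤ) - 1 : ℤ) : ZMod _)
    rw [ptZ_neg]
    unfold ptZ
    push_cast
    ring
  | u =>
    show ptZ (2 * a) (negZ (2 * a) (2 ^ a)) = ((-((2 ^ a : ℕ) : ℤ) : ℤ) : ZMod _)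
    rw [ptZ_neg]
    unfold ptZ
    push_cast
    ring
  | ur =>
    show ptZ (2 * a) (negZ (2 * a) (2 ^ a - 1)) = ((-((2 ^ a : ℕ) : ℤ) + 1 : ℤ) : ZMod _)
    rw [ptZ_neg]
    unfold ptZ
    rw [Nat.cast_sub Nat.one_le_two_pow]
    push_cast
    ring

theorem ptZ_add_off (a m n : ℕ) (o : Off) :
    ptZ (2 * a) n + (((prmOf a m).offZ o : ℤ) : ZMod (2 ^ (2 * a))) =
      ptZ (2 * a) (n + offN a o) := by
  rw [← ptZ_offN, ptZ_add]

theorem blank_eq_iff {k : ℕ} (τ : Tab k) (P : Prm) (a n : ℕ) (e : Cell τ.A k) :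
    blank τ P (2 ^ a) (ptZ a n) = e ↔ P.st (n % 2 ^ a) = e.st ∧ false = e.ph ∧
      decide (n % 2 ^ a = 0) = e.hd ∧ none = e.con ∧ none = e.out := by
  rw [Cell.ext_iff]
  simp only [blank, val_ptZ]

section num

variable {k : ℕ} (τ : Tab k) {A : Set Word} {α : Type} [Enc α] {a m : α → ℕ}

theorem PBd_two_pow_two_mul (hab : PBd fun x => 2 ^ a x) : PBd fun x => 2 ^ (2 * a x) :=
  (hab.pow 2).mono fun x => by rw [← pow_mul, mul_comm]

theorem PT_two_mul (ha : PT A a) : PT A fun x => 2 * a x := PT.mul (PT.const 2) ha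

theorem DP_st (ha : PT A a) (hab : PBd fun x => 2 ^ a x) (hm : PT A m) {β : Type} [Enc β]
    {g : β → α} {p : β → ℕ} (hg : PT A g) (hp : PT A p) (s : St) :
    DP A fun b => (prmOf (a (g b)) (m (g b))).st (p b % 2 ^ (2 * a (g b))) = s := by
  have hW : PT A fun b => 2 ^ a (g b) := PT_two_pow (ha.comp hg) (hab.comp hg)
  have hL : PT A fun b => 2 ^ (2 * a (g b)) :=
    PT_two_pow (PT_two_mul (ha.comp hg)) (PBd_two_pow_two_mul (hab.comp hg))
  have hq : PT A fun b => p b % 2 ^ (2 * a (g b)) := PT.mod hp hL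
  have hmod : PT A fun b => (p b % 2 ^ (2 * a (g b))) % 2 ^ a (g b) := PT.mod hq hW
  have h1 := DP_decide (DP.eqNat hq (PT.const 0)) s.first
  have h2 := DP_decide (DP.of (PT.lt hq hW)) s.row0
  have h3 := DP_decide (DP.eqNat hmod (PT.const 0)) s.col0
  have h4 := DP_decide (DP.eqNat (PT.add hmod (PT.const 1)) hW) s.last
  have h5 := DP_decide (DP.of (PT.lt hq (hm.comp hg))) s.io
  refine (h1.and (h2.and (h3.and (h4.and h5)))).congr fun b => ?_
  rw [St.ext_iff]
  exact Iff.rfl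

theorem DP_blank (ha : PT A a) (hab : PBd fun x => 2 ^ a x) (hm : PT A m) {β : Type} [Enc β]
    {g : β → α} {p : β → ℕ} (hg : PT A g) (hp : PT A p) (e : Cell τ.A k) :
    DP A fun b => blank τ (prmOf (a (g b)) (m (g b))) (2 ^ (2 * a (g b)))
      (ptZ (2 * a (g b)) (p b)) = e := by
  have hL : PT A fun b => 2 ^ (2 * a (g b)) :=
    PT_two_pow (PT_two_mul (ha.comp hg)) (PBd_two_pow_two_mul (hab.comp hg))
  have hq : PT A fun b => p b % 2 ^ (2 * a (g b)) := PT.mod hp hL
  have h1 := DP_st ha hab hm hg hp e.st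
  have h2 := DP_decide (DP.eqNat hq (PT.const 0)) e.hd
  refine (h1.and ((DP.const (false = e.ph)).and (h2.and
    ((DP.const (none = e.con)).and (DP.const (none = e.out)))))).congr fun b => ?_
  rw [blank_eq_iff]

/-- **Numbers for a family of machines of tableaux.** -/
noncomputable def xnum (ha : PT A a) (hab : PBd fun x => 2 ^ a x) (hm : PT A m)
    (hg : ∀ x, Good (prmOf (a x) (m x)) (2 ^ (2 * a x))) :
    XNum A (fun x => inst τ (hg x)) fun x => 2 * a x where
  ε x := epsZ (2 * a x)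
  pt x n := ptZ (2 * a x) n
  ε_symm x n := epsZ_symm_adr (2 * a x) n
  DP_pt hgx hm' hn := DP_ptZ (PT_two_mul (ha.comp hgx)) (PBd_two_pow_two_mul (hab.comp hgx)) hm' hn
  offN x o := offN (a x) o
  pt_add x n o := ptZ_add_off (a x) (m x) n o
  PT_off o := by
    have hk := PT_two_mul (A := A) ha
    have hb := PBd_two_pow_two_mul hab
    have hW : PT A fun x => 2 ^ a x := PT_two_pow ha hab
    cases o with
    | o0 => exact PT.const 0
    | p1 => exact PT.const 1
    | l => exact PT_negZ hk hb (PT.const 1)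
    | ul => exact PT_negZ hk hb (PT.add hW (PT.const 1))
    | u => exact PT_negZ hk hb hW
    | ur => exact PT_negZ hk hb (PT.sub hW (PT.const 1))
  DP_stat {β _ g m'} hgx hm' s := by
    refine (DP_st ha hab hm hgx hm' s).congr fun b => ?_
    show _ ↔ (prmOf (a (g b)) (m (g b))).st (ptZ (2 * a (g b)) (m' b)).val = s
    rw [val_ptZ]
  DP_w0 hgx hm' e := DP_blank τ ha hab hm hgx hm' e

/-- The head of the start configuration. -/
theorem head_w0 (ha : PT A a) (hab : PBd fun x => 2 ^ a x) (hm : PT A m)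
    (hg : ∀ x, Good (prmOf (a x) (m x)) (2 ^ (2 * a x))) (x : α) :
    (inst τ (hg x)).IsHead (inst τ (hg x)).w0 ((xnum τ ha hab hm hg).pt x 0) :=
  head_blank (hg x)

end num

/-! ### The exponent -/

/-- An exponent which is large enough. -/
def aOf (c m : ℕ) : ℕ := Nat.size ((m + 2) ^ (c + 1) + 1)

theorem lt_aOf (c m : ℕ) : (m + 2) ^ (c + 1) + 1 < 2 ^ aOf c m := Nat.lt_size_self _

theorem aOf_le (c m : ℕ) : 2 ^ aOf c m ≤ 4 * (m + 2) ^ (c + 1) := by
  have h0 : 0 < aOf c m := Nat.size_pos.2 (by omega)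
  have h1 : aOf c m - 1 < Nat.size ((m + 2) ^ (c + 1) + 1) := by
    show aOf c m - 1 < aOf c m
    omega
  have h2 := Nat.lt_size.1 h1
  have h3 : 2 ^ aOf c m = 2 * 2 ^ (aOf c m - 1) := by
    rw [← pow_succ']
    congr 1
    omega
  have h4 : 1 ≤ (m + 2) ^ (c + 1) := Nat.one_le_pow _ _ (by omega)
  rw [h3]
  omega

theorem pb_le (c m : ℕ) : pb c m ≤ (m + 2) ^ (c + 1) := by
  unfold pb
  exact Nat.pow_le_pow_right (by omega) (by omega)

theorem pb_aOf (c m : ℕ) : pb c m + 1 ≤ 2 ^ aOf c m := by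
  have := lt_aOf c m
  have := pb_le c m
  omega

theorem m_le_aOf (c m : ℕ) : m ≤ 2 ^ aOf c m := by
  have h1 := lt_aOf c m
  have h2 : m + 2 ≤ (m + 2) ^ (c + 1) := Nat.le_self_pow (by omega) _
  omega

theorem one_le_aOf (c m : ℕ) : 1 ≤ aOf c m := Nat.size_pos.2 (by omega)

theorem good_aOf (c m : ℕ) : Good (prmOf (aOf c m) m) (2 ^ (2 * aOf c m)) :=
  good_prmOf (one_le_aOf c m) (m_le_aOf c m)

section

variable {A : Set Word} {α : Type} [Enc α] {m : α → ℕ}

theorem PT_aOf (c : ℕ) (hm : PT A m) : PT A fun x => aOf c (m x) :=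
  PT.natSize (PT.add (PT.powConst (PT.add hm (PT.const 2)) (c + 1)) (PT.const 1))

theorem PBd_aOf (c : ℕ) (hm : PBd m) : PBd fun x => 2 ^ aOf c (m x) :=
  ((PBd.const 4).mul ((hm.add (PBd.const 2)).pow (c + 1))).mono fun x => aOf_le c (m x)

end

end Vale.Agent.P330.FM.TM
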