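import Vale.Agent.P330.FM.XDom

/-!
# Functional modules: words of blank states do not depend on the external bits

If every window (neighbourhood of the head) that looks at the external bits contains a content which
is not blank, then the words of extended states whose bases consist of blank contents do not depend
on the external bits (`xword_blank`).
-/

namespace Vale.Agent.P330.FM

open Finset Vale.Agent.P330.Q

/-- Windows and neighbourhoods of the head that look at the external bits contain a content which is
not blank. -/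
structure BlankOK (S : XSpec) (bl : S.Cell → Bool) : Prop where
  win : ∀ c : Fin (S.d + 2) → S.Cell, S.dep c = true → ∃ i, bl (c i) = false
  rule : ∀ z (g : S.Off → S.Cell), S.depR z g = true → ∃ o, bl (g o) = false

section

variable {F : Type*} [Field F] {h : ℕ} [NeZero h] {Y : Type*} [AddCommGroup Y]
  (D : ESys F h Y) {S : XSpec} {k B : ℕ} (I : XInst S) (σ : XSlot S ≃ Fin B)
  (ε : I.J ≃ Addr k) (s s' : S.Ext → I.J → Bool) (hI : I.Facts s) (hI' : I.Facts s')
  {bl : S.Cell → Bool}

/-- A monomial of the public kernels with an external slot contains a content which is not blank. -/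
theorem exists_not_blank (hb : BlankOK S bl) {o : XOut S} {γ : XSlot S → Option (XCt S)} {a : I.J}
    {α : XSlot S → I.J} (hk : kerX I o γ a α) {t : XSlot S} {l : S.Ext × Bool}
    (ht : γ t = some (.inr l)) : ∃ t' e, γ t' = some (.inl e) ∧ bl e = false := by
  have hgE : ∀ (b : Option (S.Ext → Bool)) d, gamE (S := S) b d = some (.inr l) → b.isSome := by
    intro b d hd
    cases b
    · simp [gamE] at hd
    · rfl
  have hopt : ∀ (f : Bool) (β : S.Ext → Bool), (opt (S := S) f β).isSome → f = true := by
    intro f β hf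
    cases f
    · simp [opt] at hf
    · rfl
  have hg2 : ∀ u v, gam2 (S := S) u v t ≠ some (.inr l) := by
    intro u v hh
    rcases t with t | t | t
    · simp [gam2] at hh
    · simp only [gam2, Sum.elim_inr, Sum.elim_inl] at hh
      split_ifs at hh
      · cases u <;> simp at hh
      · cases v <;> simp at hh
    · simp [gam2, gamE] at hh
  cases o with
  | two e e' => exact absurd (hk.2.1 ▸ ht) (hg2 _ _)
  | sum =>
    obtain ⟨⟨e, he⟩, -⟩ := hk
    exact absurd (he ▸ ht) (hg2 _ _)
  | stat e => exact absurd (hk.2.1 ▸ ht) (hg2 _ _)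
  | proj e => exact absurd (hk.1 ▸ ht) (hg2 _ _)
  | win β c =>
    obtain ⟨-, hγ, -⟩ := hk
    subst hγ
    have hd : S.dep c = true := by
      rcases t with t | t | t
      · simp [gamW] at ht
      · simp [gamW] at ht
      · exact hopt _ _ (hgE _ _ ht)
    obtain ⟨i, hi⟩ := hb.win c hd
    exact ⟨Sum.inr (Sum.inl i), c i, rfl, hi⟩
  | next z e =>
    obtain ⟨β, g, e', h', -, -, hγ, -⟩ := hk
    subst hγ
    have hd : S.depR z g = true := by
      rcases t with t | t | t
      · simp [gamN] at ht
      · simp [gamN] at ht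
      · exact hopt _ _ (hgE _ _ ht)
    obtain ⟨o, ho⟩ := hb.rule z g hd
    exact ⟨Sum.inl (some o), g o, rfl, ho⟩

/-- The public kernels vanish for external slots without a content which is not blank. -/
theorem xker_eq_zero (hb : BlankOK S bl) (c : Chn S.Cell (XVOut S))
    {γ : Fin B → Option (XCt S)} {t : Fin B} {l : S.Ext × Bool} (ht : γ t = some (.inr l))
    (hno : ∀ t' e, γ t' = some (.inl e) → bl e = true) (ρ y : Y) :
    xker D I σ ε c γ ρ y = 0 := by
  classical
  have h1 : kerXF F I σ ε (xoutOf c) γ = 0 := by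
    funext a α
    refine if_neg fun hk => ?_
    obtain ⟨t', e, h2, h3⟩ := exists_not_blank I hb hk (t := σ.symm t) (l := l) (by simpa using ht)
    rw [hno _ e h2] at h3
    exact absurd h3 (by simp)
  unfold xker
  rw [h1]
  unfold ESys.ker
  simp

theorem xcf_eq_zero {w : I.J → S.Cell} {e : S.Cell} (hw : ∀ a, w a ≠ e) :
    (xcf I ε w e : Addr k → F) = 0 := by
  funext a
  exact onehot_ne _ (hw _)

/-- A monomial with an external slot vanishes over a blank base. -/
theorem xterm_eq_zero (hb : BlankOK S bl) {w : I.J → S.Cell} (hw : ∀ a, bl (w a) = true)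
    (c : Chn S.Cell (XVOut S)) {γ : Fin B → Option (XCt S)} {t : Fin B} {l : S.Ext × Bool}
    (ht : γ t = some (.inr l)) (X : Fin B → S.Ext × Bool → F) (ρ : Y) (y : Y) (z : Fin B → Y) :
    xker D I σ ε c γ ρ y *
      ∏ t : Fin B, optv (Sum.elim (fun e => D.code (xcf I ε w e) (z t)) (X t)) (γ t) = 0 := by
  by_cases hno : ∀ t' e, γ t' = some (.inl e) → bl e = true
  · rw [xker_eq_zero D I σ ε hb c ht hno, zero_mul]
  · push Not at hno
    obtain ⟨t', e, h1, h2⟩ := hno
    have h3 : ∀ a, w a ≠ e := fun a ha => h2 (ha ▸ hw a)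
    have h4 : ∀ z : Y, D.code (xcf I ε w e : Addr k → F) z = 0 := by
      intro z
      rw [xcf_eq_zero I ε h3, map_zero]
      rfl
    rw [Finset.prod_eq_zero (Finset.mem_univ t'), mul_zero]
    rw [h1]
    exact h4 _

/-- **The first sums over a blank base**: only the slots without external words count. -/
theorem xsum_blank (hb : BlankOK S bl) {w : I.J → S.Cell} (hw : ∀ a, bl (w a) = true)
    (c : Chn S.Cell (XVOut S)) (X : Fin B → S.Ext × Bool → F) (ρ : Y) (y : Y) (z : Fin B → Y) :
    ∑ γ : Fin B → Option (XCt S), xker D I σ ε c γ ρ y *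
      ∏ t : Fin B, optv (Sum.elim (fun e => D.code (xcf I ε w e) (z t)) (X t)) (γ t) =
    ∑ γ : Fin B → Option S.Cell, xker D I σ ε c (fun t => (γ t).map Sum.inl) ρ y *
      ∏ t : Fin B, optv (fun e => D.code (xcf I ε w e) (z t)) (γ t) := by
  classical
  symm
  refine Finset.sum_of_injOn (fun γ t => (γ t).map Sum.inl) ?_ (fun _ _ => mem_coe.2 (mem_univ _))
    ?_ ?_
  · intro γ _ γ' _ hh
    funext t
    have h1 := congrFun hh t
    exact Option.map_injective Sum.inl_injective h1
  · intro γ _ hγ
    by_cases hex : ∃ t l, γ t = some (.inr l)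
    · obtain ⟨t, l, ht⟩ := hex
      exact xterm_eq_zero D I σ ε hb hw c ht X ρ y z
    · exfalso
      apply hγ
      push Not at hex
      refine ⟨fun t => (γ t).bind Sum.getLeft?, mem_coe.2 (mem_univ _), ?_⟩
      funext t
      rcases hg : γ t with _ | e | l
      · simp [hg]
      · simp [hg]
      · exact absurd hg (hex t l)
  · intro γ _
    congr 1
    refine Finset.prod_congr rfl fun t _ => ?_
    show _ = optv _ ((γ t).map Sum.inl)
    cases γ t <;> rfl

/-- **The first sums of a blank configuration**, without external words. -/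
theorem xv0_eq (hb : BlankOK S bl) {w : I.J → S.Cell} (hw : ∀ a, bl (w a) = true)
    (c : Chn S.Cell (XVOut S)) (ρ y : Y) :
    (xdata D I σ ε s hI).v0 c (fun e => D.code (xcf I ε w e)) ρ y =
      ∑ γ : Fin B → Option S.Cell, xker D I σ ε c (fun t => (γ t).map Sum.inl) ρ y *
        ∏ t : Fin B, optv (fun e => D.code (xcf I ε w e) (D.θi (2 * k * t) y)) (γ t) := by
  rw [xdata_v0]
  exact xsum_blank D I σ ε hb hw c (fun t l => xword D I ε s l (D.θi (2 * k * t) y)) ρ y
    fun t => D.θi (2 * k * t) y

/-- Over a blank base the first sums do not depend on the external bits. -/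
theorem xv0_blank (hb : BlankOK S bl) {w : I.J → S.Cell} (hw : ∀ a, bl (w a) = true)
    (c : Chn S.Cell (XVOut S)) :
    (xdata D I σ ε s hI).v0 c (fun e => D.code (xcf I ε w e)) =
      (xdata D I σ ε s' hI').v0 c (fun e => D.code (xcf I ε w e)) := by
  funext ρ y
  rw [xv0_eq D I σ ε s hI hb hw, xv0_eq D I σ ε s' hI' hb hw]

theorem xvv_blank (hb : BlankOK S bl) {w : I.J → S.Cell} (hw : ∀ a, bl (w a) = true)
    (c : Chn S.Cell (XVOut S)) (n : ℕ) :
    (xdata D I σ ε s hI).vv c (fun e => D.code (xcf I ε w e)) n =
      (xdata D I σ ε s' hI').vv c (fun e => D.code (xcf I ε w e)) n := by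
  induction n with
  | zero => exact xv0_blank D I σ ε s s' hI hI' hb hw c
  | succ n ih =>
    funext ρ y
    show (xdata D I σ ε s hI).vv c _ n ρ (D.θ y) + (xdata D I σ ε s hI).vv c _ n ρ (D.θ y + D.ι (ev 0)) =
      (xdata D I σ ε s' hI').vv c _ n ρ (D.θ y) + (xdata D I σ ε s' hI').vv c _ n ρ (D.θ y + D.ι (ev 0))
    rw [ih]

/-- **The words of blank states do not depend on the external bits.** -/
theorem xword_blank (hb : BlankOK S bl) (st : St (I.J → S.Cell))
    (hst : ∀ τ, st.ht τ ≠ 0 → ∀ a, bl (st.base τ a) = true) :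
    (xdata D I σ ε s hI).word (h := h) st = (xdata D I σ ε s' hI').word st := by
  funext p c
  cases c with
  | W τ e => rfl
  | S τ c j =>
    show (if (j : ℕ) < st.ht τ then (xdata D I σ ε s hI).vv c
        (fun e => D.code (xcf I ε (st.base τ) e)) (st.ht τ - 1 - j) p.1 p.2 else 0) =
      if (j : ℕ) < st.ht τ then (xdata D I σ ε s' hI').vv c
        (fun e => D.code (xcf I ε (st.base τ) e)) (st.ht τ - 1 - j) p.1 p.2 else 0
    split_ifs with hj
    · rw [xvv_blank D I σ ε s s' hI hI' hb (hst τ (by omega))]
    · rfl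
  | T τ j => rfl
  | rel => rfl

/-- The step of a configuration does not depend on the external bits if its rule does not look at
them. -/
theorem step_congr {w : I.J → S.Cell} {z : Bool}
    (hw : ∀ a, I.IsHead w a → S.depR z (I.around w a) = false) :
    I.step s z w = I.step s' z w := by
  by_cases hh : ∃ a, I.IsHead w a
  · obtain ⟨a, H⟩ := hh
    rw [XInst.step_of_head H, XInst.step_of_head H]
    funext j
    have h1 := S.rule_dep z _ (hw a H) (fun d => s d a) (fun d => s' d a)
    by_cases hj : ∃ o, S.upd o = true ∧ j = a + I.off o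
    · obtain ⟨o, ho, rfl⟩ := hj
      rw [XInst.apply_upd z w a ho, XInst.apply_upd z w a ho, h1]
    · push Not at hj
      rw [XInst.apply_off z w a hj, XInst.apply_off z w a hj, h1]
  · unfold XInst.step
    rw [dif_neg hh, dif_neg hh]

/-- **The word of the start does not depend on the external bits.** -/
theorem xword_st0 (hb : BlankOK S bl) (h0 : ∀ a, bl (I.w0 a) = true)
    (h1 : ∀ a, bl (I.step s true I.w0 a) = true) (m : ℕ) :
    (xdata D I σ ε s hI).word (h := h) ((xdyn I s hI).st0 m) =
      (xdata D I σ ε s' hI').word ((xdyn I s' hI').st0 m) := by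
  have h2 : I.step s true I.w0 = I.step s' true I.w0 := by
    refine step_congr I s s' fun a _ => ?_
    by_contra hd
    obtain ⟨o, ho⟩ := hb.rule true _ (Bool.eq_true_of_not_eq_false hd)
    have h3 : bl (I.around I.w0 a o) = true := h0 _
    rw [h3] at ho
    exact absurd ho (by simp)
  have h3 : (xdyn I s hI).st0 m = (xdyn I s' hI').st0 m := by
    unfold Dyn.st0
    congr 1
    funext τ
    cases τ
    · exact h2
    · rfl
  rw [← h3]
  refine xword_blank D I σ ε s s' hI hI' hb _ fun τ _ a => ?_
  cases τ
  · exact h1 a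
  · exact h0 a

end

end Vale.Agent.P330.FM
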