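import Vale.Agent.P330.FM.CoefX
import Vale.Agent.P330.FM.XStart

/-!
# Functional modules: kernels and start words of a family of machines on numbers

`N : ENum A h D` a family of extension systems, `X : XNum A I k` numbers for a family of instances.
* `XNum.kn`: the public kernels `xker` on numbers; `XNum.rkn`: the regrouped kernels.
* `kfree`: the kernels without external slots; `xword_free`: the word of the start state does not
  change if the kernels are replaced by `kfree`.
* `XNum.start`: the value of a functional at the start word, on numbers.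
-/

namespace Vale.Agent.P330.FM

open Finset Vale.Agent.Lib.PolyTime Vale.Agent.P330.Q

/-! ### The start word without external slots -/

section free

variable {F : Type*} [Field F] {h : ℕ} [NeZero h] {Y : Type*} [AddCommGroup Y]
  (D : ESys F h Y) {S : XSpec} {k B : ℕ} (I : XInst S) (σ : XSlot S ≃ Fin B)
  (ε : I.J ≃ Addr k) (s : S.Ext → I.J → Bool) (hI : I.Facts s) {bl : S.Cell → Bool}

/-- The slots without external literals. -/
def slotI {S : XSpec} {B : ℕ} (γ : Fin B → Option S.Cell) (t : Fin B) : Option (XCt S) :=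
  (γ t).map Sum.inl

theorem slotI_injective {S : XSpec} {B : ℕ} :
    Function.Injective (slotI : (Fin B → Option S.Cell) → Fin B → Option (XCt S)) := by
  intro γ γ' h1
  funext t
  exact Option.map_injective Sum.inl_injective (congrFun h1 t)

/-- The kernels without external slots. -/
noncomputable def kfree (c : Chn S.Cell (XVOut S)) (γ : Fin B → Option S.Cell) (ρ y : Y) : F :=
  xker D I σ ε c (slotI γ) ρ y

theorem kv0_free (hb : BlankOK S bl) {w : I.J → S.Cell} (hw : ∀ a, bl (w a) = true)
    (c : Chn S.Cell (XVOut S)) :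
    (xdata D I σ ε s hI).v0 c (fun e => D.code (xcf I ε w e)) =
      (setK (xdata D I σ ε s hI) (kfree D I σ ε)).v0 c (fun e => D.code (xcf I ε w e)) := by
  funext ρ y
  rw [xdata_v0]
  symm
  refine Fintype.sum_of_injective slotI slotI_injective _ _ (fun γ hγ => ?_) fun γ => ?_
  · obtain ⟨t, l, ht⟩ : ∃ t l, γ t = some (.inr l) := by
      by_contra hc
      push Not at hc
      apply hγ
      refine ⟨fun t => cellOf (γ t), ?_⟩
      funext t
      show (cellOf (γ t)).map Sum.inl = γ t
      rcases hg : γ t with _ | e | l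
      · rfl
      · rfl
      · exact absurd hg (hc t l)
    by_cases hno : ∀ t' e, γ t' = some (.inl e) → bl e = true
    · rw [xker_eq_zero D I σ ε hb c ht hno, zero_mul]
    · push Not at hno
      obtain ⟨t', e, h1, h2⟩ := hno
      have h3 : ∀ a, w a ≠ e := fun a ha => h2 (ha ▸ hw a)
      have h4 : ∀ z : Y, D.code (xcf I ε w e : Addr k → F) z = 0 := by
        intro z
        rw [xcf_eq_zero I ε h3, map_zero]
        rfl
      rw [Finset.prod_eq_zero (Finset.mem_univ t'), mul_zero]
      rw [h1]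
      exact h4 _
  · show kfree D I σ ε c γ ρ y * _ = xker D I σ ε c (slotI γ) ρ y * _
    congr 1
    refine Finset.prod_congr rfl fun t _ => ?_
    show optv (fun e => D.code (xcf I ε w e) (shE D (2 * k * t) y)) (γ t) = _
    rw [shE_apply]
    unfold slotI
    cases γ t <;> rfl

theorem kvv_free (hb : BlankOK S bl) {w : I.J → S.Cell} (hw : ∀ a, bl (w a) = true)
    (c : Chn S.Cell (XVOut S)) (n : ℕ) :
    (xdata D I σ ε s hI).vv c (fun e => D.code (xcf I ε w e)) n =
      (setK (xdata D I σ ε s hI) (kfree D I σ ε)).vv c (fun e => D.code (xcf I ε w e)) n := by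
  induction n with
  | zero => exact kv0_free D I σ ε s hI hb hw c
  | succ n ih =>
    funext ρ y
    show (xdata D I σ ε s hI).vv c _ n ρ (D.θ y) +
        (xdata D I σ ε s hI).vv c _ n ρ (D.θ y + D.ι (ev 0)) =
      (setK (xdata D I σ ε s hI) (kfree D I σ ε)).vv c _ n ρ (D.θ y) +
        (setK (xdata D I σ ε s hI) (kfree D I σ ε)).vv c _ n ρ (D.θ y + D.ι (ev 0))
    rw [ih]

/-- **The word of the start does not use the external slots.** -/
theorem xword_free (hb : BlankOK S bl) (h0 : ∀ a, bl (I.w0 a) = true)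
    (h1 : ∀ a, bl (I.step s true I.w0 a) = true) (m : ℕ) :
    (xdata D I σ ε s hI).word (h := h) ((xdyn I s hI).st0 m) =
      (setK (xdata D I σ ε s hI) (kfree D I σ ε)).word ((xdyn I s hI).st0 m) := by
  funext p c
  cases c with
  | W τ e => rfl
  | S τ c j =>
    show (if (j : ℕ) < ((xdyn I s hI).st0 m).ht τ then (xdata D I σ ε s hI).vv c
        (fun e => D.code (xcf I ε (((xdyn I s hI).st0 m).base τ) e))
          (((xdyn I s hI).st0 m).ht τ - 1 - j) p.1 p.2 else 0) =
      if (j : ℕ) < ((xdyn I s hI).st0 m).ht τ then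
        (setK (xdata D I σ ε s hI) (kfree D I σ ε)).vv c
        (fun e => D.code (xcf I ε (((xdyn I s hI).st0 m).base τ) e))
          (((xdyn I s hI).st0 m).ht τ - 1 - j) p.1 p.2 else 0
    have h2 : ∀ a, bl (((xdyn I s hI).st0 m).base τ a) = true := by
      intro a
      cases τ
      · exact h1 a
      · exact h0 a
    rw [kvv_free D I σ ε s hI hb h2]
  | T τ j => rfl
  | rel => rfl

end free

/-! ### Numbers -/

namespace XNum

section

variable {A : Set Word} {α : Type} [Enc α] {S : XSpec} {I : α → XInst S} {k : α → ℕ}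
  (X : XNum A I k) {K : Type} [Field K] [Fintype K] {h : α → ℕ}
  {Y : α → Type} [∀ a, AddCommGroup (Y a)] {D : ∀ a, ESys K (h a) (Y a)} (N : ENum A h D)
  {B : ℕ} (σ : XSlot S ≃ Fin B)

/-- The public kernels on numbers. -/
noncomputable def kn (c : Chn S.Cell (XVOut S)) (γ : Fin B → Option (XCt S)) (a : α) (ρ y : ℕ) :
    K :=
  FM.kn N k (liveG γ) (X.cof K σ (xoutOf c) γ) a ρ y

theorem kn_num [∀ a, NeZero (h a)] (c : Chn S.Cell (XVOut S)) (γ : Fin B → Option (XCt S))
    (a : α) (ρ y : Y a) :
    X.kn N σ c γ a (N.num a ρ) (N.num a y) = xker (D a) (I a) σ (X.ε a) c γ ρ y :=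
  FM.kn_num N k (liveG γ) (X.cof K σ (xoutOf c) γ) a (fun _ _ => rfl) ρ y

theorem PT_kn (hk : PT A k) (hb : PBd fun a => 2 ^ k a) (c : Chn S.Cell (XVOut S))
    (γ : Fin B → Option (XCt S)) : PT2 A (X.kn N σ c γ) :=
  FM.PT_kn N k hk hb (liveG γ) (X.cof K σ (xoutOf c) γ)

open Classical in
/-- The regrouped kernels on numbers. -/
noncomputable def rkn (own : S.Ext × Bool → S.Cell → Bool) (c : Chn S.Cell (XVOut S))
    (γ : Fin B → Option S.Cell) (a : α) (ρ y : ℕ) : K :=
  ∑ g : Fin B → Option (XCt S), if ∀ t, slotSub own (g t) (γ t) then X.kn N σ c g a ρ y else 0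

theorem rkn_num [∀ a, NeZero (h a)] (own : S.Ext × Bool → S.Cell → Bool)
    (c : Chn S.Cell (XVOut S)) (γ : Fin B → Option S.Cell) (a : α) (ρ y : Y a) :
    X.rkn N σ own c γ a (N.num a ρ) (N.num a y) =
      regroup own (xker (D a) (I a) σ (X.ε a)) c γ ρ y := by
  unfold rkn regroup regK
  refine Finset.sum_congr rfl fun g _ => ?_
  rw [kn_num]

theorem PT_rkn (hk : PT A k) (hb : PBd fun a => 2 ^ k a) (own : S.Ext × Bool → S.Cell → Bool)
    (c : Chn S.Cell (XVOut S)) (γ : Fin B → Option S.Cell) : PT2 A (X.rkn N σ own c γ) := by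
  intro β _ g ρ y hg hρ hy
  classical
  refine PTt.sumF (κ := Fin B → Option (XCt S)) (f := fun g' b =>
    if ∀ t, slotSub own (g' t) (γ t) then X.kn N σ c g' (g b) (ρ b) (y b) else 0) univ
    fun g' => ?_
  by_cases h1 : ∀ t, slotSub own (g' t) (γ t)
  · exact (X.PT_kn N σ hk hb c g' hg hρ hy).congr fun b => by rw [if_pos h1]
  · exact (PTt.const 0).congr fun b => by rw [if_neg h1]

/-! ### The start word -/

/-- The contents of the bases of the start state. -/
noncomputable def base (τ : Bool) (a : α) (m : ℕ) : S.Cell :=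
  if τ then (I a).w0 (X.pt a m) else (I a).step (fun _ _ => false) true (I a).w0 (X.pt a m)

/-- The codes of the bases of the start state, on numbers. -/
noncomputable def cd (a : α) (τ : Bool) (e : S.Cell) (y : ℕ) : K :=
  cdG N k (X.base τ) a e y

/-- The value of a functional at the start word, on numbers. -/
noncomputable def start [DecidableEq (XVOut S)] (a : α) (c ρ y : ℕ) : K :=
  startG N k (fun c γ => X.kn N σ c (slotI γ)) (fun a => X.cd N a) a c ρ y

theorem cd_num [∀ a, NeZero (h a)] {a : α} {s : S.Ext → (I a).J → Bool} (hI : (I a).Facts s)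
    (hs : (I a).step s true (I a).w0 = (I a).step (fun _ _ => false) true (I a).w0) (τ : Bool)
    (e : S.Cell) (y : Y a) :
    X.cd N a τ e (N.num a y) = (xdata (D a) (I a) σ (X.ε a) s hI).cd
      ((xdata (D a) (I a) σ (X.ε a) s hI).b0 τ) e y := by
  show _ = (D a).code (xcf (I a) (X.ε a) ((xdata (D a) (I a) σ (X.ε a) s hI).b0 τ) e) y
  refine cdG_num N k (X.base τ) a (fun m => ?_) y
  unfold xcf onehot
  beta_reduce
  rw [X.ε_symm]
  have h1 : (xdata (D a) (I a) σ (X.ε a) s hI).b0 τ (X.pt a m) = X.base τ a m := by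
    cases τ
    · show (I a).step s true (I a).w0 (X.pt a m) = _
      rw [hs]
      rfl
    · rfl
  rw [h1]
  split_ifs <;> rfl

/-- **The start word on numbers.** -/
theorem start_num [∀ a, NeZero (h a)] [DecidableEq (XVOut S)] {bl : S.Cell → Bool}
    (hb : BlankOK S bl) {a : α} {s : S.Ext → (I a).J → Bool} (hI : (I a).Facts s)
    (hs : (I a).step s true (I a).w0 = (I a).step (fun _ _ => false) true (I a).w0)
    (h0 : ∀ j, bl ((I a).w0 j) = true) (h1 : ∀ j, bl ((I a).step s true (I a).w0 j) = true)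
    (c : ℕ) (ρ y : Y a) :
    X.start N σ a c (N.num a ρ) (N.num a y) =
      pair (decC (h a) c) ((xdata (D a) (I a) σ (X.ε a) s hI).word
        ((xdyn (I a) s hI).st0 (h a + 1)) (ρ, y)) := by
  rw [xword_free (D a) (I a) σ (X.ε a) s hI hb h0 h1]
  refine startG_num N k (M := setK (xdata (D a) (I a) σ (X.ε a) s hI)
    (kfree (D a) (I a) σ (X.ε a))) (a := a) ⟨fun _ => rfl, rfl, fun t y => ?_⟩
    (fun c γ ρ y => ?_) (fun τ e y => ?_) c ρ y
  · exact shE_apply (D a) _ y
  · exact X.kn_num N σ c (slotI γ) a ρ y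
  · exact X.cd_num N σ hI hs τ e y

/-- **The start word in polynomial time.** -/
theorem PT_start [DecidableEq (XVOut S)] (hk : PT A k) (hb : PBd fun a => 2 ^ k a)
    {h0 : α → ℕ} (hh : PT A h0) (H : ∀ a, (I a).IsHead (I a).w0 (X.pt a (h0 a)))
    (hd : ∀ a, S.depR true ((I a).around (I a).w0 (X.pt a (h0 a))) = false)
    {β : Type} [Enc β] {g : β → α} {c ρ y : β → ℕ} (hg : PT A g)
    (hc : PT A c) (hρ : PT A ρ) (hy : PT A y) :
    PTt A fun b => X.start N σ (g b) (c b) (ρ b) (y b) := by
  refine PT_startG N k hk hb (fun c γ => X.PT_kn N σ hk hb c (slotI γ)) ?_ hg hc hρ hy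
  intro τ e β _ g y hg hy
  refine PT_cdG N k hk hb (w := X.base τ) (fun {β} _ {g} {m} hg hm => ?_) hg hy
  cases τ
  · exact X.DP_pred hh (s := fun a _ _ => false) H hd hg hm e
  · exact X.DP_w0 hg hm e

end

end XNum

end Vale.Agent.P330.FM
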