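import Vale.Agent.P330.H972.XPair
import Vale.Agent.P330.FM.XVal
import Vale.Agent.P330.FM.MachNum

/-!
# Functional modules: the public hard-wired bits, on numbers

* `PB C S`: names of the public bits: the bit of the start word, the bits of the functional, the
  bits of the public kernels `xker`, the bits of the code of the constant `1` (at the point and at
  the shifted points).
* `pbit`: their values for an instance; `pbit_congr`: they do not depend on the external bits.
* `MFam`: a family of machines with numbers; `MFam.fam : XFam`; `MFam.pbN`: the public bits on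
  numbers (number of the point, number of the functional), in polynomial time.
-/

namespace Vale.Agent.P330.FM

open Finset Vale.Agent.Lib.PolyTime Vale.Agent.P330.Q
open Vale.Agent.P330.H972 (XFam codeX)

/-- Names of the public bits. -/
inductive PB {nC B m : ℕ} (C : XC nC B m) (S : XSpec)
  /-- the bit of the start word -/
  | start
  /-- bits of the functional -/
  | cT (s : Bool)
  | cR
  | cS (s : Bool) (i : Chn S.Cell (XVOut S)) (l : C.K)
  /-- bits of the public kernels -/
  | ker (c : Chn S.Cell (XVOut S)) (g : Fin B → Option (XCt S)) (l : C.K)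
  /-- bits of the code of the constant `1` -/
  | one (t : Option (Fin B)) (l : C.K)

noncomputable instance {nC B m : ℕ} (C : XC nC B m) (S : XSpec) : Fintype (PB C S) := by
  classical
  exact Fintype.ofEquiv
    (((Unit ⊕ Bool) ⊕ (Unit ⊕ (Bool × Chn S.Cell (XVOut S) × C.K))) ⊕
      ((Chn S.Cell (XVOut S) × (Fin B → Option (XCt S)) × C.K) ⊕ (Option (Fin B) × C.K)))
    { toFun := fun a => match a with
        | .inl (.inl (.inl _)) => .start
        | .inl (.inl (.inr s)) => .cT s
        | .inl (.inr (.inl _)) => .cR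
        | .inl (.inr (.inr p)) => .cS p.1 p.2.1 p.2.2
        | .inr (.inl p) => .ker p.1 p.2.1 p.2.2
        | .inr (.inr p) => .one p.1 p.2
      invFun := fun a => match a with
        | .start => .inl (.inl (.inl ()))
        | .cT s => .inl (.inl (.inr s))
        | .cR => .inl (.inr (.inl ()))
        | .cS s i l => .inl (.inr (.inr (s, i, l)))
        | .ker c g l => .inr (.inl (c, g, l))
        | .one t l => .inr (.inr (t, l))
      left_inv := by
        rintro (((_ | s) | (_ | p)) | (p | p)) <;> rfl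
      right_inv := by
        intro a
        cases a <;> rfl }

variable {nC B m : ℕ} (C : XC nC B m) {S : XSpec}

section pbit

variable {k : ℕ} (I : XInst S) (σ : XSlot S ≃ Fin B) (ε : I.J ≃ Addr k)

/-- The points at which the bits of the code of the constant `1` are needed. -/
noncomputable def oneAt (k : ℕ) (t : Option (Fin B)) (y : C.Y k) : C.Y k :=
  match t with
  | none => y
  | some t => shE (C.sys k) (2 * k * t) y

/-- The value of the code of the constant `1`. -/
noncomputable def oneV (k : ℕ) (y : C.Y k) : C.K := (C.sys k).code (fun _ : Addr k => (1 : C.K)) y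

/-- **The public bits** at a point and a functional. -/
noncomputable def pbit (s : S.Ext → I.J → Bool) (hI : I.Facts s) :
    PB C S → (C.Y k × C.Y k) × (Comp S.Cell (XVOut S) (C.h k) → C.K) → Bool
  | .start, p => wbit C.φ p.2 ((xdata (C.sys k) I σ ε s hI).word ((xdyn I s hI).st0 (C.h k + 1)) p.1)
  | .cT s, p => decide (C.φ (p.2 (.T s 0)) = 1)
  | .cR, p => decide (C.φ (p.2 .rel) = 1)
  | .cS s i l, p => decide (C.φ (l * p.2 (.S s i 0)) = 1)
  | .ker c g l, p => decide (C.φ (l * xker (C.sys k) I σ ε c g p.1.1 p.1.2) = 1)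
  | .one t l, p => decide (C.φ (l * oneV C k (oneAt C k t p.1.2)) = 1)

/-- **The public bits do not depend on the external bits.** -/
theorem pbit_congr {bl : S.Cell → Bool} (hb : BlankOK S bl) (s s' : S.Ext → I.J → Bool)
    (hI : I.Facts s) (hI' : I.Facts s') (h0 : ∀ a, bl (I.w0 a) = true)
    (h1 : ∀ a, bl (I.step s true I.w0 a) = true) (v : PB C S)
    (p : (C.Y k × C.Y k) × (Comp S.Cell (XVOut S) (C.h k) → C.K)) :
    pbit C I σ ε s hI v p = pbit C I σ ε s' hI' v p := by
  cases v with
  | start =>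
    show wbit C.φ p.2 _ = wbit C.φ p.2 _
    rw [xword_st0 (C.sys k) I σ ε s s' hI hI' hb h0 h1]
  | cT s => rfl
  | cR => rfl
  | cS s i l => rfl
  | ker c g l => rfl
  | one t l => rfl

end pbit

/-! ### Families of machines -/

/-- A family of machines with external bits, with numbers. -/
structure MFam {nC B m : ℕ} (C : XC nC B m) (S : XSpec) (α : Type) [Enc α] where
  σ : XSlot S ≃ Fin B
  /-- number of address bits -/
  k : α → ℕ
  PT_k : PT ∅ k
  PB_k : PBd fun a => 2 ^ k a
  I : α → XInst S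
  X : XNum ∅ I k
  facts : ∀ a s, (I a).Facts s
  bl : S.Cell → Bool
  hb : BlankOK S bl
  bl_w0 : ∀ a j, bl ((I a).w0 j) = true
  bl_back : ∀ a s j, bl ((I a).step s true (I a).w0 j) = true
  /-- the head of the start -/
  h0 : α → ℕ
  PT_h0 : PT ∅ h0
  head : ∀ a, (I a).IsHead (I a).w0 (X.pt a (h0 a))

namespace MFam

variable {C} {α : Type} [Enc α] (M : MFam C S α)

/-- The external bits `false`. -/
def s0 (a : α) : S.Ext → (M.I a).J → Bool := fun _ _ => false

/-- The family. -/
noncomputable def fam : XFam C S α where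
  σ := M.σ
  k := M.k
  PT_k := M.PT_k
  PB_k := M.PB_k
  I := M.I
  ε := M.X.ε
  s0 := M.s0
  hI0 a := M.facts a _

/-- The code domain on numbers. -/
noncomputable def en : ENum ∅ (fun a => C.h (M.k a)) (Y := fun a => C.Y (M.k a))
    fun a => C.sys (M.k a) := C.en M.PT_k M.PB_k

/-- The public bits. -/
noncomputable def pb (a : α) : PB C S →
    (C.Y (M.k a) × C.Y (M.k a)) × (Comp S.Cell (XVOut S) (C.h (M.k a)) → C.K) → Bool :=
  pbit C (M.I a) M.σ (M.X.ε a) (M.s0 a) (M.facts a _)

theorem pb_eq (a : α) (s : S.Ext → (M.I a).J → Bool) (hI : (M.I a).Facts s) (v : PB C S)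
    (p : (C.Y (M.k a) × C.Y (M.k a)) × (Comp S.Cell (XVOut S) (C.h (M.k a)) → C.K)) :
    M.pb a v p = pbit C (M.I a) M.σ (M.X.ε a) s hI v p :=
  pbit_congr C (M.I a) M.σ (M.X.ε a) M.hb _ _ _ _ (M.bl_w0 a) (M.bl_back a _) v p

/-- The points at which the bits of the code of the constant `1` are needed, on numbers. -/
noncomputable def oneAtN (a : α) (t : Option (Fin B)) (y : ℕ) : ℕ :=
  match t with
  | none => y
  | some t => M.en.sh a (2 * M.k a * t) y

theorem oneAtN_num (a : α) (t : Option (Fin B)) (y : C.Y (M.k a)) :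
    M.oneAtN a t (M.en.num a y) = M.en.num a (oneAt C (M.k a) t y) := by
  cases t with
  | none => rfl
  | some t =>
    show M.en.sh a _ _ = M.en.num a (shE (C.sys (M.k a)) _ y)
    rw [M.en.sh_num, shE_apply]

/-- The value of the code of the constant `1`, on numbers. -/
noncomputable def oneN (a : α) (y : ℕ) : C.K := M.en.code a (M.k a) (fun _ => 1) y

theorem oneN_num (a : α) (y : C.Y (M.k a)) : M.oneN a (M.en.num a y) = oneV C (M.k a) y :=
  M.en.code_num a (M.k a) (fun _ => 1) y

/-- **The public bits on numbers**: number `p` of the point, number `c` of the functional. -/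
noncomputable def pbN (a : α) : PB C S → ℕ → ℕ → Bool
  | .start, p, c => decide (C.φ (M.X.start M.en M.σ a c (p / cY C.K (C.h (M.k a)))
      (p % cY C.K (C.h (M.k a)))) = 1)
  | .cT s, _, c => decide (C.φ (decC (C.h (M.k a)) c (hiC (.inl s)
      (Fin.ofNat (C.h (M.k a) + 1) 0) : Comp S.Cell (XVOut S) (C.h (M.k a)))) = 1)
  | .cR, _, c => decide (C.φ (decC (C.h (M.k a)) c
      (loC none : Comp S.Cell (XVOut S) (C.h (M.k a)))) = 1)
  | .cS s i l, _, c => decide (C.φ (l * decC (C.h (M.k a)) c (hiC (.inr (s, i))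
      (Fin.ofNat (C.h (M.k a) + 1) 0) : Comp S.Cell (XVOut S) (C.h (M.k a)))) = 1)
  | .ker c' g l, p, _ => decide (C.φ (l * M.X.kn M.en M.σ c' g a (p / cY C.K (C.h (M.k a)))
      (p % cY C.K (C.h (M.k a)))) = 1)
  | .one t l, p, _ => decide (C.φ (l * M.oneN a (M.oneAtN a t (p % cY C.K (C.h (M.k a))))) = 1)

theorem pbN_ok (a : α) (v : PB C S) (p : C.Y (M.k a) × C.Y (M.k a)) (c : ℕ) :
    M.pbN a v (eYY C.K (C.h (M.k a)) p) c = M.pb a v (p, decC (C.h (M.k a)) c) := by
  have h1 : ((eYY C.K (C.h (M.k a)) p : Fin _) : ℕ) / cY C.K (C.h (M.k a)) =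
    M.en.num a p.1 := eYY_fst p
  have h2 : ((eYY C.K (C.h (M.k a)) p : Fin _) : ℕ) % cY C.K (C.h (M.k a)) =
    M.en.num a p.2 := eYY_snd p
  cases v with
  | start =>
    show decide (C.φ (M.X.start M.en M.σ a c _ _) = 1) = _
    rw [h1, h2, M.X.start_num M.en M.σ M.hb (M.facts a (M.s0 a)) rfl (M.bl_w0 a)
      (M.bl_back a _)]
    rfl
  | cT s => rfl
  | cR => rfl
  | cS s i l => rfl
  | ker c' g l =>
    show decide (C.φ (l * M.X.kn M.en M.σ c' g a _ _) = 1) = _
    rw [h1, h2, M.X.kn_num]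
    rfl
  | one t l =>
    show decide (C.φ (l * M.oneN a (M.oneAtN a t _)) = 1) = _
    rw [h2, oneAtN_num, oneN_num]
    rfl

/-- **The public bits on the numbers of points and functionals.** -/
theorem pbN_num (a : α) (v : PB C S) (ω : (M.fam.sk a).P × (M.fam.sk a).Z) :
    M.pbN a v ((M.fam.nm a).yN ((M.fam.nm a).num ω)) ((M.fam.nm a).cN ((M.fam.nm a).num ω)) =
      M.pb a v ω.1 := by
  obtain ⟨⟨p, c⟩, z⟩ := ω
  have hy := (M.fam.nm a).yN_num ((p, c), z)
  have hc := (M.fam.nm a).cN_num ((p, c), z)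
  dsimp only at hy hc
  rw [hy, hc]
  refine (M.pbN_ok a v p _).trans ?_
  congr 2
  funext j
  exact (M.fam.nm a).dg_cE c j

section PT

variable {β : Type} [Enc β] {g : β → α} {p c : β → ℕ}

omit [Enc α] in
theorem PT_phi {x : β → C.K} (hx : PTt ∅ x) : PT ∅ (fun b => decide (C.φ (x b) = 1)) :=
  PTt.mapP hx fun u => decide (C.φ u = 1)

/-- **The public bits are computable in polynomial time.** -/
theorem PT_pbN (hg : PT ∅ g) (hp : PT ∅ p) (hc : PT ∅ c) (v : PB C S) :
    PT ∅ (fun b => M.pbN (g b) v (p b) (c b)) := by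
  have hk : PT ∅ (fun b => M.k (g b)) := M.PT_k.comp hg
  have hkb : PBd (fun b => 2 ^ M.k (g b)) := M.PB_k.comp hg
  have hkb' : PBd (fun b => M.k (g b)) := hkb.mono fun _ => Nat.lt_two_pow_self.le
  have hh : PT ∅ (fun b => C.h (M.k (g b))) := C.PT_h hk hkb
  have hhb : PBd (fun b => C.h (M.k (g b))) := C.PBd_h' hkb
  have h1 : PT ∅ (fun b => p b / cY C.K (C.h (M.k (g b)))) := PT.fstP C.K hh hhb hp
  have h2 : PT ∅ (fun b => p b % cY C.K (C.h (M.k (g b)))) := PT.sndP C.K hh hhb hp
  cases v with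
  | start =>
    refine PT_phi (M.X.PT_start M.en M.σ M.PT_k M.PB_k M.PT_h0 M.head (fun a => ?_) hg hc h1 h2)
    by_contra hd
    obtain ⟨o, ho⟩ := M.hb.rule true _ (Bool.eq_true_of_not_eq_false hd)
    have h3 : M.bl ((M.I a).around (M.I a).w0 (M.X.pt a (M.h0 a)) o) = true := M.bl_w0 a _
    rw [h3] at ho
    exact absurd ho (by simp)
  | cT s =>
    exact PT_phi (PTt.decC_hi (h := fun b => C.h (M.k (g b))) hh hhb hc (PT.const 0) (.inl s))
  | cR => exact PT_phi (PTt.decC_lo (h := fun b => C.h (M.k (g b))) hc none)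
  | cS s i l =>
    exact PT_phi (PTt.mul (PTt.const l)
      (PTt.decC_hi (h := fun b => C.h (M.k (g b))) hh hhb hc (PT.const 0) (.inr (s, i))))
  | ker c' g' l =>
    exact PT_phi (PTt.mul (PTt.const l) (M.X.PT_kn M.en M.σ M.PT_k M.PB_k c' g' hg h1 h2))
  | one t l =>
    have h3 : PT ∅ (fun b => M.oneAtN (g b) t (p b % cY C.K (C.h (M.k (g b))))) := by
      cases t with
      | none => exact h2
      | some t =>
        exact M.en.PT_sh hg (PT.mul (PT.mul (PT.const 2) hk) (PT.const _))
          (PBd.mul (PBd.mul (PBd.const 2) hkb') (PBd.const _)) h2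
    exact PT_phi (PTt.mul (PTt.const l) (M.en.PT_code (x := fun _ _ => 1) hg hk hkb
      (PTt.const 1) h3))

end PT

/-! ### Pairs of numbers -/

/-- **The public bits on pairs of numbers** (the word is not used). -/
noncomputable def cbN (v : PB C S) (q : α × Word × ℕ × ℕ) : Bool :=
  M.pbN q.1 v (q.2.2.1 / (M.fam.nm q.1).Qc) (M.fam.fuN q.1 q.2.2.1)

theorem cbN_eq (v : PB C S) (a : α) (w : Word) (p : (M.fam.sk a).P) (z : ℕ) :
    M.cbN v (a, w, ((M.fam.nm a).eP p : ℕ), z) = M.pb a v p := by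
  have h1 : ((M.fam.nm a).eP p : ℕ) / (M.fam.nm a).Qc = eYY C.K (C.h (M.k a)) p.1 :=
    M.fam.eP_div a p
  have h2 : M.fam.fuN a ((M.fam.nm a).eP p) = (M.fam.nm a).cE p.2 := M.fam.fuN_eq a p
  show M.pbN a v (((M.fam.nm a).eP p : ℕ) / (M.fam.nm a).Qc)
    (M.fam.fuN a ((M.fam.nm a).eP p)) = _
  rw [h1, h2]
  refine (M.pbN_ok a v p.1 _).trans ?_
  show M.pb a v (p.1, _) = M.pb a v (p.1, p.2)
  congr 2
  funext j
  exact (M.fam.nm a).dg_cE p.2 j

theorem PT_cbN (v : PB C S) : PT ∅ (M.cbN v) := by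
  refine M.PT_pbN (g := fun q : α × Word × ℕ × ℕ => q.1) PT.fst' ?_ ?_ v
  · exact PT.div PT.snd'.snd.fst (M.fam.nm_pt.Qc.comp PT.fst')
  · exact M.fam.PT_fuN PT.fst' PT.snd'.snd.fst

end MFam

end Vale.Agent.P330.FM
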