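import Vale.Agent.P330.FM.FSys
import Vale.Agent.P330.H972.MFam

/-!
# The codes of blocks have distance

`dist_of_samp`: if reads which mix correct every error then different codes differ at a constant
fraction of the points.  `encB_inj`, `extB_inj`: blocks are determined by their codes.
-/

namespace Vale.Agent.P330.FM

open Finset PCP.AR Vale.Agent.Lib.PolyTime Vale.Agent.P330.Q Vale.Agent.P330.H972
open Vale.Agent.P330.FM.TM

/-- **Distance from corrected reads.** -/
theorem dist_of_samp {P Z K L Bl : Type} [Fintype P] [Nonempty P] [Fintype Z] [Nonempty Z]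
    {rd : K → P × Z → P × Z} {dF : (K → Bool) → Bool} {enc : Bl → L → P → Bool} {ρ : ℝ}
    (samp : ∀ B : P → Prop, pr B ≤ ρ →
      pr (fun p : P => 1 / 8 ≤ pr fun z : Z => ∃ k : K, B (rd k (p, z)).1) ≤ 1 / 2 * pr B)
    (d_ok : ∀ b l ω, dF (fun k => enc b l (rd k ω).1) = enc b l ω.1)
    (inj : ∀ b b', (∀ l p, enc b l p = enc b' l p) → b = b') {b b' : Bl} (h : b ≠ b') :
    ρ ≤ pr fun p : P => ∃ l, enc b l p ≠ enc b' l p := by
  classical
  by_contra hc
  push Not at hc
  set B : P → Prop := fun p => ∃ l, enc b l p ≠ enc b' l p with hB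
  have h1 := samp B hc.le
  have h2 : pr B ≤ pr (fun p : P => 1 / 8 ≤ pr fun z : Z => ∃ k : K, B (rd k (p, z)).1) := by
    refine pr_mono fun p hp => ?_
    have h3 : ∀ z : Z, ∃ k : K, B (rd k (p, z)).1 := by
      intro z
      by_contra hn
      push Not at hn
      obtain ⟨l, hl⟩ := hp
      refine hl ?_
      have e1 := d_ok b l (p, z)
      have e2 := d_ok b' l (p, z)
      rw [← e1, ← e2]
      congr 1
      funext k
      have h4 := hn k
      simp only [hB] at h4
      push Not at h4
      exact h4 l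
    have h5 : pr (fun z : Z => ∃ k : K, B (rd k (p, z)).1) = 1 := by
      have h6 : pr (fun z : Z => ∃ k : K, B (rd k (p, z)).1) = pr (fun _ : Z => True) :=
        pr_congr fun z => by simp [h3 z]
      rw [h6]
      simp [PCP.AR.pr]
    rw [h5]
    norm_num
  have h3 : pr B ≤ 0 := by
    have := pr_nonneg B
    linarith
  refine h (inj b b' fun l p => ?_)
  by_contra hne
  have hp : B p := ⟨l, hne⟩
  have h4 : 0 < pr B := by
    unfold PCP.AR.pr
    refine div_pos ?_ (by exact_mod_cast Fintype.card_pos)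
    refine lt_of_lt_of_le one_pos ?_
    have h5 := Finset.single_le_sum (f := fun v => if B v then (1 : ℝ) else 0)
      (fun v _ => by split_ifs <;> norm_num) (mem_univ p)
    simp only [hp, if_true] at h5
    exact h5
  linarith

/-- Blocks are determined by their external bits. -/
theorem extB_inj {n L : ℕ} (hn : n ≤ 2 ^ L) {b b' : Fin n → Bool}
    (h : ∀ x : Addr L, extB b ((epsZ L).symm x) = extB b' ((epsZ L).symm x)) : b = b' := by
  funext i
  have h1 := h (adr L i)
  have hi : (i : ℕ) < 2 ^ L := lt_of_lt_of_le i.2 hn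
  rw [epsZ_symm_adr, extB_eq_getD, extB_eq_getD, val_ptZ, Nat.mod_eq_of_lt hi,
    List.getD_eq_getElem?_getD, List.getElem?_ofFn, dif_pos i.2,
    List.getD_eq_getElem?_getD, List.getElem?_ofFn, dif_pos i.2] at h1
  exact h1

theorem le_two_pow_aOf' (c n : ℕ) : n ≤ 2 ^ (2 * aOf c n) := by
  have h1 := TM.m_le_aOf c n
  have h2 : 2 ^ aOf c n ≤ 2 ^ (2 * aOf c n) := Nat.pow_le_pow_right (by norm_num) (by omega)
  omega

/-- An array is determined by the bits of its code. -/
theorem strB_inj {nC B m : ℕ} {C : XC nC B m} {S : XSpec} {α : Type} [Enc α] (U : XFam C S α)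
    (a : α) {x x' : Addr (U.k a) → C.K}
    (h : ∀ l (p : (U.sk a).P), U.strB a x l p = U.strB a x' l p) : x = x' := by
  have h4 : 1 ≤ B := one_le_B U.σ
  refine (C.sys (U.k a)).code_inj (C.le_h' h4 (U.k a)) ?_
  funext y
  have e1 := bdec_decide C.φ C.φ_ne ((C.sys (U.k a)).code x y)
  have e2 := bdec_decide C.φ C.φ_ne ((C.sys (U.k a)).code x' y)
  rw [← e1, ← e2]
  congr 1
  funext l
  exact h l ((0, y), fun _ => 0)

section

variable {kk mm : ℕ} {τ : H800.Tab kk} (C : XC (nCm τ) (nBm τ) mm) (c : ℕ) {α : Type} [Enc α]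
  {m : α → ℕ} (hm : PT ∅ m) (hb : PBd m) (a : α)

theorem arrB_inj {k n : ℕ} (hn : n ≤ 2 ^ k) {b b' : Fin n → Bool}
    (h : arrB C k b = arrB C k b') : b = b' := by
  refine extB_inj hn fun x => ?_
  have h3 := congrFun h x
  unfold arrB at h3
  by_cases e1 : extB b ((epsZ k).symm x) = true <;>
    by_cases e2 : extB b' ((epsZ k).symm x) = true
  · rw [e1, e2]
  · rw [if_pos e1, if_neg e2] at h3
    exact absurd h3 one_ne_zero
  · rw [if_neg e1, if_pos e2] at h3
    exact absurd h3.symm one_ne_zero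
  · simp only [Bool.not_eq_true] at e1 e2
    rw [e1, e2]

/-- **Blocks are determined by their codes.** -/
theorem encB_inj (b b' : Fin (m a) → Bool)
    (h : ∀ l p, encB C c hm hb a b l p = encB C c hm hb a b' l p) : b = b' :=
  arrB_inj C (le_two_pow_aOf' c (m a)) (strB_inj (mfam C c hm hb) a h)

end

end Vale.Agent.P330.FM
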