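import Vale.Agent.P330.FM.Mods
import Vale.Agent.P330.H838.Block

/-!
# The parameters of the modules lie in `[0, 1]`

`CConst.Ok`: the constants of the core lie in `[0, 1]`. `holdMod_ok`, `stepMod_ok`, `checkMod_ok`:
all thresholds and own parameters of the modules lie in `[0, 1]`; the hard-wired bits are finite.
-/

namespace Vale.Agent.P330.FM

open S (BitDef MDef)
open H551 (ODef Mod)
open H838 (OOk)

/-- The constants of the core lie in `[0, 1]`. -/
structure CConst.Ok (q : CConst) : Prop where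
  τ₀ : 0 ≤ q.τ₀ ∧ q.τ₀ ≤ 1
  lam₀ : 0 ≤ q.lam₀ ∧ q.lam₀ ≤ 1
  τ₁ : 0 ≤ q.τ₁ ∧ q.τ₁ ≤ 1
  τ₂ : 0 ≤ q.τ₂ ∧ q.τ₂ ≤ 1

/-- The parameters of a definition lie in `[0, 1]`. -/
def XOk {Reg Rd CB : Type} : XDef Reg Rd CB → Prop
  | .bit _ => True
  | .thr α _ => 0 ≤ α ∧ α ≤ 1
  | .ra o _ _ => ∀ q ∈ o, 0 ≤ q ∧ q ≤ 1

theorem XOk.map {Reg Reg' Rd Rd' CB CB' : Type} {f : Reg → Reg'} {r : Rd → Rd'} {c : CB → CB'}
    {D : XDef Reg Rd CB} (h : XOk D) : XOk (D.map f r c) := by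
  cases D with
  | bit B => trivial
  | thr α ρ => exact h
  | ra o g ρ => exact h

theorem XOk.ofX {Reg Rd CB I : Type} {d : Reg} {D : XDef (Reg ⊕ I) Rd CB} (h : XOk D) :
    OOk (ofX d D) := by
  cases D with
  | bit B => trivial
  | thr α r =>
    rcases r with r | r
    · exact h
    · exact h
  | ra o g r =>
    rcases r with r | r
    · exact h
    · exact h

variable {S : FSpec} {k : ℕ}

theorem coreDef_ok {q : CConst} (hq : q.Ok) (ρ : CReg S) : XOk (coreDef q ρ) := by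
  have hh : (0 : ℚ) ≤ 1 / 2 ∧ (1 / 2 : ℚ) ≤ 1 := ⟨by norm_num, by norm_num⟩
  have hl : (0 : ℚ) ≤ 1 / 4 ∧ (1 / 4 : ℚ) ≤ 1 := ⟨by norm_num, by norm_num⟩
  have ht : (0 : ℚ) ≤ 3 / 4 ∧ (3 / 4 : ℚ) ≤ 1 := ⟨by norm_num, by norm_num⟩
  have hn : ∀ q' ∈ (none : Option ℚ), 0 ≤ q' ∧ q' ≤ 1 := fun q' h => by simp at h
  have hs : ∀ q' ∈ some q.lam₀, 0 ≤ q' ∧ q' ≤ 1 := fun q' h => by
    rw [Option.mem_some_iff] at h
    exact h ▸ hq.lam₀
  cases ρ with
  | inn ρ =>
    cases ρ with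
    | m z c => trivial
    | p z c => exact hs
    | x z c => exact hh
    | lo z c => exact hl
    | hi z c => exact ht
    | h z c => trivial
    | a z c => trivial
    | t k => trivial
    | ta k => exact hs
    | tf k => exact hq.τ₀
    | q i => trivial
    | qa i => exact hs
    | th i l =>
      have h2 : ((l : ℕ) : ℚ) + 1 ≤ 5 := by
        have h3 : (l : ℕ) + 1 ≤ 5 := l.2
        exact_mod_cast h3
      have h4 : (0 : ℚ) ≤ ((l : ℕ) : ℚ) := by positivity
      exact ⟨by positivity, by linarith⟩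
  | hw κ => trivial
  | xp c => exact hn
  | xx c => exact hh
  | xl c => exact hl
  | xh c => exact ht
  | xo l => trivial
  | m l => trivial
  | p l => exact hn
  | y l => exact hh
  | yl l => exact hl
  | yh l => exact ht
  | e => trivial
  | ea => exact hn
  | nok => exact hq.τ₁
  | t => trivial
  | ta => exact hn
  | tf => exact hq.τ₂

theorem callDef_ok {Reg : Type} (eK : S.K ≃ Fin (k + 2)) {q : CConst} (hq : q.Ok)
    (own : CReg S → Reg) (inp : Fin (k + 2) → S.L → Reg ⊕ (Fin k × S.L)) (ρ : CReg S) :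
    OOk (callDef eK q own inp ρ) := (coreDef_ok hq ρ).map.ofX

/-- **`step`.** -/
theorem stepMod_ok (eK : S.K ≃ Fin (k + 2)) {q : CConst} (hq : q.Ok)
    (ρ : (stepMod S eK q).Reg) : OOk ((stepMod S eK q).net ρ) := by
  cases ρ with
  | k n l => trivial
  | c ρ => exact callDef_ok eK hq _ _ ρ

theorem thj_ok (k : ℕ) (j : Fin (2 * k + 1)) : 0 ≤ thj k j ∧ thj k j ≤ 1 := by
  have h1 : ((j : ℕ) : ℚ) + 1 ≤ 2 * k + 1 := by
    have h2 : (j : ℕ) + 1 ≤ 2 * k + 1 := j.2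
    exact_mod_cast h2
  have h3 : (0 : ℚ) ≤ k := Nat.cast_nonneg _
  unfold thj
  refine ⟨by positivity, ?_⟩
  rw [div_le_one (by positivity)]
  linarith

/-- **`hold`.** -/
theorem holdMod_ok (eK : S.K ≃ Fin (k + 2)) {q : CConst} (hq : q.Ok)
    (ρ : (holdMod S eK q).Reg) : OOk ((holdMod S eK q).net ρ) := by
  have hn : ∀ q' ∈ (none : Option ℚ), 0 ≤ q' ∧ q' ≤ 1 := fun q' h => by simp at h
  cases ρ with
  | k n l => trivial
  | san i ρ => exact callDef_ok eK hq _ _ ρ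
  | fa i => exact hn
  | fl i j => exact thj_ok k j
  | mk j i l => trivial
  | rep j ρ => exact callDef_ok eK hq _ _ ρ
  | out l => trivial

/-- **`check`.** -/
theorem checkMod_ok (eK : S.K ≃ Fin (k + 2)) {q : CConst} (hq : q.Ok) {τv : ℚ} (h0 : 0 ≤ τv)
    (h1 : τv ≤ 1) (own : Fin k) (ρ : (checkMod S eK q τv own).Reg) :
    OOk ((checkMod S eK q τv own).net ρ) := by
  have hn : ∀ q' ∈ (none : Option ℚ), 0 ≤ q' ∧ q' ≤ 1 := fun q' h => by simp at h
  cases ρ with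
  | k n l => trivial
  | san ρ => exact callDef_ok eK hq _ _ ρ
  | c ρ => exact callDef_ok eK hq _ _ ρ
  | v0 => trivial
  | va => exact hn
  | vt => exact ⟨h0, h1⟩
  | out => trivial

/-- The hard-wired bits of the modules are finite. -/
theorem finite_CBM (S : FSpec) [Finite S.CB] : Finite (CBM S) := inferInstance

end Vale.Agent.P330.FM
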