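import Vale.Agent.P330.Q.Sound

/-!
# Soundness of the network over a local code, for a region of parameters

`LSoundR`: as `LSound`, for all small errors `ε`.
-/

namespace Vale.Agent.P330.FM

open Filter PCP.AR Vale.Agent.P330.Q

variable {N : LSpec}

/-- **Soundness of the network**, for a class of instances and for all small errors. -/
def LSoundR (N : LSpec) (Q : LInst N → Prop) : Prop :=
  ∀ ρ₀ : ℝ, 0 < ρ₀ →
    ∃ τ : ℚ, 0 < τ ∧ τ < 1 ∧ ∃ lam : ℚ, 0 < lam ∧ lam < 1 ∧ ∃ β : ℝ, 0 < β ∧ β < 1 / 100 ∧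
    ∀ I : LInst N, Q I → ∀ x : LReg N.C → I.Site → ℝ, ∀ ε : ℝ, 0 < ε → ε ≤ β →
      I.Obeys τ ε lam β x →
      (∃ w, I.Valid w ∧ I.Near ε ρ₀ x false w ∧ ¬ I.Valid (I.step false w)) ∨
      (∃ w, I.Valid w ∧ w ≠ I.w0 ∧ I.Near ε ρ₀ x true w ∧ ¬ I.Valid (I.step true w))

theorem lsoundR {Q : LInst N → Prop} {θ ρ₁ g : ℝ} (hθ : 0 < θ) (hρ₁ : 0 < ρ₁) (hg : g < 1)
    (HF : ∀ I, Q I → I.Facts θ ρ₁ g) (HT : TestSound N Q) : LSoundR N Q := by
  intro ρ₀ hρ₀
  set K : ℝ := ((Fintype.card N.K : ℕ) : ℝ) with hK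
  have hK0 : 0 ≤ K := Nat.cast_nonneg _
  set ρ' : ℝ := min ρ₀ (min (ρ₁ / (16 * (K + 1))) (θ / (2 * (3 + K)))) with hρ'
  have hp : 0 < ρ' := lt_min hρ₀ (lt_min (by positivity) (by positivity))
  have hp1 : ρ' ≤ ρ₀ := min_le_left _ _
  have hp2 : 16 * (K * ρ') ≤ ρ₁ := by
    have h1 : ρ' ≤ ρ₁ / (16 * (K + 1)) := (min_le_right _ _).trans (min_le_left _ _)
    rw [le_div_iff₀ (by positivity)] at h1
    nlinarith
  have hp3 : ρ' * (2 * (3 + K)) ≤ θ := by
    have h1 : ρ' ≤ θ / (2 * (3 + K)) := (min_le_right _ _).trans (min_le_right _ _)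
    rwa [le_div_iff₀ (by positivity)] at h1
  obtain ⟨κ, hκ, HT'⟩ := HT (ρ' / 2) (half_pos hp)
  have hT0 : (0 : ℝ) ≤ Fintype.card N.TK := Nat.cast_nonneg _
  have hm : (0 : ℝ) < min (min 1 (θ / 2)) (min (κ / (4 + 3 * Fintype.card N.TK)) (ρ' / 6)) :=
    lt_min (lt_min one_pos (by positivity)) (lt_min (by positivity) (by positivity))
  obtain ⟨τ, h0, h1⟩ := exists_rat_btwn hm
  have a1 : (τ : ℝ) < 1 := h1.trans_le ((min_le_left _ _).trans (min_le_left _ _))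
  have a2 : (τ : ℝ) < θ / 2 := h1.trans_le ((min_le_left _ _).trans (min_le_right _ _))
  have a3 : (τ : ℝ) < κ / (4 + 3 * Fintype.card N.TK) :=
    h1.trans_le ((min_le_right _ _).trans (min_le_left _ _))
  have a4 : (τ : ℝ) < ρ' / 6 := h1.trans_le ((min_le_right _ _).trans (min_le_right _ _))
  have h0' : 0 < τ := by exact_mod_cast h0
  have a3' : (4 + 3 * Fintype.card N.TK) * (τ : ℝ) ≤ κ := by
    rw [lt_div_iff₀ (by positivity)] at a3
    linarith
  refine ⟨τ, h0', by exact_mod_cast a1, ?_⟩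
  by_contra hcon
  have key : ∀ n : ℕ, ∃ (I : LInst N) (x : LReg N.C → I.Site → ℝ) (ε : ℝ), Q I ∧ 0 < ε ∧
      ε ≤ ((S.seqEps n : ℚ) : ℝ) ∧
      I.Obeys τ ε ((S.seqLam n : ℚ) : ℝ) ((S.seqEps n : ℚ) : ℝ) x ∧ GLim.NoSol I ε ρ₀ x := by
    intro n
    by_contra hn
    apply hcon
    refine ⟨S.seqLam n, S.seqLam_pos n, S.seqLam_lt n,
      ((S.seqEps n : ℚ) : ℝ), by exact_mod_cast S.seqEps_pos n, ?_, fun I hI x ε e0 e1 hO => ?_⟩
    · have := S.seqEps_lt n
      have h : ((S.seqEps n : ℚ) : ℝ) < ((1 / 100 : ℚ) : ℝ) := by exact_mod_cast this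
      push_cast at h
      exact h
    · by_contra hs
      push Not at hs
      exact hn ⟨I, x, ε, hI, e0, e1, hO, fun w a b => hs.1 w a b, fun w a b c => hs.2 w a b c⟩
  choose I x ε hI e0 e1 hO hN using key
  have hF : ∀ n, (I n).Facts θ ρ₁ (max g 0) := fun n =>
    Facts.mono_g (le_max_left _ _) (HF (I n) (hI n))
  have hl0 : ∀ n, (0 : ℝ) < ((S.seqLam n : ℚ) : ℝ) := fun n => by exact_mod_cast S.seqLam_pos n
  let A : GLim N :=
    { U := hyperfilter ℕ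
      I := I
      τ := τ
      θ := θ
      ρ₁ := ρ₁
      g := max g 0
      ε := ε
      lam := fun n => ((S.seqLam n : ℚ) : ℝ)
      β := fun n => ((S.seqEps n : ℚ) : ℝ)
      x := x
      facts := hF
      obeys := hO
      g_nonneg := le_max_right _ _
      g_lt := max_lt hg one_pos
      ε_pos := e0
      ε_lt := fun n => by
        have := S.seqEps_lt n
        have h : ((S.seqEps n : ℚ) : ℝ) < ((1 / 100 : ℚ) : ℝ) := by exact_mod_cast this
        push_cast at h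
        exact (e1 n).trans_lt h
      ε_lim := (squeeze_zero (fun n => (e0 n).le) e1 S.seqEps_lim).mono_left
        Nat.hyperfilter_le_atTop
      β_lim := S.seqEps_lim.mono_left Nat.hyperfilter_le_atTop
      lam_pos := fun n => by exact_mod_cast S.seqLam_pos n
      lam_lt := fun n => by exact_mod_cast S.seqLam_lt n
      lam_lim := S.seqLam_lim.mono_left Nat.hyperfilter_le_atTop
      ε_lam := (squeeze_zero (fun n => div_nonneg (e0 n).le (hl0 n).le)
        (fun n => div_le_div_of_nonneg_right (e1 n) (hl0 n).le) S.seqEps_lam).mono_left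
        Nat.hyperfilter_le_atTop
      β_lam := S.seqEps_lam.mono_left Nat.hyperfilter_le_atTop }
  refine (GLim.toSeq A hI ρ' ρ₀ κ hp hp1 ⟨hp.le, hρ₁, hp2⟩ HT' h0' a3' ?_ ?_ ?_ hN).toCore.no
  · show 3 * (τ : ℝ) ≤ ρ' / 2
    linarith
  · show (τ : ℝ) < θ - 3 * ρ'
    nlinarith
  · show (τ : ℝ) < θ - (2 + (K + 1)) * ρ'
    nlinarith

end Vale.Agent.P330.FM
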