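import Vale.Agent.P330.FM.CoreD
import Vale.Agent.P330.FM.EncDist
import Vale.Agent.P330.FM.Call
import Vale.Agent.P330.FM.ModOk
import Vale.Agent.P330.FM.E3End
import Vale.Agent.P330.H972.InnCls

/-!
# The concrete functional systems: soundness of the core

`exists_modHyp`: `ModHyp` for the class `ClassF d`, from `FInst.Facts` and `TTSound`.  `enc_dist`: the
distance of the codes of blocks.
-/

namespace Vale.Agent.P330.FM

open Finset PCP.AR Vale.Agent.Lib.PolyTime Vale.Agent.P330.Q Vale.Agent.P330.H972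
open Vale.Agent.P330.FM.TM
open Vale.Agent.P330.H475 (Wd)

section

variable {kk mm : ℕ} {τ : H800.Tab kk} {C : XC (nCm τ) (nBm τ) mm} (d : FDefs C)

/-- **Soundness of the core** for the class of the concrete instances. -/
theorem exists_modHyp (HF : ∀ I, ClassF d I → I.Facts (ρX C (spec τ)) (73 / 80))
    (HT : TTSound (fspec d) (ClassF d)) :
    ∃ (q : CConst) (ρc : ℝ), q.Ok ∧ ModHyp (fspec d) (ClassF d) q ρc (73 / 80) := by
  obtain ⟨q, ρc, a1, a2, a3, a4, a5, a6, a7, a8, hcore⟩ :=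
    coreSound (ρX_pos C) (by norm_num : (73 / 80 : ℝ) < 1) HF (lsoundR_inn d rfl) HT
  exact ⟨q, ρc, ⟨⟨a1.le, a2.le⟩, ⟨a3.le, a4.le⟩, ⟨a5.le, a6.le⟩, ⟨a7.le, a8.le⟩⟩,
    ⟨hcore, by norm_num, by norm_num, fun I hI => (HF I hI).gapP, fun I hI => (HF I hI).gapZ,
      fun I hI => (HF I hI).rd_self⟩⟩

variable (c : ℕ) {α : Type} [Enc α] {m : α → ℕ} (hm : PT ∅ m) (hb : PBd m)

/-- **The distance of the codes of blocks.** -/
theorem enc_dist (a : α) {s s' : Wd (m a)} (h : s ≠ s') :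
    ρX C (spec τ) ≤ pr fun p : (finst d c hm hb a).P =>
      ∃ l, (finst d c hm hb a).enc s l p ≠ (finst d c hm hb a).enc s' l p := by
  classical
  exact dist_of_samp (P := ((mfam C c hm hb).sk a).P) (Z := ((mfam C c hm hb).sk a).Z)
    (K := DU C) (rd := fun u ω => ((mfam C c hm hb).sk a).rd (dRaw C (spec τ) u) ω)
    (dF := dXor C) (enc := encB C c hm hb a) (enc_samp C c hm hb a) (enc_read C c hm hb a)
    (encB_inj C c hm hb a) h

end

end Vale.Agent.P330.FM
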