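import Vale.Agent.P330.FM.SoundF
import Vale.Agent.P330.FM.FinCore

/-!
# The function of the concrete functional system

`feq`: if the machine computes `fsel fc fe fs`, the instance `finst` satisfies `FEq`.
`fdatC`: the concrete family of modules; `sound_fdatC`: its soundness.
-/

namespace Vale.Agent.P330.FM

open Finset Vale.Agent.Lib.PolyTime Vale.Agent.P330.Q PCP.AR
open Vale.Agent.P330.H972
open Vale.Agent.P330.FM.TM
open Vale.Agent.P330.H800 (Tab)
open Vale.Agent.P330.H475 (Wd wd toWd wd0 FData)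

section

variable {K mm : ℕ} {τ : Tab (K + 2)} {C : XC (nCm τ) (nBm τ) mm} (d : FDefs C)
  (c : ℕ) {α : Type} [Enc α] {m : α → ℕ} (hm : PT ∅ m) (hb : PBd m)
  {fc fe : List Word → Word} {fs : Bool → List Word → Word}

theorem arrB_wd0 (C : XC (nCm τ) (nBm τ) mm) (k n : ℕ) : arrB C k (wd0 n) = 0 := by
  funext x
  unfold arrB extB
  rw [if_neg]
  · rfl
  · split_ifs <;> simp [wd0]

theorem encB_wd0 (a : α) (l : C.K) (p : ((mfam C c hm hb).sk a).P) :
    encB C c hm hb a (wd0 (m a)) l p = false := by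
  unfold encB XFam.strB
  rw [arrB_wd0, map_zero]
  simp

/-- **The function of the instance.** -/
theorem feq (hF : Computes τ c (fsel fc fe fs)) (a : α) :
    FEq (S := fspec d) (Equiv.refl (Fin (K + 2))) (finst d c hm hb a)
      (Equiv.refl (Wd (m a))) fc fe fs where
  F_eq X := outW_eq hF X
  enc_zero l p := encB_wd0 c hm hb a l p

/-- **The family of modules of the concrete functional systems.** -/
noncomputable abbrev fdatC (q : CConst) (τv : ℚ) (own : Fin K) : FData K m :=
  fdatF (fspec d) (Equiv.refl (Fin (K + 2))) q τv own (finst d c hm hb)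
    fun a => Equiv.refl (Wd (m a))

/-- **Soundness of the concrete family of modules.** -/
theorem sound_fdatC {q : CConst} {ρc : ℝ} (H : ModHyp (fspec d) (ClassF d) q ρc (73 / 80))
    (hF : Computes τ c (fsel fc fe fs)) (hm3 : ∀ a, 3 ≤ m a) (own : Fin K) {ρd : ℝ}
    (hρd : 0 < ρd) : ∃ (τv : ℚ) (cs : FData.Cs), 0 ≤ τv ∧ τv ≤ 1 ∧ cs.ρin ≤ ρd ∧
      (fdatC d c hm hb q τv own).Sound own fc fe fs cs := by
  obtain ⟨τv, t0, t1⟩ := exists_rat_btwn (lt_min (ρX_pos C (S := spec τ)) one_pos)
  obtain ⟨cs, c1, c2, c3, c4, c5⟩ := exists_cs (g := 73 / 80) (lt_min H.core.pos hρd)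
    (ρX_pos C (S := spec τ)) (by norm_num)
  have t0' : 0 < τv := by exact_mod_cast t0
  have t1' : (τv : ℝ) < 1 := t1.trans_le (min_le_right _ _)
  refine ⟨τv, cs, t0'.le, by exact_mod_cast t1'.le, c1.trans (min_le_right _ _), ?_⟩
  exact sound_fdatF H t0' (t1.trans_le (min_le_left _ _))
    (fun a => classF_mk d c hm hb a) hm3
    (fun a => feq d c hm hb hF a) (fun a s s' h => enc_dist d c hm hb a h) cs
    (c1.trans (min_le_left _ _)) c2 c3 c4 c5

end

end Vale.Agent.P330.FM
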