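import Vale.Agent.P330.H972.FInstD
import Vale.Agent.P330.FM.E3End

/-!
# Fields of the facts of the concrete functional system

`finst_samp`, `finst_dok`, `finst_noend`, `finst_end`: corrected reads of blocks and ends of the
instances `H972.finst`.  `finst_rd_bij`, `finst_rd_self`, `finst_gapP`, `finst_gapZ`.
-/

namespace Vale.Agent.P330.FM

open Finset PCP.AR Vale.Agent.Lib.PolyTime
open Vale.Agent.P330.Q Vale.Agent.P330.H972 Vale.Agent.P330.FM.TM
open Vale.Agent.P330.H800 (Tab)
open Vale.Agent.P330.H475 (Wd toWd)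

section

variable {kk mm : ℕ} {τ : Tab kk} {C : XC (nCm τ) (nBm τ) mm} (d : FDefs C) (c : ℕ) {α : Type}
  [Enc α] {m : α → ℕ} (hm : PT ∅ m) (hb : PBd m) (a : α)

theorem enc_samp_ex : ∃ (i1 : Fintype ((mfam C c hm hb).sk a).P)
    (i2 : Fintype ((mfam C c hm hb).sk a).Z), ∀ B : ((mfam C c hm hb).sk a).P → Prop,
    @pr _ i1 B ≤ ρX C (TM.spec τ) →
    @pr _ i1 (fun p : ((mfam C c hm hb).sk a).P => 1 / 8 ≤
      @pr _ i2 fun z : ((mfam C c hm hb).sk a).Z =>
        ∃ u : DU C, B (((mfam C c hm hb).sk a).rd (dRaw C (TM.spec τ) u) (p, z)).1) ≤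
      1 / 2 * @pr _ i1 B := ⟨_, _, fun B hB => enc_samp C c hm hb a B hB⟩

theorem enc_samp' (i1 : Fintype ((mfam C c hm hb).sk a).P) (i2 : Fintype ((mfam C c hm hb).sk a).Z)
    (B : ((mfam C c hm hb).sk a).P → Prop) (hB : pr B ≤ ρX C (TM.spec τ)) :
    pr (fun p : ((mfam C c hm hb).sk a).P => 1 / 8 ≤ pr fun z : ((mfam C c hm hb).sk a).Z =>
      ∃ u : DU C, B (((mfam C c hm hb).sk a).rd (dRaw C (TM.spec τ) u) (p, z)).1) ≤
      1 / 2 * pr B := by
  obtain ⟨j1, j2, h⟩ := enc_samp_ex c hm hb a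
  obtain rfl : i1 = j1 := Subsingleton.elim _ _
  obtain rfl : i2 = j2 := Subsingleton.elim _ _
  exact h B hB

/-- **The corrected reads of streams mix.** -/
theorem finst_samp (B : (finst d c hm hb a).P → Prop) (hB : pr B ≤ ρX C (TM.spec τ)) :
    pr (fun p : (finst d c hm hb a).P => 1 / 8 ≤ pr fun z : (finst d c hm hb a).Z =>
      ∃ k : (fspec d).DK, B ((finst d c hm hb a).rd ((fspec d).dRd k) (p, z)).1) ≤
      1 / 2 * pr B := by
  exact enc_samp' c hm hb a _ _ B hB

/-- **Corrected reads of codes of blocks.** -/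
theorem finst_dok (b : (finst d c hm hb a).Bl) (l : (fspec d).L) (ω : (finst d c hm hb a).W) :
    (fspec d).dF (fun k => (finst d c hm hb a).enc b l
      ((finst d c hm hb a).rd ((fspec d).dRd k) ω).1) = (finst d c hm hb a).enc b l ω.1 :=
  enc_read C c hm hb a b l ω

/-- **Every configuration except the first has a predecessor.** -/
theorem finst_noend (s : (fspec d).K → (finst d c hm hb a).Bl) (w : (finst d c hm hb a).Cf)
    (hw : (finst d c hm hb a).Valid s w) (hne : w ≠ (finst d c hm hb a).w0 s) :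
    (finst d c hm hb a).Valid s ((finst d c hm hb a).step s true w) :=
  mf_noend (good_aOf c (m a)) (σm τ) ((mfam C c hm hb).ε a) (bitsB c s)
    ((mfam C c hm hb).nm a |>.sP ((mfam C c hm hb).nm_ok a))
    ((mfam C c hm hb).nm a |>.sZ ((mfam C c hm hb).nm_ok a)) w hw hne

/-- **The end.** -/
theorem finst_end (s : (fspec d).K → (finst d c hm hb a).Bl) (w : (finst d c hm hb a).Cf)
    (hw : (finst d c hm hb a).Valid s w)
    (hne : ¬ (finst d c hm hb a).Valid s ((finst d c hm hb a).step s false w)) :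
    w.1 = (famX C (inst τ (good_aOf c (m a))) (σm τ) ((mfam C c hm hb).ε a) (bitsB c s)
        (facts (good_aOf c (m a)) _)).sec
      (finSt τ (prmOf (aOf c (m a)) (m a)) (2 ^ (2 * aOf c (m a))) (C.h (2 * aOf c (m a)))
        (bitsB c s)) ∧
    (famX C (inst τ (good_aOf c (m a))) (σm τ) ((mfam C c hm hb).ε a) (bitsB c s)
        (facts (good_aOf c (m a)) _)).Val
      (finSt τ (prmOf (aOf c (m a)) (m a)) (2 ^ (2 * aOf c (m a))) (C.h (2 * aOf c (m a)))
        (bitsB c s)) :=
  mf_end (good_aOf c (m a)) (σm τ) ((mfam C c hm hb).ε a) (bitsB c s)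
    ((mfam C c hm hb).nm a |>.sP ((mfam C c hm hb).nm_ok a))
    ((mfam C c hm hb).nm a |>.sZ ((mfam C c hm hb).nm_ok a)) w hw hne

theorem finst_rd_bij (R : (fspec d).Rd) : Function.Bijective ((finst d c hm hb a).rd R) := by
  rcases R with R | t
  · have h := ((mfam C c hm hb).innFacts a ((mfam C c hm hb).s0 a) ((mfam C c hm hb).hI0 a)
      rfl).rd_bij R
    have e : ((mfam C c hm hb).inn a ((mfam C c hm hb).s0 a) ((mfam C c hm hb).hI0 a)).rd R =
      ((mfam C c hm hb).sk a).rd R :=
      (mfam C c hm hb).famK_rd a ((mfam C c hm hb).s0 a) ((mfam C c hm hb).hI0 a) R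
    rw [e] at h
    exact h
  · exact (mfam C c hm hb).shS_bijective a t

theorem finst_rd_self (ω : (finst d c hm hb a).W) :
    (finst d c hm hb a).rd (fspec d).self ω = ω :=
  ((mfam C c hm hb).sk a).rd_self ω

theorem finst_gapP : H855.Gap (finst d c hm hb a).sP (73 / 80) := by
  exact (mfam C c hm hb).gap_sP a

theorem finst_gapZ : H855.Gap (finst d c hm hb a).sZ (73 / 80) := by
  exact (mfam C c hm hb).gap_sZ a

/-- **The facts of the functional system**, up to the definitions of the hard-wired bits, of the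
output and of the flag. -/
theorem finst_facts_of
    (hw : ∀ s κ ω, evB ((fspec d).hw κ) (fun R i => (finst d c hm hb a).enc (s i.1) i.2
      ((finst d c hm hb a).rd R ω).1) (fun b => (finst d c hm hb a).cb b ω) =
      (finst d c hm hb a).icb s κ ω)
    (xo : ∀ s w, (finst d c hm hb a).Valid s w →
      ¬ (finst d c hm hb a).Valid s ((finst d c hm hb a).step s false w) → ∀ l ω,
      evB ((fspec d).xo l) (fun R i => (finst d c hm hb a).cod w i ((finst d c hm hb a).rd R ω).1)
        (fun b => (finst d c hm hb a).cb b ω) =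
        (finst d c hm hb a).enc ((finst d c hm hb a).F s) l ω.1)
    (tt : ∀ s w, (finst d c hm hb a).Valid s w →
      ¬ (finst d c hm hb a).Valid s ((finst d c hm hb a).step s false w) → ∀ ω,
      evB (fspec d).tt (fun R i => (finst d c hm hb a).cod w i ((finst d c hm hb a).rd R ω).1)
        (fun b => (finst d c hm hb a).cb b ω) = false) :
    (finst d c hm hb a).Facts (ρX C (TM.spec τ)) (73 / 80) where
  rd_bij := finst_rd_bij d c hm hb a
  rd_self := finst_rd_self d c hm hb a
  gapP := finst_gapP d c hm hb a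
  gapZ := finst_gapZ d c hm hb a
  hw_ok := hw
  noend := finst_noend d c hm hb a
  xo_ok := xo
  tt_ok := tt
  samp := finst_samp d c hm hb a
  d_ok := finst_dok d c hm hb a

end

end Vale.Agent.P330.FM
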