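import Vale.Agent.P330.FM.XNet
import Vale.Agent.P330.FM.LSoundR

/-!
# Functional systems

A functional system is a family (indexed by the tuples `s` of input blocks) of local codes whose
machines compute the block `F s`; the hard-wired bits of the local code of `s` are Boolean functions
of the bits of the codes of the blocks `s a` at moved sites and of public bits.

* `FSpec`, `FInst`, `FInst.Facts`, `TTSound`.
* `CReg`, `coreDef`: the core network: the network of the local code, the table read from it, the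
  raw output, the decoder of the output and the flag.
-/

namespace Vale.Agent.P330.FM

open Finset PCP.AR
open H855 (mean)
open S (BitDef MDef Sem IsB)
open Vale.Agent.P330.Q (LSpec LReg LInst net)

/-- The value of a Boolean function of bits. -/
def evB {Reg Rd CB : Type} (B : BitDef Reg Rd CB) (v : Rd → Reg → Bool) (c : CB → Bool) : Bool :=
  B.f fun i => Sum.elim (fun p : Rd × Reg => v p.1 p.2) c (B.inp i)

/-- Finite data of a functional system. -/
structure FSpec where
  /-- the inner local code -/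
  N : LSpec
  fCB : Fintype N.CB
  /-- names of the input blocks -/
  K : Type
  fK : Fintype K
  dK : DecidableEq K
  /-- bits of a block at a point -/
  L : Type
  fL : Fintype L
  dL : DecidableEq L
  /-- names of the maps of the sites -/
  Rd : Type
  /-- names of the public hard-wired bits -/
  CB : Type
  self : Rd
  ofN : N.Rd → Rd
  /-- the hard-wired bits of the inner code, from input bits and public bits -/
  hw : N.CB → BitDef (K × L) Rd CB
  /-- the output, from the table -/
  xo : L → BitDef N.C Rd CB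
  /-- the flag, from the table -/
  tt : BitDef N.C Rd CB
  /-- corrected reads of the codes of the blocks -/
  DK : Type
  fDK : Fintype DK
  dRd : DK → Rd
  dF : (DK → Bool) → Bool

attribute [instance] FSpec.fCB FSpec.fK FSpec.dK FSpec.fL FSpec.dL FSpec.fDK

/-- An instance of a functional system. -/
structure FInst (S : FSpec) where
  /-- points -/
  P : Type
  fP : Fintype P
  nP : Nonempty P
  /-- pads -/
  Z : Type
  fZ : Fintype Z
  nZ : Nonempty Z
  rd : S.Rd → P × Z → P × Z
  cb : S.CB → P × Z → Bool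
  sP : Fin 4 → P ≃ P
  sZ : Fin 4 → Z ≃ Z
  /-- blocks -/
  Bl : Type
  enc : Bl → S.L → P → Bool
  /-- the function -/
  F : (S.K → Bl) → Bl
  /-- configurations -/
  Cf : Type
  Valid : (S.K → Bl) → Cf → Prop
  w0 : (S.K → Bl) → Cf
  step : (S.K → Bl) → Bool → Cf → Cf
  cod : Cf → S.N.C → P → Bool
  /-- hard-wired bits of the inner code -/
  icb : (S.K → Bl) → S.N.CB → P × Z → Bool

attribute [instance] FInst.fP FInst.nP FInst.fZ FInst.nZ

variable {S : FSpec}

/-- sites -/
abbrev FInst.W (I : FInst S) : Type := I.P × I.Z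

/-- The inner local code for the inputs `s`. -/
def FInst.toL (I : FInst S) (s : S.K → I.Bl) : LInst S.N where
  P := I.P
  fP := I.fP
  nP := I.nP
  Z := I.Z
  fZ := I.fZ
  nZ := I.nZ
  rd R := I.rd (S.ofN R)
  cb := I.icb s
  sP := I.sP
  sZ := I.sZ
  Cf := I.Cf
  Valid := I.Valid s
  w0 := I.w0 s
  step := I.step s
  cod := I.cod

/-- The semantics. -/
def FInst.sem (I : FInst S) : Sem S.Rd S.CB I.W where
  rd := I.rd
  cb := I.cb
  nb k ω := if h : (k : ℕ) < 4 then (ω.1, I.sZ ⟨k, h⟩ ω.2)
    else (I.sP ⟨k - 4, by omega⟩ ω.1, ω.2)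

/-- The stream `u` is `ρ`-near the code of the block `b`. -/
def FInst.Clean (I : FInst S) (ε ρ : ℝ) (b : I.Bl) (u : S.L → I.W → ℝ) : Prop :=
  pr (fun ω : I.W => ∃ l, ¬ IsB ε (I.enc b l ω.1) (u l ω)) ≤ ρ

/-- What has to be known of an instance. -/
structure FInst.Facts (I : FInst S) (ρ₁ g : ℝ) : Prop where
  rd_bij : ∀ R, Function.Bijective (I.rd R)
  rd_self : ∀ ω, I.rd S.self ω = ω
  gapP : H855.Gap I.sP g
  gapZ : H855.Gap I.sZ g
  hw_ok : ∀ s κ ω, evB (S.hw κ) (fun R a => I.enc (s a.1) a.2 (I.rd R ω).1)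
    (fun c => I.cb c ω) = I.icb s κ ω
  noend : ∀ s w, I.Valid s w → w ≠ I.w0 s → I.Valid s (I.step s true w)
  xo_ok : ∀ s w, I.Valid s w → ¬ I.Valid s (I.step s false w) → ∀ l ω,
    evB (S.xo l) (fun R c => I.cod w c (I.rd R ω).1) (fun c => I.cb c ω) = I.enc (I.F s) l ω.1
  tt_ok : ∀ s w, I.Valid s w → ¬ I.Valid s (I.step s false w) → ∀ ω,
    evB S.tt (fun R c => I.cod w c (I.rd R ω).1) (fun c => I.cb c ω) = false
  /-- the corrected reads of streams mix -/
  samp : ∀ B : I.P → Prop, pr B ≤ ρ₁ →
    pr (fun p : I.P => 1 / 8 ≤ pr fun z : I.Z => ∃ k : S.DK, B (I.rd (S.dRd k) (p, z)).1) ≤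
      1 / 2 * pr B
  /-- corrected reads of codes of blocks are right -/
  d_ok : ∀ b l ω, S.dF (fun k => I.enc b l (I.rd (S.dRd k) ω).1) = I.enc b l ω.1

/-- Soundness of the flag, for a class of instances. -/
def TTSound (S : FSpec) (Q : FInst S → Prop) : Prop :=
  ∀ ρ : ℝ, 0 < ρ → ∃ κ : ℝ, 0 < κ ∧ ∀ I : FInst S, Q I → ∀ f : S.N.C → I.P → Bool,
    pr (fun ω : I.W => evB S.tt (fun R c => f c (I.rd R ω).1) (fun c => I.cb c ω) = true) ≤ κ →
      ∃ b : I.Bl, pr (fun ω : I.W => ∃ l,
        evB (S.xo l) (fun R c => f c (I.rd R ω).1) (fun c => I.cb c ω) ≠ I.enc b l ω.1) ≤ ρ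

/-! ### The core network -/

/-- The registers of the core. -/
inductive CReg (S : FSpec)
  /-- the network of the inner code -/
  | inn (ρ : LReg S.N.C)
  /-- its hard-wired bits -/
  | hw (κ : S.N.CB)
  /-- average of the register `x false` over the pads, thresholds `1/2`, `1/4`, `3/4` -/
  | xp (c : S.N.C)
  | xx (c : S.N.C)
  | xl (c : S.N.C)
  | xh (c : S.N.C)
  /-- raw output -/
  | xo (l : S.L)
  /-- decoder of the output -/
  | m (l : S.L)
  | p (l : S.L)
  | y (l : S.L)
  | yl (l : S.L)
  | yh (l : S.L)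
  /-- the output of the decoder differs from the raw output -/
  | e
  | ea
  | nok
  /-- flag -/
  | t
  | ta
  | tf

instance : Fintype (CReg S) := by
  classical
  haveI : Fintype (LReg S.N.C) := Fintype.ofEquiv
    ((((Bool × S.N.C) ⊕ (Bool × S.N.C)) ⊕ ((Bool × S.N.C) ⊕ (Bool × S.N.C))) ⊕
      (((Bool × S.N.C) ⊕ (Bool × S.N.C)) ⊕ (Bool × S.N.C)) ⊕
      ((Vale.Agent.P330.S.Tst ⊕ Vale.Agent.P330.S.Tst) ⊕ Vale.Agent.P330.S.Tst) ⊕
      ((Fin 3 ⊕ Fin 3) ⊕ (Fin 3 × Fin 5)))
    { toFun := fun a => match a with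
        | .inl (.inl (.inl p)) => .m p.1 p.2
        | .inl (.inl (.inr p)) => .p p.1 p.2
        | .inl (.inr (.inl p)) => .x p.1 p.2
        | .inl (.inr (.inr p)) => .lo p.1 p.2
        | .inr (.inl (.inl (.inl p))) => .hi p.1 p.2
        | .inr (.inl (.inl (.inr p))) => .h p.1 p.2
        | .inr (.inl (.inr p)) => .a p.1 p.2
        | .inr (.inr (.inl (.inl (.inl k)))) => .t k
        | .inr (.inr (.inl (.inl (.inr k)))) => .ta k
        | .inr (.inr (.inl (.inr k))) => .tf k
        | .inr (.inr (.inr (.inl (.inl i)))) => .q i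
        | .inr (.inr (.inr (.inl (.inr i)))) => .qa i
        | .inr (.inr (.inr (.inr p))) => .th p.1 p.2
      invFun := fun a => match a with
        | .m z c => .inl (.inl (.inl (z, c)))
        | .p z c => .inl (.inl (.inr (z, c)))
        | .x z c => .inl (.inr (.inl (z, c)))
        | .lo z c => .inl (.inr (.inr (z, c)))
        | .hi z c => .inr (.inl (.inl (.inl (z, c))))
        | .h z c => .inr (.inl (.inl (.inr (z, c))))
        | .a z c => .inr (.inl (.inr (z, c)))
        | .t k => .inr (.inr (.inl (.inl (.inl k))))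
        | .ta k => .inr (.inr (.inl (.inl (.inr k))))
        | .tf k => .inr (.inr (.inl (.inr k)))
        | .q i => .inr (.inr (.inr (.inl (.inl i))))
        | .qa i => .inr (.inr (.inr (.inl (.inr i))))
        | .th i l => .inr (.inr (.inr (.inr (i, l))))
      left_inv := by
        intro a
        rcases a with ((p | p) | (p | p)) | ((((p | p) | p)) | (((k | k) | k) | ((i | i) | p))) <;>
          rfl
      right_inv := by
        intro a
        cases a <;> rfl }
  exact Fintype.ofEquiv
    (((LReg S.N.C ⊕ S.N.CB) ⊕ ((S.N.C ⊕ S.N.C) ⊕ (S.N.C ⊕ S.N.C))) ⊕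
      ((S.L ⊕ S.L) ⊕ (S.L ⊕ S.L) ⊕ (S.L ⊕ S.L)) ⊕ Fin 6)
    { toFun := fun a => match a with
        | .inl (.inl (.inl r)) => .inn r
        | .inl (.inl (.inr k)) => .hw k
        | .inl (.inr (.inl (.inl c))) => .xp c
        | .inl (.inr (.inl (.inr c))) => .xx c
        | .inl (.inr (.inr (.inl c))) => .xl c
        | .inl (.inr (.inr (.inr c))) => .xh c
        | .inr (.inl (.inl (.inl l))) => .xo l
        | .inr (.inl (.inl (.inr l))) => .m l
        | .inr (.inl (.inr (.inl (.inl l)))) => .p l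
        | .inr (.inl (.inr (.inl (.inr l)))) => .y l
        | .inr (.inl (.inr (.inr (.inl l)))) => .yl l
        | .inr (.inl (.inr (.inr (.inr l)))) => .yh l
        | .inr (.inr 0) => .e
        | .inr (.inr 1) => .ea
        | .inr (.inr 2) => .nok
        | .inr (.inr 3) => .t
        | .inr (.inr 4) => .ta
        | .inr (.inr 5) => .tf
      invFun := fun a => match a with
        | .inn r => .inl (.inl (.inl r))
        | .hw k => .inl (.inl (.inr k))
        | .xp c => .inl (.inr (.inl (.inl c)))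
        | .xx c => .inl (.inr (.inl (.inr c)))
        | .xl c => .inl (.inr (.inr (.inl c)))
        | .xh c => .inl (.inr (.inr (.inr c)))
        | .xo l => .inr (.inl (.inl (.inl l)))
        | .m l => .inr (.inl (.inl (.inr l)))
        | .p l => .inr (.inl (.inr (.inl (.inl l))))
        | .y l => .inr (.inl (.inr (.inl (.inr l))))
        | .yl l => .inr (.inl (.inr (.inr (.inl l))))
        | .yh l => .inr (.inl (.inr (.inr (.inr l))))
        | .e => .inr (.inr 0)
        | .ea => .inr (.inr 1)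
        | .nok => .inr (.inr 2)
        | .t => .inr (.inr 3)
        | .ta => .inr (.inr 4)
        | .tf => .inr (.inr 5)
      left_inv := by
        intro a
        rcases a with ((r | k) | ((c | c) | (c | c))) | (((l | l) | (l | l) | (l | l)) | i)
        all_goals try rfl
        fin_cases i <;> rfl
      right_inv := by
        intro a
        cases a <;> rfl }

/-- The constants of the core. -/
structure CConst where
  /-- threshold and parameter of the inner network -/
  τ₀ : ℚ
  lam₀ : ℚ
  /-- threshold of the decoder -/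
  τ₁ : ℚ
  /-- threshold of the flag -/
  τ₂ : ℚ

/-- registers and inputs -/
abbrev CReg' (S : FSpec) : Type := CReg S ⊕ (S.K × S.L)

/-- A Boolean function of the inner network. -/
def innBit (B : BitDef (LReg S.N.C) S.N.Rd S.N.CB) : BitDef (CReg' S) S.Rd S.CB where
  ι := B.ι
  fι := B.fι
  inp i := match B.inp i with
    | .inl p => .inl (S.ofN p.1, .inl (.inn p.2))
    | .inr κ => .inl (S.self, .inl (.hw κ))
  f := B.f

/-- A definition of the inner network. -/
def innDef (lam₀ : ℚ) : MDef (LReg S.N.C) S.N.Rd S.N.CB → XDef (CReg' S) S.Rd S.CB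
  | .bit B => .bit (innBit B)
  | .thr α ρ => .thr α (.inl (.inn ρ))
  | .ra g ρ => .ra (some lam₀) g (.inl (.inn ρ))

/-- Definition of `m l`. -/
def mBit (l : S.L) : BitDef (CReg' S) S.Rd S.CB where
  ι := Option (Option S.DK)
  fι := inferInstance
  inp
    | none => .inl (S.self, .inl .nok)
    | some none => .inl (S.self, .inl (.xo l))
    | some (some k) => .inl (S.dRd k, .inl (.y l))
  f y := if y none = true then y (some none) else S.dF fun k => y (some (some k))

open Classical in
/-- Definition of `e`. -/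
noncomputable def eBit : BitDef (CReg' S) S.Rd S.CB where
  ι := Fin 4 × S.L
  fι := inferInstance
  inp a := .inl (S.self, .inl (if a.1 = 0 then .y a.2 else if a.1 = 1 then .yl a.2
    else if a.1 = 2 then .yh a.2 else .xo a.2))
  f y := decide (∃ l, (y (1, l) = true ∧ y (2, l) = false) ∨ y (0, l) ≠ y (3, l))

open Classical in
/-- Definition of `t`. -/
noncomputable def tBit : BitDef (CReg' S) S.Rd S.CB where
  ι := (Bool × S.N.C) ⊕ S.tt.ι
  fι := by
    haveI := S.tt.fι
    exact inferInstance
  inp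
    | .inl a => .inl (S.self, .inl (if a.1 then .xh a.2 else .xl a.2))
    | .inr i => match S.tt.inp i with
      | .inl p => .inl (p.1, .inl (.xx p.2))
      | .inr κ => .inr κ
  f y := decide ((∃ c, y (.inl (false, c)) = true ∧ y (.inl (true, c)) = false) ∨
    S.tt.f (fun i => y (.inr i)) = true)

/-- **The core network.** -/
noncomputable def coreDef (q : CConst) : CReg S → XDef (CReg' S) S.Rd S.CB
  | .inn ρ => innDef q.lam₀ (net S.N q.τ₀ ρ)
  | .hw κ => .bit (mapBit .inr id id (S.hw κ))
  | .xp c => .ra none false (.inl (.inn (.x false c)))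
  | .xx c => .thr (1 / 2) (.inl (.xp c))
  | .xl c => .thr (1 / 4) (.inl (.xp c))
  | .xh c => .thr (3 / 4) (.inl (.xp c))
  | .xo l => .bit (mapBit (fun c => .inl (.xx c)) id id (S.xo l))
  | .m l => .bit (mBit l)
  | .p l => .ra none false (.inl (.m l))
  | .y l => .thr (1 / 2) (.inl (.p l))
  | .yl l => .thr (1 / 4) (.inl (.p l))
  | .yh l => .thr (3 / 4) (.inl (.p l))
  | .e => .bit eBit
  | .ea => .ra none true (.inl .e)
  | .nok => .thr q.τ₁ (.inl .ea)
  | .t => .bit tBit
  | .ta => .ra none true (.inl .t)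
  | .tf => .thr q.τ₂ (.inl .ta)

/-- The values `x` obey the core network with the inputs `u`, up to `β`. -/
structure CObeys (I : FInst S) (q : CConst) (ε lam β : ℝ) (x : CReg S → I.W → ℝ)
    (u : S.K × S.L → I.W → ℝ) : Prop where
  mem : ∀ ρ ω, 0 ≤ x ρ ω ∧ x ρ ω ≤ 1
  rel : ∀ ρ, pr (fun ω => ¬ (coreDef q ρ).Rel I.sem ε lam (Sum.elim x u) (.inl ρ) ω) ≤ β

/-- **Soundness of the core**, for a class of instances. -/
structure CoreSound (S : FSpec) (Q : FInst S → Prop) (q : CConst) (ρc : ℝ) : Prop where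
  pos : 0 < ρc
  /-- clean inputs: the output is the code of the value of the function, there is no flag -/
  honest : ∀ ρ : ℝ, 0 < ρ → ∃ η : ℝ, 0 < η ∧ ∀ I : FInst S, Q I → ∀ ε lam β : ℝ,
    Small η ε lam β → ∀ (x : CReg S → I.W → ℝ) (u : S.K × S.L → I.W → ℝ),
    CObeys I q ε lam β x u → ∀ s : S.K → I.Bl,
      (∀ a, I.Clean ε ρc (s a) fun l => u (a, l)) →
      I.Clean ε ρ (I.F s) (fun l => x (.y l)) ∧ pr (fun ω => ¬ IsB ε false (x .tf ω)) ≤ ρ
  /-- arbitrary inputs: the output is the code of some block, or there is a flag -/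
  garbage : ∀ ρ : ℝ, 0 < ρ → ∃ η : ℝ, 0 < η ∧ ∀ I : FInst S, Q I → ∀ ε lam β : ℝ,
    Small η ε lam β → ∀ (x : CReg S → I.W → ℝ) (u : S.K × S.L → I.W → ℝ),
    CObeys I q ε lam β x u → pr (fun ω => IsB ε true (x .tf ω)) ≤ 1 / 2 →
      ∃ b : I.Bl, I.Clean ε ρ b (fun l => x (.y l))

/-- The class of the inner local codes. -/
def innClass (Q : FInst S → Prop) (L : LInst S.N) : Prop :=
  ∃ (I : FInst S) (s : S.K → I.Bl), Q I ∧ L = I.toL s

end Vale.Agent.P330.FM
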