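import Vale.Agent.P330.FM.PBits
import Vale.Agent.P330.FM.FSys

/-!
# Functional modules: the hard-wired bits of the inner code from public bits and streams

The bits of the absorbed kernels of the machine with the external bits `s` are Boolean functions
(`kerDef`) of the public bits `PB` and of the bits of the streams of the external words, read at the
points `(ρ, sh t y)`.  `hwX` is the field `hw` of the functional system, `hwX_ok` is its
correctness for the instances `famX C I σ ε s hI` for every `s`.
-/

namespace Vale.Agent.P330.FM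

open Finset PCP.AR
open Vale.Agent.P330.Q hiding net
open Vale.Agent.P330.H972 (codeX famX lowX)
open S (BitDef)

variable {nC B m : ℕ} (C : XC nC B m) (S : XSpec)

/-- Value of a literal, from the values of the code of the constant `1` and of the word. -/
def litV {F : Type*} [Add F] (one w : F) (b : Bool) : F := if b then w else one + w

/-- Inputs of a kernel bit: public kernel bits, bits of the constant `1`, bits of the streams. -/
abbrev KIn : Type := ((Fin B → Option (XCt S)) × C.K) ⊕ ((Fin B × C.K) ⊕ (Fin B × S.Ext × C.K))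

/-- names of the maps of the sites: raw reads, the reads of the streams -/
abbrev XRd : Type := (codeX C S).Raw ⊕ Fin B

/-- Definition of a bit of an absorbed kernel. -/
noncomputable def kerDef (c : Chn S.Cell (XVOut S)) (γ : Fin B → Option S.Cell) (l : C.K) :
    BitDef (S.Ext × C.K) (XRd C S) (PB C S) where
  ι := KIn C S
  fι := inferInstance
  inp
    | .inl p => .inr (.ker c p.1 p.2)
    | .inr (.inl p) => .inr (.one (some p.1) p.2)
    | .inr (.inr p) => .inl (.inr p.1, p.2)
  f y := decide (C.φ (l * absK (V := XVOut S) (Ext := S.Ext × Bool)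
    (fun _ g => bdec C.φ fun l' => y (.inl (g, l')))
    (fun d t => litV (bdec C.φ fun l' => y (.inr (.inl (t, l'))))
      (bdec C.φ fun l' => y (.inr (.inr (t, d.1, l')))) d.2) c γ) = 1)

/-- A copy of a public bit. -/
def cpyDef (v : PB C S) : BitDef (S.Ext × C.K) (XRd C S) (PB C S) where
  ι := Unit
  fι := inferInstance
  inp _ := .inr v
  f y := y ()

/-- **Definitions of the hard-wired bits of the inner code.** -/
noncomputable def hwX (κ : (codeX C S).spec.CB) : BitDef (S.Ext × C.K) (XRd C S) (PB C S) :=
  (fun κ : Unit ⊕ AV C.K S.Cell (XVOut S) B ⊕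
      (Chn S.Cell (XVOut S) × (Fin B → Option S.Cell) × C.K) => match κ with
    | .inl _ => cpyDef C S .start
    | .inr (.inl (.cT s)) => cpyDef C S (.cT s)
    | .inr (.inl .cR) => cpyDef C S .cR
    | .inr (.inl (.cS s i l)) => cpyDef C S (.cS s i l)
    | .inr (.inl (.K i γ l)) => kerDef C S i γ l
    | .inr (.inr p) => kerDef C S p.1 p.2.1 p.2.2) κ

variable {S}

section

variable {k : ℕ} (I : XInst S) (σ : XSlot S ≃ Fin B) (ε : I.J ≃ Addr k)
  (s : S.Ext → I.J → Bool)

/-- The literal `false` of an external word. -/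
theorem lit_false {F : Type*} [Field F] [CharP F 2] {Ext A : Type} (s : Ext → A → Bool) (d : Ext)
    (a : A) : (lit s (d, false) a : F) = 1 + lit s (d, true) a := by
  unfold lit
  have h2 : (1 : F) + 1 = 0 := CharTwo.add_self_eq_zero 1
  cases s d a <;> simp [h2]

/-- The words of the literals, from the word of the external bits and the code of the constant
`1`. -/
theorem xword_lit (d : S.Ext × Bool) (y : C.Y k) :
    xword (C.sys k) I ε s d y = litV (oneV C k y) (xword (C.sys k) I ε s (d.1, true) y) d.2 := by
  obtain ⟨d, b⟩ := d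
  cases b with
  | true => rfl
  | false =>
    show (C.sys k).code (lit (extA I ε s) (d, false)) y =
      (C.sys k).code (fun _ => (1 : C.K)) y + (C.sys k).code (lit (extA I ε s) (d, true)) y
    have e : (lit (extA I ε s) (d, false) : Addr k → C.K) =
        (fun _ => (1 : C.K)) + lit (extA I ε s) (d, true) := by
      funext a
      exact lit_false _ d a
    rw [e, map_add]
    rfl

variable {I σ ε s}

/-- **The kernel bits** are right if the inputs are. -/
theorem evB_kerDef {v : XRd C S → S.Ext × C.K → Bool} {cb : PB C S → Bool} {ρ y : C.Y k}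
    (c : Chn S.Cell (XVOut S)) (γ : Fin B → Option S.Cell) (l : C.K)
    (hker : ∀ g l', cb (.ker c g l') = decide (C.φ (l' * xker (C.sys k) I σ ε c g ρ y) = 1))
    (hone : ∀ t l', cb (.one (some t) l') =
      decide (C.φ (l' * oneV C k (shE (C.sys k) (2 * k * t) y)) = 1))
    (hv : ∀ t d l', v (.inr t) (d, l') =
      decide (C.φ (l' * xword (C.sys k) I ε s (d, true) (shE (C.sys k) (2 * k * t) y)) = 1)) :
    evB (kerDef C S c γ l) v cb =
      decide (C.φ (l * absK (fun c g => xker (C.sys k) I σ ε c g ρ y)
        (fun d (t : Fin B) => xword (C.sys k) I ε s d (shE (C.sys k) (2 * k * t) y)) c γ) = 1) := by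
  unfold evB
  show decide (C.φ (l * absK (V := XVOut S) (Ext := S.Ext × Bool)
    (fun _ g => bdec C.φ fun l' => cb (.ker c g l'))
    (fun d t => litV (bdec C.φ fun l' => cb (.one (some t) l'))
      (bdec C.φ fun l' => v (.inr t) (d.1, l')) d.2) c γ) = 1) = _
  have e1 : ∀ g, (bdec C.φ fun l' => cb (.ker c g l')) = xker (C.sys k) I σ ε c g ρ y := by
    intro g
    simp only [hker]
    exact bdec_decide C.φ C.φ_ne _
  have e2 : ∀ t, (bdec C.φ fun l' => cb (.one (some t) l')) =
      oneV C k (shE (C.sys k) (2 * k * t) y) := by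
    intro t
    simp only [hone]
    exact bdec_decide C.φ C.φ_ne _
  have e3 : ∀ t d, (bdec C.φ fun l' => v (.inr t) (d, l')) =
      xword (C.sys k) I ε s (d, true) (shE (C.sys k) (2 * k * t) y) := by
    intro t d
    simp only [hv]
    exact bdec_decide C.φ C.φ_ne _
  have e4 : ∀ t (d : S.Ext × Bool), litV (oneV C k (shE (C.sys k) (2 * k * t) y))
      (xword (C.sys k) I ε s (d.1, true) (shE (C.sys k) (2 * k * t) y)) d.2 =
      xword (C.sys k) I ε s d (shE (C.sys k) (2 * k * t) y) := fun t d =>
    (xword_lit C I ε s d _).symm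
  simp only [e1, e2, e3, e4]
  rfl

/-- **The hard-wired bits of the inner code are right**: `p` is the point, `v` the bits of the
streams at the moved sites, `cb` the public bits. -/
theorem hwX_ok (hI : I.Facts s) {v : XRd C S → S.Ext × C.K → Bool} {cb : PB C S → Bool}
    (p : (C.Y k × C.Y k) × (Comp S.Cell (XVOut S) (C.h k) → C.K))
    (hcb : ∀ c, cb c = pbit C I σ ε s hI c p)
    (hv : ∀ (t : Fin B) d l, v (.inr t) (d, l) =
      decide (C.φ (l * xword (C.sys k) I ε s (d, true) (shE (C.sys k) (2 * k * t) p.1.2)) = 1))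
    (κ : (codeX C S).spec.CB) :
    evB (hwX C S κ) v cb = (famX C I σ ε s hI).v κ p.1 p.2 := by
  have hk : ∀ (c : Chn S.Cell (XVOut S)) (γ : Fin B → Option S.Cell) (l : C.K),
      evB (kerDef C S c γ l) v cb =
        decide (C.φ (l * (xdata (C.sys k) I σ ε s hI).K c γ p.1.1 p.1.2) = 1) := fun c γ l =>
    evB_kerDef C c γ l (fun g l' => hcb _) (fun t l' => hcb _) fun t d l' => hv t d l'
  change Unit ⊕ AV C.K S.Cell (XVOut S) B ⊕
    (Chn S.Cell (XVOut S) × (Fin B → Option S.Cell) × C.K) at κ
  rcases κ with _ | (s' | _ | ⟨s', i, l⟩ | ⟨i, γ, l⟩) | ⟨i, γ, l⟩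
  · exact hcb _
  · exact hcb _
  · exact hcb _
  · exact hcb _
  · exact hk i γ l
  · exact hk i γ l

end

end Vale.Agent.P330.FM
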