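import Vale.Agent.P330.H972.FInstD
import Vale.Agent.P330.FM.XHw

/-!
# The hard-wired bits of the concrete functional system

`finst_hw`: the field `hw_ok` of `FInst.Facts` for the family `finst`, if the definitions of the
hard-wired bits are `hwX`.
-/

namespace Vale.Agent.P330.FM

open Finset PCP.AR Vale.Agent.Lib.PolyTime
open Vale.Agent.P330.Q hiding net
open Vale.Agent.P330.H972 Vale.Agent.P330.FM.TM
open Vale.Agent.P330.H800 (Tab)
open Vale.Agent.P330.H475 (Wd toWd)

section

variable {kk mm : ℕ} {τ : Tab kk} {C : XC (nCm τ) (nBm τ) mm} (d : FDefs C)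
  (c : ℕ) {α : Type} [Enc α] {m : α → ℕ} (hm : PT ∅ m) (hb : PBd m) (a : α)

/-- **The hard-wired bits of the inner code.** -/
theorem finst_hw (hd : d.hw = hwX C (spec τ)) (s : Fin kk → (finst d c hm hb a).Bl)
    (κ : (fspec d).N.CB) (ω : (finst d c hm hb a).W) :
    evB ((fspec d).hw κ)
      (fun R x => (finst d c hm hb a).enc (s x.1) x.2 ((finst d c hm hb a).rd R ω).1)
      (fun v => (finst d c hm hb a).cb v ω) = (finst d c hm hb a).icb s κ ω := by
  have h1 : (fspec d).hw κ = hwX C (spec τ) κ := congrFun hd κ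
  rw [h1]
  refine hwX_ok C (I := inst τ (good_aOf c (m a))) (σ := σm τ) (ε := epsZ (2 * aOf c (m a)))
    (s := bitsB c s) (facts (good_aOf c (m a)) _) ω.1 (fun v => ?_) (fun t e l => ?_) κ
  · exact (mmf C c hm hb).pb_eq a (bitsB c s) (facts (good_aOf c (m a)) _) v ω.1
  · rfl

end

end Vale.Agent.P330.FM
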