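import Vale.Agent.P330.FM.FTTi
import Vale.Agent.P330.FM.FPlug
import Vale.Agent.P330.FM.HwF
import Vale.Agent.P330.FM.FinCore

/-!
# The facts of the concrete functional system

`finst_facts`: the instances `finst (defsM C) c hm hb a` satisfy `FInst.Facts`.
`ttSoundM`: soundness of the flag for the class of all these instances.  `modHypM`: soundness of the
core.
-/

namespace Vale.Agent.P330.FM

open Finset PCP.AR Vale.Agent.Lib.PolyTime
open Vale.Agent.P330.Q hiding net
open Vale.Agent.P330.H972 Vale.Agent.P330.FM.TM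
open Vale.Agent.P330.H800 (Tab)

section

variable {kk mm : ℕ} {τ : Tab kk} (C : XC (nCm τ) (nBm τ) mm) (c : ℕ) {α : Type} [Enc α]
  {m : α → ℕ} (hm : PT ∅ m) (hb : PBd m) (a : α)

/-- **The facts of the instances.** -/
theorem finst_facts : (finst (defsM C) c hm hb a).Facts (ρX C (spec τ)) (73 / 80) :=
  finst_facts_of (defsM C) c hm hb a (finst_hw (defsM C) c hm hb a rfl)
    (finst_xo_ok (defsM C) c hm hb a fun _ => rfl) (finst_tt_ok (defsM C) c hm hb a rfl)

/-- **Soundness of the flag.** -/
theorem ttSoundM : TTSound (fspec (defsM C)) (ClassF (defsM C)) :=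
  ttSound_classF (defsM C) rfl fun _ => rfl

/-- **Soundness of the core.** -/
theorem modHypM : ∃ (q : CConst) (ρc : ℝ), q.Ok ∧
    ModHyp (fspec (defsM C)) (ClassF (defsM C)) q ρc (73 / 80) := by
  refine exists_modHyp (defsM C) ?_ (ttSoundM C)
  rintro I ⟨c, α, _, m, hm, hb, a, rfl⟩
  exact finst_facts C c hm hb a

end

end Vale.Agent.P330.FM
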