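import Vale.Agent.P330.H838.FDat
import Vale.Agent.P330.H972.FNum
import Vale.Agent.P330.FM.FEqC

/-!
# The numbers of the concrete family of modules

`fnumC : FNums` of the concrete family of functional systems, `numsC` of the family of modules.
-/

namespace Vale.Agent.P330.FM

open Finset Vale.Agent.Lib.PolyTime Vale.Agent.P330.Q PCP.AR
open Vale.Agent.P330.H972
open Vale.Agent.P330.FM.TM
open Vale.Agent.P330.H800 (Tab)
open Vale.Agent.P330.H475 (Wd wd toWd wd0 FData)
open Vale.Agent.P330.H838 (FNums)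

section

variable {kk mm : ℕ} {τ : Tab kk} {C : XC (nCm τ) (nBm τ) mm} (d : FDefs C)
  (c : ℕ) {α : Type} [Enc α] {m : α → ℕ} (hm : PT ∅ m) (hb : PBd m)

/-- **The numbers of the concrete family.** -/
noncomputable def fnumC : FNums (S := fspec d) (m := m) (finst d c hm hb)
    (fun a => Equiv.refl (Wd (m a))) where
  fCB := inferInstanceAs (Fintype (PB C (spec τ)))
  nP := FN.nP c hm hb C
  nZ := FN.nZ c hm hb C
  nP_pt := FN.PT_nP c hm hb
  nZ_pt := FN.PT_nZ c hm hb
  size := FN.size c hm hb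
  eP := FN.eP d c hm hb
  eZ := FN.eZ d c hm hb
  encN := FN.encN c hm hb C
  encN_pt := FN.PT_encN c hm hb
  encN_eq := FN.encN_eq d c hm hb
  sPN := FN.sPN c hm hb C
  sPN_pt := FN.PT_sPN c hm hb
  sPN_eq := FN.sPN_eq d c hm hb
  sZN := FN.sZN c hm hb C
  sZN_pt := FN.PT_sZN c hm hb
  sZN_eq := FN.sZN_eq d c hm hb
  rdN := FN.rdN c hm hb C
  rdN_pt := FN.PT_rdN c hm hb
  rdN_eq := FN.rdN_eq d c hm hb
  cbN := FN.cbN c hm hb C
  cbN_pt := FN.PT_cbN c hm hb
  cbN_eq := FN.cbN_eq d c hm hb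

end

section

variable {K mm : ℕ} {τ : Tab (K + 2)} {C : XC (nCm τ) (nBm τ) mm} (d : FDefs C)
  (c : ℕ) {α : Type} [Enc α] {m : α → ℕ} (hm : PT ∅ m) (hb : PBd m)

/-- **The numbers of the concrete family of modules.** -/
noncomputable def numsC (q : CConst) (τv : ℚ) (own : Fin K) : (fdatC d c hm hb q τv own).Nums :=
  H838.numsF (Equiv.refl (Fin (K + 2))) q τv own (fnumC d c hm hb) hm hb

end

end Vale.Agent.P330.FM
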