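import Vale.Agent.P330.FM.Absorb

/-!
# Functional module: the state of a word over arbitrary streams

A word `G` which satisfies the identities of the regrouped kernels, whose side `A` is full and whose
own words agree on both sides, is the word of a good state for the streams which it contains.
-/

namespace Vale.Agent.P330.FM

open Finset
open Vale.Agent.P330.Q
open scoped BigOperators

section congr

variable {F : Type*} [Field F] {h B : ℕ} {Y Cell V X X' : Type*} [AddCommGroup Y]
  [Fintype Cell] [DecidableEq Cell]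

/-- The same domain, up to the configurations. -/
structure SameDom (M : DomData F h B Y Cell V X) (M' : DomData F h B Y Cell V X') : Prop where
  θ : M'.θ = M.θ
  e0 : M'.e0 = M.e0
  sh : M'.sh = M.sh

/-- The same chains. -/
structure SameK (M : DomData F h B Y Cell V X) (M' : DomData F h B Y Cell V X') : Prop
    extends SameDom M M' where
  K : M'.K = M.K

variable {M : DomData F h B Y Cell V X} {M' : DomData F h B Y Cell V X'}

theorem SameK.v0 (H : SameK M M') : M'.v0 = M.v0 := by
  funext c W ρ y
  unfold DomData.v0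
  rw [H.K, H.sh]

theorem SameK.vv (H : SameK M M') (c : Chn Cell V) (W : Cell → Y → F) (n : ℕ) :
    M'.vv c W n = M.vv c W n := by
  induction n with
  | zero =>
    show M'.v0 c W = M.v0 c W
    rw [H.v0]
  | succ n ih =>
    funext ρ y
    rw [DomData.vv_succ, DomData.vv_succ, ih, H.θ, H.e0]

theorem SameK.rv0 (H : SameK M M') : M'.rv0 = M.rv0 := by
  funext G σ c p
  unfold DomData.rv0
  rw [H.K, H.sh]

/-- The identities do not depend on the configurations. -/
theorem SameK.ids (H : SameK M M') {G : Y × Y → Comp Cell V h → F} (hG : M.Ids G) :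
    M'.Ids G := by
  refine ⟨hG.rel_const, hG.rel_sq, hG.T_const, hG.T_mul, hG.W_ind, fun ρ y σ c j => ?_,
    hG.some_full, hG.full_val, hG.full_id, hG.full_other⟩
  rw [H.θ, H.e0, H.rv0]
  exact hG.stack ρ y σ c j

end congr

section state

variable {F : Type*} [Field F] {h B : ℕ} {Y Cell V Ext X : Type*} [AddCommGroup Y]
  [Fintype Cell] [DecidableEq Cell] [Fintype Ext]

/-- The base of a full side satisfies the identities of a configuration. -/
theorem full_base {M : DomData F h B Y Cell V X} {G : Y × Y → Comp Cell V h → F} (hG : M.Ids G)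
    (σ : Bool) (hT : ∀ p, G p (.T σ (Fin.last h)) = 1) :
    (∀ e ρ y, M.vv (.id e) (fun e y => G (0, y) (.W σ e)) h ρ y = G (0, ρ) (.W σ e)) ∧
    ∀ i ρ y, M.vv (.val i) (fun e y => G (0, y) (.W σ e)) h ρ y = 0 := by
  obtain ⟨H, hH, hTH⟩ := hG.exists_ht σ
  have hH1 : H = h + 1 := by
    have h1 := hT (0, 0)
    rw [hTH] at h1
    by_contra h2
    rw [if_neg] at h1
    · exact zero_ne_one h1
    · simp only [Fin.val_last]
      omega
  subst hH1
  have hW : ∀ ρ y e, G (ρ, y) (.W σ e) = (fun e y => G (0, y) (.W σ e)) e y :=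
    fun ρ y e => hG.W_ind ρ 0 y σ e
  constructor
  · intro e ρ y
    have h1 := hG.full_id ρ y σ e
    rw [hT, one_mul, sub_eq_zero, hG.top_eq σ hTH hW, hW] at h1
    exact h1
  · intro i ρ y
    have h1 := hG.full_val (ρ, y) σ i
    rw [hT, one_mul, hG.top_eq σ hTH hW] at h1
    exact h1

/-- **The state of a word over arbitrary streams.**  `MS s` is the domain for the streams `s`, with
the external words `E s`; `hown` is the fact about the machine: the base of a full side contains
streams. -/
theorem garbage_state {Str X₀ : Type*} {M : DomData F h B Y Cell V X₀}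
    {K : Chn Cell V → (Fin B → Option (Cell ⊕ Ext)) → Y → Y → F} {own : Ext → Cell → Bool}
    {MS : Str → Dom F h B Y Cell V X} {E : Str → Ext → Y → F}
    (hMS : ∀ s, SameK (setK M (absorb K M.sh (E s))) (MS s).toDomData)
    (hown : ∀ W : Cell → Y → F,
      (∀ e ρ y, (setK M (regroup own K)).vv (.id e) W h ρ y = W e ρ) →
      (∀ i ρ y, (setK M (regroup own K)).vv (.val i) W h ρ y = 0) →
      ∃ s, ∀ d y, ownW own (fun e => W e y) d = E s d y)
    {G : Y × Y → Comp Cell V h → F} (hG : (setK M (regroup own K)).Ids G)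
    (hT : ∀ p, G p (.T false (Fin.last h)) = 1)
    (hside : ∀ σ d p, ownW own (fun e => G p (.W σ e)) d =
      ownW own (fun e => G p (.W false e)) d) :
    ∃ s st, (MS s).D.VE (h + 1) st ∧ G = (MS s).toDomData.word st ∧ st.ht false = h + 1 ∧
      ∀ σ d p, ownW own (fun e => G p (.W σ e)) d = E s d p.2 := by
  obtain ⟨h1, h2⟩ := full_base hG false hT
  obtain ⟨s, hs⟩ := hown _ h1 h2
  have hE : ∀ σ d ρ y, ownW own (fun e => G (ρ, y) (.W σ e)) d = E s d y := by
    intro σ d ρ y
    rw [hside, ← hs d y]
    congr 1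
    funext e
    exact hG.W_ind ρ 0 y false e
  have h3 : (MS s).toDomData.Ids G := (hMS s).ids ((ids_absorb_iff M hE).2 hG)
  obtain ⟨st, hst, rfl⟩ := (MS s).sound h3
  refine ⟨s, st, hst, rfl, ?_, fun σ d p => hE σ d p.1 p.2⟩
  have h4 := hT (0, 0)
  simp only [DomData.word, Fin.val_last] at h4
  by_contra h5
  rw [if_neg fun e => h5 e.symm] at h4
  exact zero_ne_one h4

end state

end Vale.Agent.P330.FM
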