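import Vale.Agent.P330.FM.Garb
import Vale.Agent.P330.FM.GState
import Vale.Agent.P330.Q.LowFacts

/-!
# Functional module: the flag test

The test of the identities for arbitrary data (`DomData`, no configurations), together with linear
checks.  `mkInst2`: the instance of the code, its configurations are all words of low degree, valid
are those which satisfy the identities.  `flag_complete`, `flag_sound`.
-/

namespace Vale.Agent.P330.FM

open Finset PCP.AR
open Vale.Agent.P330.Q Vale.Agent.P330.Q.TS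
open Vale.Agent.P318.S (PolyLe Low)
open Vale.Agent.P330.S (b2)
open scoped BigOperators

/-! ### Words which satisfy the identities have low degree -/

section low

variable {F : Type*} [Field F] {h B : ℕ} {Y Cell V X ι : Type*} [AddCommGroup Y]
  [Fintype Cell] [DecidableEq Cell] {M : DomData F h B Y Cell V X} {ρ : ι → F →+ Y} {t : ℕ}

/-- Degree of the chains in the first argument. -/
theorem vv_low1 (hK : ∀ c γ ρ₀ y i, PolyLe F (fun u => M.K c γ (ρ₀ + ρ i u) y) t)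
    (c : Chn Cell V) (W : Cell → Y → F) (n : ℕ) (ρ₀ y : Y) (i : ι) :
    PolyLe F (fun u => M.vv c W n (ρ₀ + ρ i u) y) t := by
  induction n generalizing y with
  | zero =>
    show PolyLe F (fun u => M.v0 c W (ρ₀ + ρ i u) y) t
    unfold DomData.v0
    refine PolyLe.sum _ fun γ _ => ?_
    refine ((hK c γ ρ₀ y i).const_smul (∏ t, optv (fun e => W e (M.sh t y)) (γ t))).congr
      fun u => ?_
    rw [smul_eq_mul, mul_comm]
  | succ n ih => exact (ih (M.θ y)).add (ih (M.θ y + M.e0))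

/-- **Words which satisfy the identities have low degree.** -/
theorem ids_low (H : DegData M ρ t)
    (hK : ∀ c γ ρ₀ y i, PolyLe F (fun u => M.K c γ (ρ₀ + ρ i u) y) t)
    {G : Y × Y → Comp Cell V h → F} (hG : M.Ids G) (p : Y × Y) (i : ι × ι)
    (k : Comp Cell V h) : PolyLe F (fun u => G (p + pdir ρ ρ i u) k) ((B + 2) * t) := by
  have ht : t ≤ (B + 2) * t := Nat.le_mul_of_pos_left t (by omega)
  choose Ht hHt hT using fun σ => hG.exists_ht σ
  -- a full side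
  obtain ⟨σ, hσ⟩ : ∃ σ, Ht σ = h + 1 := by
    by_contra hcon
    push Not at hcon
    have h1 := hG.some_full (0, 0)
    rw [hT, hT, if_neg, if_neg] at h1
    · simp at h1
    · have := hcon true
      simp only [Fin.val_last]
      omega
    · have := hcon false
      simp only [Fin.val_last]
      omega
  have hTσ := hT σ
  rw [hσ] at hTσ
  have hT1 : ∀ p, G p (.T σ (Fin.last h)) = 1 := fun p => by rw [hTσ]; simp
  have hW : ∀ τ ρ y e, G (ρ, y) (.W τ e) = (fun e y => G (0, y) (.W τ e)) e y :=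
    fun τ ρ y e => hG.W_ind ρ 0 y τ e
  have hb1 := full_base hG σ hT1
  have hlow1 : ∀ e y j, PolyLe F (fun u => G (0, y + ρ j u) (.W σ e)) t := by
    intro e y j
    exact (vv_low1 hK (.id e) (fun e y => G (0, y) (.W σ e)) h y 0 j).congr fun u =>
      (hb1.1 e (y + ρ j u) 0).symm
  have hlow2 : ∀ e y j, PolyLe F (fun u => G (0, y + ρ j u) (.W (!σ) e)) t := by
    intro e y j
    have h3 : ∀ y, G (0, y) (.W (!σ) e) =
        G (0, 0) .rel * M.vv (.st σ e) (fun e y => G (0, y) (.W σ e)) h y 0 +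
        (1 - G (0, 0) .rel) * M.vv (.id e) (fun e y => G (0, y) (.W σ e)) h y 0 := by
      intro y
      have h1 := hG.full_other 0 y σ e
      rw [hT1, one_mul, sub_eq_zero, hG.top_eq σ hTσ (hW σ), hG.top_eq σ hTσ (hW σ),
        hG.rel_const (0, y) (0, 0)] at h1
      exact h1
    refine PolyLe.congr ?_ fun u => h3 (y + ρ j u)
    exact ((vv_low1 hK (.st σ e) _ h y 0 j).const_smul (G (0, 0) .rel)).add
      ((vv_low1 hK (.id e) _ h y 0 j).const_smul (1 - G (0, 0) .rel))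
  have hlowW : ∀ τ e y j, PolyLe F (fun u => G (0, y + ρ j u) (.W τ e)) t := by
    intro τ
    by_cases hτ : τ = σ
    · subst hτ; exact hlow1
    · have : τ = !σ := Bool.eq_not.2 hτ
      subst this; exact hlow2
  obtain ⟨p1, p2⟩ := p
  cases k with
  | W τ e =>
    refine ((hlowW τ e p2 i.2).mono ht).congr fun u => ?_
    exact hG.W_ind _ _ _ _ _
  | S τ c j =>
    refine PolyLe.congr (g := fun u => if (j : ℕ) < Ht τ then
      M.vv c (fun e y => G (0, y) (.W τ e)) (Ht τ - 1 - j) (p1 + ρ i.1 u) (p2 + ρ i.2 u) else 0)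
      ?_ fun u => hG.stack_eq' τ (hHt τ) (hT τ) (hW τ) c j _ _
    split_ifs
    · exact H.vv_low c _ (hlowW τ) _ p1 p2 i.1 i.2
    · exact PolyLe.zero _
  | T τ j => exact (PolyLe.const (G (p1, p2) (.T τ j)) _).congr fun u => hG.T_const _ _ _ _
  | rel => exact (PolyLe.const (G (p1, p2) .rel) _).congr fun u => hG.rel_const _ _

/-- Words which satisfy the identities have low degree. -/
theorem ids_Low (H : DegData M ρ t)
    (hK : ∀ c γ ρ₀ y i, PolyLe F (fun u => M.K c γ (ρ₀ + ρ i u) y) t)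
    {G : Y × Y → Comp Cell V h → F} (hG : M.Ids G) {d : ℕ} (hd : (B + 2) * t ≤ d)
    (p : Y × Y) (i : ι × ι) : Low d fun u : F => G (p + pdir ρ ρ i u) :=
  low_iff.2 (PolyLe.pi fun k => (ids_low H hK hG p i k).mono hd)

end low

/-! ### The instance -/

section inst

variable {F : Type} [Field F] [Fintype F] [DecidableEq F] [CharP F 2] {Cell V Dg Ξ : Type}
  [Fintype Cell] [DecidableEq Cell] [Fintype V] [DecidableEq V] [Fintype Dg]
  {h B : ℕ} {Y X : Type}
  [AddCommGroup Y] [Fintype Y] [DecidableEq Y] {φ : F →+ ZMod 2} {hφ : φ ≠ 0} {D : ℕ}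
  {hD : Fintype.card F ≤ 2 * D + 1} {hD2 : D + 2 ≤ Fintype.card F} {ι : Type} [Fintype ι]
  [Nonempty ι] {T : THalf}

/-- The instance of the code for arbitrary data `M`: the configurations are the words of low
degree, valid are those which satisfy the identities. -/
noncomputable def mkInst2 (M : DomData F h B Y Cell V X) (l₁ : F) (TI : TInst T F Y Cell V h)
    (r : ι → F →+ Y × Y) (h2 : ∀ y : Y, y + y = 0) :
    CInst (mkCode Cell V B φ hφ D hD hD2 T) where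
  Y := Y × Y
  gY := inferInstance
  fY := inferInstance
  dY := inferInstance
  exp2 _ := Prod.ext (h2 _) (h2 _)
  ι := ι
  fι := inferInstance
  nι := inferInstance
  r := r
  R := Comp Cell V h
  fR := inferInstance
  dR := inferInstance
  g
    | .inl none => Equiv.refl _
    | .inl (some k) => k.mv M
    | .inr none => Equiv.refl _
    | .inr (some k) => TI.g k
  A
    | .inl none, _, c => c
    | .inl (some k), _, c => k.fn l₁ c
    | .inr none, _, c => c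
    | .inr (some k), p, c => TI.A k p c
  g_k0 _ := rfl
  g_kt0 _ := rfl
  A_k0 _ _ := rfl
  A_kt0 _ _ := rfl
  v
    | .inl (), _, _ => false
    | .inr (.inl v), p, c => decide (AV.val M φ c p v = 1)
    | .inr (.inr v), p, c => TI.v v p c
  St := {G : Y × Y → Comp Cell V h → F //
    ∀ i p, Low (Fintype.card F - 2 - D) fun u : F => G (p + r i u)}
  Val G := M.Ids G.1
  st0 := ⟨0, fun _ _ => low_iff.2 (PolyLe.zero _)⟩
  step _ G := G
  sec G := G.1

/-- The words of the configurations are words. -/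
theorem mkInst2_low (M : DomData F h B Y Cell V X) (l₁ : F) (TI : TInst T F Y Cell V h)
    (r : ι → F →+ Y × Y) (h2 : ∀ y : Y, y + y = 0) :
    ∀ st, (mkInst2 M l₁ TI r h2 : CInst (mkCode Cell V B φ hφ D hD hD2 T)).IsWord
      ((mkInst2 M l₁ TI r h2 : CInst (mkCode Cell V B φ hφ D hD hD2 T)).sec st) :=
  fun st => st.2

/-- The values of the atoms, from the bits of a word. -/
theorem vals_bitc2 (hφ' : φ ≠ 0) (M : DomData F h B Y Cell V X) (l₁ : F) (dg : Dg → Y)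
    (r : ι → F →+ Y × Y) (h2 : ∀ y : Y, y + y = 0) (s : Y × Y → Comp Cell V h → F)
    (x : (Y × Y) × (Comp Cell V h → F)) :
    vals φ (fun k => bitc (mkInst2 M l₁ (tInst M dg φ) r h2 :
        CInst (mkCode Cell V B φ hφ D hD hD2 (tHalf Cell V Dg B φ))) s (.inr k) x) =
      M.atv dg s x.1 x.2 := by
  funext a
  have h5 : ∀ l : F, bitc (mkInst2 M l₁ (tInst M dg φ) r h2 :
        CInst (mkCode Cell V B φ hφ D hD hD2 (tHalf Cell V Dg B φ))) s (.inr (some (a, l))) x =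
      decide (φ (l * M.atv dg s x.1 x.2 a) = 1) := by
    intro l
    show decide (φ (∑ j, (l • fn x.2 a.1) j * s (M.mv dg a.2 x.1) j) = 1) = _
    unfold DomData.atv
    rw [Finset.mul_sum]
    have h3 : ∀ j, (l • fn x.2 a.1) j * s (M.mv dg a.2 x.1) j =
        l * (fn x.2 a.1 j * s (M.mv dg a.2 x.1) j) := fun j => by
      rw [Pi.smul_apply, smul_eq_mul, mul_assoc]
    simp only [h3]
  exact (congrArg (bdec φ) (funext h5)).trans (bdec_decide φ hφ' _)

/-- The kernel values, from the public bits. -/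
theorem ker_bits (hφ' : φ ≠ 0) (M : DomData F h B Y Cell V X) (l₁ : F) (dg : Dg → Y)
    (r : ι → F →+ Y × Y) (h2 : ∀ y : Y, y + y = 0)
    (x : (Y × Y) × (Comp Cell V h → F)) :
    (fun c γ => bdec φ fun l => (mkInst2 M l₁ (tInst M dg φ) r h2 :
        CInst (mkCode Cell V B φ hφ D hD hD2 (tHalf Cell V Dg B φ))).v
          (.inr (.inr (c, γ, l))) x.1 x.2) = fun c γ => M.K c γ x.1.1 x.1.2 := by
  funext c γ
  show (bdec φ fun l => decide (φ (l * M.K c γ x.1.1 x.1.2) = 1)) = _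
  exact bdec_decide φ hφ' _

end inst

/-! ### Soundness -/

section flag

variable {F : Type} [Field F] [Fintype F] [DecidableEq F] [CharP F 2] {Cell V Dg Ξ : Type}
  [Fintype Cell] [DecidableEq Cell] [Fintype V] [DecidableEq V] [Fintype Dg]
  {h B : ℕ} {Y X : Type}
  [AddCommGroup Y] [Fintype Y] [DecidableEq Y] {φ : F →+ ZMod 2} {hφ : φ ≠ 0} {D : ℕ}
  {hD : Fintype.card F ≤ 2 * D + 1} {hD2 : D + 2 ≤ Fintype.card F} {ι : Type} [Fintype ι]
  [Nonempty ι] {ρ : ι → F →+ Y} {t : ℕ}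

omit [DecidableEq Y] in
/-- The identities and the linear checks hold everywhere if the tests of a word fail rarely. -/
theorem flag_core {Z : Type} [Fintype Z] [Nonempty Z]
    (hφ' : φ ≠ 0) (M : DomData F h B Y Cell V X) (dg : Dg → Y) (h2 : ∀ y : Y, y + y = 0)
    (H : DegData M ρ t) (hgen : M.Gen dg)
    {lam κ δ η τ : ℝ} (h0 : 0 ≤ lam) (hb : Spr (pdir ρ ρ) lam)
    {lc : Ξ → Fn Cell V × Mv B Dg → F} {π : Ξ → Y × Y → F} {d d' : ℕ}
    (hd' : 2 * t + (B + 3) * (2 + d) ≤ d')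
    (hπ : ∀ ξ p i, PolyLe F (fun u => π ξ (p + pdir ρ ρ i u)) d')
    (hκ : (Fintype.card (Fn Cell V × Mv B Dg) : ℝ) * κ < 1)
    (hτ' : δ + η ≤ τ)
    (hτ : τ < (1 - (d' : ℝ) / ((Fintype.card F : ℝ) - 1)) *
      (1 - Fintype.card (Fn Cell V × Mv B Dg) * κ) - lam)
    {G : Y × Y → Comp Cell V h → F} {J : Finset (ι × ι)}
    (hJ : (1 - κ) * Fintype.card (ι × ι) ≤ #J)
    (hlow : ∀ i ∈ J, ∀ y, Low d fun u : F => G (y + pdir ρ ρ i u))
    (rd : ((Y × Y) × (Comp Cell V h → F)) × Z → Option ((Fn Cell V × Mv B Dg) × F) → Bool)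
    (hT : pr (fun ω : ((Y × Y) × (Comp Cell V h → F)) × Z =>
      (∃ m : Df Cell V Dg, defect (fun c γ => M.K c γ ω.1.1.1 ω.1.1.2)
        (vals φ (rd ω)) m ≠ 0) ∨
      LinFail φ lc (rd ω) (fun ξ l => decide (φ (l * π ξ ω.1.1) = 1))) ≤ δ)
    (herr : pr (fun ω : ((Y × Y) × (Comp Cell V h → F)) × Z =>
      ∃ a, vals φ (rd ω) a ≠ M.atv dg G ω.1.1 ω.1.2 a) ≤ η) :
    M.Ids G ∧ ∀ ξ p c, ∑ a, lc ξ a * M.atv dg G p c a = π ξ p := by
  classical
  set Bad : ((Y × Y) × (Comp Cell V h → F)) × Z → Prop := fun ω =>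
      ((∃ m : Df Cell V Dg, defect (fun c γ => M.K c γ ω.1.1.1 ω.1.1.2)
        (vals φ (rd ω)) m ≠ 0) ∨
      LinFail φ lc (rd ω) (fun ξ l => decide (φ (l * π ξ ω.1.1) = 1))) ∨
      ∃ a, vals φ (rd ω) a ≠ M.atv dg G ω.1.1 ω.1.2 a with hBad
  have hBad1 : pr Bad ≤ τ := ((pr_or _ _).trans (add_le_add hT herr)).trans hτ'
  have hval : ∀ ω, ¬ Bad ω → vals φ (rd ω) = M.atv dg G ω.1.1 ω.1.2 := by
    intro ω hω
    funext a
    by_contra hk
    exact hω (Or.inr ⟨a, hk⟩)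
  have hlin : ∀ ω, ¬ Bad ω → ∀ ξ, ∑ a, lc ξ a * M.atv dg G ω.1.1 ω.1.2 a = π ξ ω.1.1 := by
    intro ω hω ξ
    by_contra hk
    refine hω (Or.inl (Or.inr ⟨ξ, fun h5 => hk ?_⟩))
    rw [bdec_decide φ hφ', hval ω hω] at h5
    exact h5
  have htest : ∀ ω, ¬ Bad ω → ∀ m : Df Cell V Dg,
      defect (fun c γ => M.K c γ ω.1.1.1 ω.1.1.2) (M.atv dg G ω.1.1 ω.1.2) m = 0 := by
    intro ω hω m
    by_contra hk
    refine hω (Or.inl (Or.inl ⟨m, ?_⟩))
    rw [hval ω hω]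
    exact hk
  have hEn : Nonempty (Comp Cell V h → F) := ⟨fun _ => 0⟩
  have hYn : Nonempty Y := ⟨0⟩
  have hpr : ∀ P : (Y × Y) × (Comp Cell V h → F) → Prop,
      (∀ ω : ((Y × Y) × (Comp Cell V h → F)) × Z, ¬ Bad ω → P ω.1) →
      pr (fun x => ¬ P x) ≤ τ := by
    intro P hP
    rw [← pr_fst (Ω' := Z) (fun x => ¬ P x)]
    refine (pr_mono fun ω hω => ?_).trans hBad1
    by_contra hk
    exact hω (hP ω hk)
  refine ⟨?_, ?_⟩
  · refine DomData.ids_of_defect (dg := dg) hgen fun p c m => ?_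
    exact atoms_exact H dg h2 h0 hb (d' := d') hJ hlow
      (fun x v => defect (fun ch γ => M.K ch γ x.1.1 x.1.2) v m)
      (fun x i v hv => (defect_low (fun c γ => H.K_low c γ x.1.1 x.1.2 i.1.1 i.1.2) hv m).mono hd')
      (hpr _ fun ω h3 => htest ω h3 m) hκ hτ (p, c)
  · intro ξ p c
    have h3 := atoms_exact H dg h2 h0 hb (d' := d') hJ hlow
      (fun x v => ∑ a, lc ξ a * v a - π ξ x.1)
      (fun x i v hv => ?_)
      (hpr _ fun ω h3 => sub_eq_zero.2 (hlin ω h3 ξ)) hκ hτ (p, c)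
    · exact sub_eq_zero.1 h3
    · refine PolyLe.sub (PolyLe.sum _ fun a _ => ((hv a).const_smul (lc ξ a)).mono ?_)
        (hπ ξ x.1 i.1)
      refine le_trans ?_ hd'
      nlinarith [Nat.zero_le (2 * t), Nat.zero_le (B * (2 + d))]

/-- The flag test at a site: the test of the code with the public bits of `M`, and the linear
checks. -/
def FlagFail (hφ : φ ≠ 0) (hD : Fintype.card F ≤ 2 * D + 1) (hD2 : D + 2 ≤ Fintype.card F)
    (M : DomData F h B Y Cell V X) (l₁ : F) (dg : Dg → Y) (r : ι → F →+ Y × Y)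
    (h2 : ∀ y : Y, y + y = 0) (lc : Ξ → Fn Cell V × Mv B Dg → F) (π : Ξ → Y × Y → F)
    (f : (Y × Y) × (Comp Cell V h → F) → Bool)
    (ω : ((Y × Y) × (Comp Cell V h → F)) × QPad F (Comp Cell V h) ι D) : Prop :=
  (mkCode Cell V B φ hφ D hD hD2 (tHalf Cell V Dg B φ)).spec.tF
      (rawT (mkInst2 M l₁ (tInst M dg φ) r h2) f ω)
      (fun v => (mkInst2 M l₁ (tInst M dg φ) r h2 :
        CInst (mkCode Cell V B φ hφ D hD hD2 (tHalf Cell V Dg B φ))).v v ω.1.1 ω.1.2) = true ∨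
    LinFail φ lc
      (fun k => rdc (mkInst2 M l₁ (tInst M dg φ) r h2 :
        CInst (mkCode Cell V B φ hφ D hD hD2 (tHalf Cell V Dg B φ))) f (.inr k) ω)
      (fun ξ l => decide (φ (l * π ξ ω.1.1) = 1))

/-- **Soundness of the flag test.** -/
theorem flag_sound_inst (M : DomData F h B Y Cell V X) (l₁ : F)
    (dg : Dg → Y) (h2 : ∀ y : Y, y + y = 0) (H : DegData M ρ t)
    (hK : ∀ c γ ρ₀ y i, PolyLe F (fun u => M.K c γ (ρ₀ + ρ i u) y) t)
    (hgen : M.Gen dg)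
    {lam δ τ : ℝ} (h0 : 0 ≤ lam) (inj : ∀ i, Function.Injective (pdir ρ ρ i))
    (hb : Spr (pdir ρ ρ) lam) (hlam : (Fintype.card F : ℝ) * lam ≤ 1 / 16)
    {lc : Ξ → Fn Cell V × Mv B Dg → F} {π : Ξ → Y × Y → F} {d' : ℕ}
    (hd : (B + 2) * t ≤ Fintype.card F - 2 - D)
    (hd' : 2 * t + (B + 3) * (2 + (Fintype.card F - 2 - D)) ≤ d')
    (hπ : ∀ ξ p i, PolyLe F (fun u => π ξ (p + pdir ρ ρ i u)) d')
    (h1 : δ ≤ 1 / (160 * (Fintype.card F : ℝ) ^ 2))
    (hκ : (Fintype.card (Fn Cell V × Mv B Dg) : ℝ) * (4 * (Fintype.card F : ℝ) * δ) < 1)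
    (hτ' : δ + (Fintype.card (Option ((Fn Cell V × Mv B Dg) × F)) : ℝ) *
      ((6 + 8 * (Fintype.card F : ℝ)) * δ) ≤ τ)
    (hτ : τ < (1 - (d' : ℝ) / ((Fintype.card F : ℝ) - 1)) *
      (1 - Fintype.card (Fn Cell V × Mv B Dg) * (4 * (Fintype.card F : ℝ) * δ)) - lam)
    (f : (Y × Y) × (Comp Cell V h → F) → Bool)
    (hT : pr (FlagFail hφ hD hD2 M l₁ dg (pdir ρ ρ) h2 lc π f) ≤ δ) :
    ∃ G : Y × Y → Comp Cell V h → F,
      (∀ i p, Low (Fintype.card F - 2 - D) fun u : F => G (p + pdir ρ ρ i u)) ∧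
      M.Ids G ∧
      (∀ ξ p c, ∑ a, lc ξ a * M.atv dg G p c a = π ξ p) ∧
      (∀ k, pr (fun ω : ((Y × Y) × (Comp Cell V h → F)) × QPad F (Comp Cell V h) (ι × ι) D =>
        rdc (mkInst2 M l₁ (tInst M dg φ) (pdir ρ ρ) h2 :
          CInst (mkCode Cell V B φ hφ D hD hD2 (tHalf Cell V Dg B φ))) f k ω ≠
        bitc (mkInst2 M l₁ (tInst M dg φ) (pdir ρ ρ) h2 :
          CInst (mkCode Cell V B φ hφ D hD hD2 (tHalf Cell V Dg B φ))) G k ω.1) ≤
        (6 + 8 * (Fintype.card F : ℝ)) * δ) ∧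
      pr (fun x : (Y × Y) × (Comp Cell V h → F) => f x ≠ wbit φ x.2 (G x.1)) ≤
        (7 + 8 * (Fintype.card F : ℝ)) * δ := by
  set N : Code := mkCode Cell V B φ hφ D hD hD2 (tHalf Cell V Dg B φ) with hN
  set I : CInst N := mkInst2 M l₁ (tInst M dg φ) (pdir ρ ρ) h2 with hI
  have hT1 : ∀ ω : I.P × QPad N.F I.R I.ι N.D,
      ((∑ u : N.F, b2 (f (I.rd (.inr u) ω).1) ≠ 0) ∨ f ω.1 ≠ rdc I f (.inr N.kt0) ω ∨
      N.testF (fun k => rdc I f (.inr k) ω) (fun v => I.v v ω.1.1 ω.1.2) = true) →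
      FlagFail hφ hD hD2 M l₁ dg (pdir ρ ρ) h2 lc π f ω := fun ω hω =>
    Or.inl ((tF_iff I f ω _).2 hω)
  obtain ⟨s, J, hlow, hcard, herr, hdist⟩ := word_core I inj hb hlam h1 f
    ((pr_mono fun ω hω => hT1 ω (Or.inl hω)).trans hT)
    ((pr_mono fun ω hω => hT1 ω (Or.inr (Or.inl hω))).trans hT)
  have h5 := pr_ex_le (fun (k : N.KT) (ω : I.P × QPad N.F I.R I.ι N.D) =>
    rdc I f (.inr k) ω ≠ bitc I s (.inr k) ω.1) _ fun k => herr (.inr k)
  have hZ : Nonempty (QPad F (Comp Cell V h) (ι × ι) D) :=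
    ⟨(fun _ => 0, fun _ _ _ => 0, fun _ => Classical.arbitrary _)⟩
  have h6 := flag_core (Z := QPad F (Comp Cell V h) (ι × ι) D) (lc := lc) hφ M dg h2 H hgen
    (κ := 4 * (Fintype.card F : ℝ) * δ) (δ := δ)
    (η := (Fintype.card (Option ((Fn Cell V × Mv B Dg) × F)) : ℝ) *
          ((6 + 8 * (Fintype.card F : ℝ)) * δ)) h0 hb hd' hπ hκ hτ' hτ (G := s) hcard hlow
    (fun ω k => rdc I f (.inr k) ω) ((pr_mono fun ω hω => ?_).trans hT)
    ((pr_mono fun ω hω => ?_).trans h5)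
  · exact ⟨s, fun i p => ids_Low H hK h6.1 hd p i, h6.1, h6.2, herr, hdist⟩
  · rcases hω with hω | hω
    · refine hT1 ω (Or.inr (Or.inr ?_))
      classical
      refine decide_eq_true ?_
      obtain ⟨m, hm⟩ := hω
      refine ⟨m, ?_⟩
      rw [← ker_bits (hφ := hφ) (hD := hD) (hD2 := hD2) hφ M l₁ dg (pdir ρ ρ) h2 ω.1] at hm
      exact hm
    · exact Or.inr hω
  · obtain ⟨a, ha⟩ := hω
    by_contra hk
    push Not at hk
    refine ha ?_
    have h7 := congrFun (vals_bitc2 (hφ := hφ) (hD := hD) (hD2 := hD2) hφ M l₁ dg (pdir ρ ρ) h2 s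
      ω.1) a
    rw [← h7]
    congr 1
    funext k
    exact hk k

/-- **Completeness of the flag test.** -/
theorem flag_complete (M : DomData F h B Y Cell V X) (l₁ : F)
    (dg : Dg → Y) {r : ι → F →+ Y × Y} (h2 : ∀ y : Y, y + y = 0)
    {lc : Ξ → Fn Cell V × Mv B Dg → F} {π : Ξ → Y × Y → F}
    {G : Y × Y → Comp Cell V h → F}
    (hlow : ∀ i p, Low (Fintype.card F - 2 - D) fun u : F => G (p + r i u))
    (hG : M.Ids G) (hlin : ∀ ξ p c, ∑ a, lc ξ a * M.atv dg G p c a = π ξ p)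
    (ω : ((Y × Y) × (Comp Cell V h → F)) × QPad F (Comp Cell V h) ι D) :
    ¬ FlagFail hφ hD hD2 M l₁ dg r h2 lc π (fun x => wbit φ x.2 (G x.1)) ω := by
  set N : Code := mkCode Cell V B φ hφ D hD hD2 (tHalf Cell V Dg B φ) with hN
  set I : CInst N := mkInst2 M l₁ (tInst M dg φ) r h2 with hI
  have hw : I.IsWord G := hlow
  have hrd : ∀ k, rdc I (fun x => wbit φ x.2 (G x.1)) (.inr k) ω = bitc I G (.inr k) ω.1 :=
    fun k => I.cval_read hw (.inr k) ω
  have hv : vals φ (fun k => rdc I (fun x => wbit φ x.2 (G x.1)) (.inr k) ω) =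
      M.atv dg G ω.1.1 ω.1.2 := by
    rw [← vals_bitc2 (hφ := hφ) (hD := hD) (hD2 := hD2) hφ M l₁ dg r h2 G ω.1]
    congr 1
    funext k
    exact hrd k
  rintro (h3 | h3)
  · rcases (tF_iff I (fun x => wbit φ x.2 (G x.1)) ω _).1 h3 with h4 | h4 | h4
    · exact h4 (I.line_read hw ω)
    · refine h4 ?_
      have h5 := hrd none
      refine Eq.trans ?_ h5.symm
      rfl
    · classical
      obtain ⟨m, hm⟩ := of_decide_eq_true h4
      refine hm ?_
      have h6 := hG.defect_eq (dg := dg) ω.1.1 ω.1.2 m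
      rw [← hv] at h6
      rw [← ker_bits (hφ := hφ) (hD := hD) (hD2 := hD2) hφ M l₁ dg r h2 ω.1] at h6
      exact h6
  · obtain ⟨ξ, hξ⟩ := h3
    refine hξ ?_
    rw [bdec_decide φ hφ]
    refine Eq.trans ?_ (hlin ξ ω.1.1 ω.1.2)
    refine Finset.sum_congr rfl fun a _ => ?_
    exact congrArg (lc ξ a * ·) (congrFun hv a)

end flag

/-! ### Uniform constants -/

section uniform

variable {F : Type} [Field F] [Fintype F] [DecidableEq F] [CharP F 2] {Cell V Dg Ξ : Type}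
  [Fintype Cell] [DecidableEq Cell] [Fintype V] [DecidableEq V] [Fintype Dg] {B : ℕ}
  {φ : F →+ ZMod 2} {hφ : φ ≠ 0} {D : ℕ}
  {hD : Fintype.card F ≤ 2 * D + 1} {hD2 : D + 2 ≤ Fintype.card F} {t : ℕ}

/-- What has to be known of the data of an instance. -/
structure FlagHyp {h : ℕ} {Y X : Type} [AddCommGroup Y] [Fintype Y] {ι : Type} [Fintype ι]
    (M : DomData F h B Y Cell V X) (dg : Dg → Y) (ρ : ι → F →+ Y) (t : ℕ) (lam : ℝ) where
  deg : DegData M ρ t
  low1 : ∀ c γ ρ₀ y i, PolyLe F (fun u => M.K c γ (ρ₀ + ρ i u) y) t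
  gen : M.Gen dg
  inj : ∀ i, Function.Injective (pdir ρ ρ i)
  spr : Spr (pdir ρ ρ) lam

/-- **Soundness of the flag test**, with uniform constants. -/
theorem flag_sound {lam κ₀ τ₀ : ℝ} {d' : ℕ} (h0 : 0 ≤ lam)
    (hlam : (Fintype.card F : ℝ) * lam ≤ 1 / 16)
    (hd : (B + 2) * t ≤ Fintype.card F - 2 - D)
    (hd' : 2 * t + (B + 3) * (2 + (Fintype.card F - 2 - D)) ≤ d')
    (hκ0 : 0 < κ₀) (hτ0 : 0 < τ₀)
    (hκ : (Fintype.card (Fn Cell V × Mv B Dg) : ℝ) * κ₀ < 1)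
    (hτ : τ₀ < (1 - (d' : ℝ) / ((Fintype.card F : ℝ) - 1)) *
      (1 - Fintype.card (Fn Cell V × Mv B Dg) * κ₀) - lam)
    (lc : Ξ → Fn Cell V × Mv B Dg → F) :
    ∀ ρ' : ℝ, 0 < ρ' → ∃ δ : ℝ, 0 < δ ∧ ∀ (h : ℕ) (Y X : Type) [AddCommGroup Y] [Fintype Y]
      [DecidableEq Y] (ι : Type) [Fintype ι] [Nonempty ι] (M : DomData F h B Y Cell V X)
      (l₁ : F) (dg : Dg → Y) (ρ : ι → F →+ Y) (h2 : ∀ y : Y, y + y = 0)
      (_ : FlagHyp M dg ρ t lam) (π : Ξ → Y × Y → F)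
      (_ : ∀ ξ p i, PolyLe F (fun u => π ξ (p + pdir ρ ρ i u)) d')
      (f : (Y × Y) × (Comp Cell V h → F) → Bool),
      pr (FlagFail hφ hD hD2 M l₁ dg (pdir ρ ρ) h2 lc π f) ≤ δ →
      ∃ G : Y × Y → Comp Cell V h → F,
        (∀ i p, Low (Fintype.card F - 2 - D) fun u : F => G (p + pdir ρ ρ i u)) ∧
        M.Ids G ∧
        (∀ ξ p c, ∑ a, lc ξ a * M.atv dg G p c a = π ξ p) ∧
        (∀ k, pr (fun ω : ((Y × Y) × (Comp Cell V h → F)) × QPad F (Comp Cell V h) (ι × ι) D =>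
          rdc (mkInst2 M l₁ (tInst M dg φ) (pdir ρ ρ) h2 :
            CInst (mkCode Cell V B φ hφ D hD hD2 (tHalf Cell V Dg B φ))) f k ω ≠
          bitc (mkInst2 M l₁ (tInst M dg φ) (pdir ρ ρ) h2 :
            CInst (mkCode Cell V B φ hφ D hD hD2 (tHalf Cell V Dg B φ))) G k ω.1) ≤ ρ') ∧
        pr (fun x : (Y × Y) × (Comp Cell V h → F) => f x ≠ wbit φ x.2 (G x.1)) ≤ ρ' := by
  intro ρ' hρ'
  set q : ℝ := (Fintype.card F : ℝ) with hq
  have hq0 : 0 < q := by rw [hq]; exact_mod_cast Fintype.card_pos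
  set a : ℝ := (Fintype.card (Fn Cell V × Mv B Dg) : ℝ) with ha
  have ha0 : 0 ≤ a := by rw [ha]; positivity
  set n : ℝ := (Fintype.card (Option ((Fn Cell V × Mv B Dg) × F)) : ℝ) with hn
  have hn0 : 0 ≤ n := by rw [hn]; positivity
  set δ : ℝ := min (min (1 / (160 * q ^ 2)) (κ₀ / (4 * q)))
    (min (τ₀ / (1 + n * (6 + 8 * q))) (ρ' / (7 + 8 * q))) with hδ
  have hδ0 : 0 < δ := by
    rw [hδ]
    refine lt_min (lt_min ?_ ?_) (lt_min ?_ ?_) <;> positivity
  have h1 : δ ≤ 1 / (160 * q ^ 2) := (min_le_left _ _).trans (min_le_left _ _)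
  have h2 : 4 * q * δ ≤ κ₀ := by
    have : δ ≤ κ₀ / (4 * q) := (min_le_left _ _).trans (min_le_right _ _)
    rw [le_div_iff₀ (by positivity)] at this
    linarith
  have h3 : δ + n * ((6 + 8 * q) * δ) ≤ τ₀ := by
    have : δ ≤ τ₀ / (1 + n * (6 + 8 * q)) := (min_le_right _ _).trans (min_le_left _ _)
    rw [le_div_iff₀ (by positivity)] at this
    linarith
  have h4 : (7 + 8 * q) * δ ≤ ρ' := by
    have : δ ≤ ρ' / (7 + 8 * q) := (min_le_right _ _).trans (min_le_right _ _)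
    rw [le_div_iff₀ (by positivity)] at this
    linarith
  have h5 : a * (4 * q * δ) ≤ a * κ₀ := mul_le_mul_of_nonneg_left h2 ha0
  have h6 : 0 < 1 - (d' : ℝ) / (q - 1) := by
    by_contra h7
    have h8 : (1 - (d' : ℝ) / (q - 1)) * (1 - a * κ₀) ≤ 0 :=
      mul_nonpos_of_nonpos_of_nonneg (not_lt.1 h7) (by linarith)
    linarith
  have h7 : (1 - (d' : ℝ) / (q - 1)) * (1 - a * κ₀) ≤
      (1 - (d' : ℝ) / (q - 1)) * (1 - a * (4 * q * δ)) :=
    mul_le_mul_of_nonneg_left (by linarith) h6.le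
  refine ⟨δ, hδ0, ?_⟩
  intro h Y X _ _ _ ι _ _ M l₁ dg ρ hY2 H π hπ f hf
  obtain ⟨G, g1, g2, g3, g4, g5⟩ := flag_sound_inst M l₁ dg hY2 H.deg H.low1 H.gen h0 H.inj H.spr
    hlam (lc := lc) (π := π) hd hd' hπ h1 (by linarith) h3 (by linarith) f hf
  exact ⟨G, g1, g2, g3, fun k => (g4 k).trans (le_trans (by nlinarith) h4), g5.trans h4⟩

end uniform

end Vale.Agent.P330.FM
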