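import Vale.Agent.P330.FM.XDom
import Vale.Agent.P330.Q.LowDeg

/-!
# Functional modules: outputs without external slots

The kernels of the outputs `two`, `sum`, `stat`, `proj` and of the windows which do not look at the
external bits have no external slots (`xker_free`).  If the chains of these outputs vanish (for
`proj`: reproduce the base) then the base is the code of a configuration with the right static
contents (`exists_onehot`).  `xker_low`, `xker_low1`: degrees of the public kernels.
-/

namespace Vale.Agent.P330.FM

open Finset Vale.Agent.P330.Q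
open Vale.Agent.P318.S (PolyLe)

/-- outputs without external slots -/
def XOut.free {S : XSpec} : XOut S → Bool
  | .two _ _ => true
  | .sum => true
  | .stat _ => true
  | .win _ c => !(S.dep c)
  | .proj _ => true
  | .next _ _ => false

variable {S : XSpec}

theorem gam2_ne_inr (u v : Option S.Cell) (t : XSlot S) (l : S.Ext × Bool) :
    gam2 u v t ≠ some (.inr l) := by
  intro hh
  rcases t with t | t | t
  · simp [gam2] at hh
  · simp only [gam2, Sum.elim_inr, Sum.elim_inl] at hh
    split_ifs at hh
    · cases u <;> simp at hh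
    · cases v <;> simp at hh
  · simp [gam2, gamE] at hh

theorem kerX_free (I : XInst S) {o : XOut S} (ho : o.free = true) {γ : XSlot S → Option (XCt S)}
    {a : I.J} {α : XSlot S → I.J} (hk : kerX I o γ a α) (t : XSlot S) (l : S.Ext × Bool) :
    γ t ≠ some (.inr l) := by
  cases o with
  | two e e' =>
    obtain ⟨-, hγ, -⟩ := hk
    rw [hγ]
    exact gam2_ne_inr _ _ t l
  | sum =>
    obtain ⟨⟨e, hγ⟩, -⟩ := hk
    rw [hγ]
    exact gam2_ne_inr _ _ t l
  | stat e =>
    obtain ⟨-, hγ, -⟩ := hk
    rw [hγ]
    exact gam2_ne_inr _ _ t l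
  | proj e =>
    obtain ⟨hγ, -⟩ := hk
    rw [hγ]
    exact gam2_ne_inr _ _ t l
  | win β c =>
    obtain ⟨-, hγ, -⟩ := hk
    have hd : S.dep c = false := by simpa [XOut.free] using ho
    subst hγ
    rw [hd]
    rcases t with t | t | t
    · simp [gamW]
    · simp [gamW]
    · simp [gamW, gamE, opt]
  | next z e => simp [XOut.free] at ho

/-- If the violation outputs without external slots vanish at `x` then `x` is the array of a
configuration with the right static contents. -/
theorem exists_onehot_of_viol {F : Type*} [Field F] (I : XInst S) (s : S.Ext → I.J → Bool)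
    (h2 : (1 : F) + 1 = 0) (x : S.Cell → I.J → F)
    (hx : ∀ o : XOut S, o.viol = true → o.free = true → ∀ a, evX I s x o a = 0) :
    ∃ w : I.J → S.Cell, (∀ j, S.statOf (w j) = I.stat j) ∧
      (∀ j β, S.dep (fun t => w (j + I.off (S.win t))) = false →
        S.allowed β (fun t => w (j + I.off (S.win t))) = true) ∧ x = onehot w := by
  classical
  have h1 : ∀ a, ∃ e, x e a ≠ 0 := by
    intro a
    by_contra hc
    push Not at hc
    have := hx .sum rfl rfl a
    rw [evX_sum, Finset.sum_eq_zero fun e _ => hc e, add_zero] at this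
    exact one_ne_zero this
  choose w hw using h1
  have h3 : ∀ a e, w a ≠ e → x e a = 0 := by
    intro a e he
    have := hx (.two (w a) e) rfl rfl a
    rw [evX_two, if_pos he] at this
    exact (mul_eq_zero.1 this).resolve_left (hw a)
  have h4 : ∀ a, x (w a) a = 1 := by
    intro a
    have := hx .sum rfl rfl a
    rw [evX_sum, Finset.sum_eq_single (w a) (fun e _ he => h3 a e (Ne.symm he))
      (fun hh => absurd (Finset.mem_univ _) hh)] at this
    linear_combination this - h2
  have hxw : x = onehot w := by
    funext e a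
    by_cases he : w a = e
    · rw [← he, h4, onehot_self]
    · rw [h3 a e he, onehot_ne w he]
  refine ⟨w, ?_, ?_, hxw⟩
  · intro a
    by_contra hc
    have := hx (.stat (w a)) rfl rfl a
    rw [evX_stat, if_pos hc, h4] at this
    exact one_ne_zero this
  · intro a β hd
    by_contra hc
    have hc' : S.allowed β (fun t => w (a + I.off (S.win t))) = false := by
      simpa using hc
    have := hx (.win β fun t => w (a + I.off (S.win t))) rfl (by simp [XOut.free, hd]) a
    rw [evX_win, if_pos ⟨hc', fun h => absurd h (by simp [hd])⟩,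
      Finset.prod_eq_one fun i _ => h4 _] at this
    exact one_ne_zero this

section

variable {F : Type*} [Field F] {h : ℕ} [NeZero h] {Y : Type*} [AddCommGroup Y]
  (D : ESys F h Y) {k B : ℕ} (I : XInst S) (σ : XSlot S ≃ Fin B)
  (ε : I.J ≃ Addr k) (s : S.Ext → I.J → Bool) (hI : I.Facts s)

/-- The public kernels of the outputs without external slots have no external slots. -/
theorem xker_free {c : Chn S.Cell (XVOut S)} (hc : (xoutOf c).free = true)
    {γ : Fin B → Option (XCt S)} {t : Fin B} {l : S.Ext × Bool} (ht : γ t = some (.inr l))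
    (ρ y : Y) : xker D I σ ε c γ ρ y = 0 := by
  classical
  have h1 : kerXF F I σ ε (xoutOf c) γ = 0 := by
    funext a α
    refine if_neg fun hk => ?_
    exact kerX_free I hc hk (σ.symm t) l (by simpa using ht)
  unfold xker
  rw [h1]
  unfold ESys.ker
  simp

/-- A kernel without external slots is not changed if the external slots are absorbed. -/
theorem absK_free {Cell V Ext' : Type*} [Fintype Cell] [Fintype Ext']
    (k : Chn Cell V → (Fin B → Option (Cell ⊕ Ext')) → F) (x : Ext' → Fin B → F) (c : Chn Cell V)
    (hk : ∀ g t l, g t = some (.inr l) → k c g = 0) (γ : Fin B → Option Cell) :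
    absK k x c γ = k c fun t => (γ t).map Sum.inl := by
  classical
  unfold absK
  rw [Finset.sum_eq_single fun t => (γ t).map Sum.inl]
  · have h1 : (fun t => cellOf ((γ t).map (Sum.inl : Cell → Cell ⊕ Ext'))) = γ := by
      funext t
      cases γ t <;> rfl
    rw [if_pos h1]
    have h2 : ∏ t, extv (fun d => x d t) ((γ t).map (Sum.inl : Cell → Cell ⊕ Ext')) = 1 := by
      refine Finset.prod_eq_one fun t _ => ?_
      cases γ t <;> rfl
    rw [h2, mul_one]
  · intro g _ hg
    by_cases hex : ∃ t l, g t = some (.inr l)
    · obtain ⟨t, l, ht⟩ := hex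
      rw [hk g t l ht, zero_mul, ite_self]
    · push Not at hex
      refine if_neg fun hh => hg ?_
      subst hh
      funext t
      show g t = Option.map Sum.inl (cellOf (g t))
      rcases hgt : g t with _ | e | l
      · rfl
      · rfl
      · exact absurd hgt (hex t l)
  · intro hh
    exact absurd (Finset.mem_univ _) hh

/-- A kernel without external slots is not changed by regrouping. -/
theorem regK_free {Cell V Ext' : Type*} [Fintype Cell] [Fintype Ext'] (own : Ext' → Cell → Bool)
    (k : Chn Cell V → (Fin B → Option (Cell ⊕ Ext')) → F) (c : Chn Cell V)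
    (hk : ∀ g t l, g t = some (.inr l) → k c g = 0) (γ : Fin B → Option Cell) :
    regK own k c γ = k c fun t => (γ t).map Sum.inl := by
  classical
  unfold regK
  rw [Finset.sum_eq_single fun t => (γ t).map Sum.inl]
  · refine if_pos fun t => ?_
    show slotSub own ((γ t).map Sum.inl) (γ t)
    cases γ t with
    | none => exact trivial
    | some e => exact rfl
  · intro g _ hg
    by_cases hex : ∃ t l, g t = some (.inr l)
    · obtain ⟨t, l, ht⟩ := hex
      rw [hk g t l ht, ite_self]
    · push Not at hex
      refine if_neg fun hh => hg ?_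
      funext t
      have h1 := hh t
      rcases hgt : g t with _ | e | l
      · rw [hgt] at h1
        rcases hγ : γ t with _ | e'
        · rfl
        · rw [hγ] at h1
          exact h1.elim
      · rw [hgt] at h1
        rcases hγ : γ t with _ | e'
        · rw [hγ] at h1
          exact h1.elim
        · rw [hγ] at h1
          have h3 : e = e' := h1
          rw [h3]
          rfl
      · exact absurd hgt (hex t l)
  · intro hh
    exact absurd (Finset.mem_univ _) hh

theorem xdata_K_free {c : Chn S.Cell (XVOut S)} (hc : (xoutOf c).free = true)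
    (γ : Fin B → Option S.Cell) (ρ y : Y) :
    (xdata D I σ ε s hI).K c γ ρ y = xker D I σ ε c (fun t => (γ t).map Sum.inl) ρ y :=
  absK_free (fun c g => xker D I σ ε c g ρ y) _ c
    (fun _ _ _ ht => xker_free D I σ ε hc ht ρ y) γ

theorem regroup_free {own : S.Ext × Bool → S.Cell → Bool} {c : Chn S.Cell (XVOut S)}
    (hc : (xoutOf c).free = true) (γ : Fin B → Option S.Cell) (ρ y : Y) :
    regroup own (xker D I σ ε) c γ ρ y = xker D I σ ε c (fun t => (γ t).map Sum.inl) ρ y :=
  regK_free own (fun c g => xker D I σ ε c g ρ y) c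
    (fun _ _ _ ht => xker_free D I σ ε hc ht ρ y) γ

/-- The chains without external slots only depend on the kernels without external slots. -/
theorem dvv_free {X : Type*} (M : DomData F h B Y S.Cell (XVOut S) X) (hθ : M.θ = D.θ.toEquiv)
    (he : M.e0 = D.ι (ev 0)) (hsh : M.sh = fun t : Fin B => shE D (2 * k * t))
    {c : Chn S.Cell (XVOut S)} (hc : (xoutOf c).free = true)
    (hK : ∀ γ ρ y, M.K c γ ρ y = xker D I σ ε c (fun t => (γ t).map Sum.inl) ρ y)
    (W : S.Cell → Y → F) (n : ℕ) : M.vv c W n = (xdata D I σ ε s hI).vv c W n := by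
  induction n with
  | zero =>
    funext ρ y
    show M.v0 c W ρ y = (xdata D I σ ε s hI).v0 c W ρ y
    unfold DomData.v0
    refine Finset.sum_congr rfl fun γ _ => ?_
    rw [hK, xdata_K_free D I σ ε s hI hc, hsh]
    rfl
  | succ n ih =>
    funext ρ y
    show M.vv c W n ρ (M.θ y) + M.vv c W n ρ (M.θ y + M.e0) = _
    rw [ih, hθ, he]
    rfl

include hI in
/-- **Bases without external slots.** If the chains of the outputs without external slots vanish
over the base `W` and the projection chains reproduce `W`, then `W` is the code of a configuration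
with the right static contents (and the right windows which do not look at the external bits). The
data `M` may have any kernels which agree with the public kernels on the outputs without external
slots. -/
theorem exists_onehot [CharP F 2] (hB : 2 * k * B ≤ h) (hk : 2 * k ≤ h) {X : Type*}
    (M : DomData F h B Y S.Cell (XVOut S) X) (hθ : M.θ = D.θ.toEquiv)
    (he : M.e0 = D.ι (ev 0)) (hsh : M.sh = fun t : Fin B => shE D (2 * k * t))
    (hK : ∀ c, (xoutOf c).free = true →
      ∀ γ ρ y, M.K c γ ρ y = xker D I σ ε c (fun t => (γ t).map Sum.inl) ρ y)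
    (W : S.Cell → Y → F) (hid : ∀ e ρ y, M.vv (.id e) W h ρ y = W e ρ)
    (hval : ∀ i : XVOut S, i.1.free = true → ∀ ρ y, M.vv (.val i) W h ρ y = 0) :
    ∃ w : I.J → S.Cell, (∀ j, S.statOf (w j) = I.stat j) ∧
      (∀ j β, S.dep (fun t => w (j + I.off (S.win t))) = false →
        S.allowed β (fun t => w (j + I.off (S.win t))) = true) ∧
      W = fun e => D.code (xcf I ε w e) := by
  have h1 : ∀ e ρ y, (xdata D I σ ε s hI).vv (.id e) W h ρ y = W e ρ := by
    intro e ρ y
    rw [← dvv_free D I σ ε s hI M hθ he hsh (c := .id e) rfl (hK _ rfl) W h]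
    exact hid e ρ y
  obtain ⟨x, rfl⟩ := xexists_code D I σ ε s hI W h1
  have h2 : (1 : F) + 1 = 0 := CharTwo.add_self_eq_zero 1
  obtain ⟨w, hw1, hw2, hx⟩ := exists_onehot_of_viol I s h2 (fun e j => x e (ε j)) (by
    intro o ho hf a
    have h3 : D.code (evK (kerXF F I σ ε o) (xarr (extA I ε s) x)) =
        D.code (0 : Addr k → F) := by
      funext ρ
      rw [map_zero]
      refine (xvv_code D I σ ε s hI hB (.val ⟨o, ho⟩) x ρ 0).symm.trans ?_
      rw [← dvv_free D I σ ε s hI M hθ he hsh (c := .val ⟨o, ho⟩) hf (hK _ hf) _ h]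
      exact hval ⟨o, ho⟩ hf ρ 0
    have h4 := congrFun (D.code_inj hk h3) (ε a)
    rw [evK_kerXF, Equiv.symm_apply_apply] at h4
    exact h4)
  refine ⟨w, hw1, hw2, ?_⟩
  have h5 : x = xcf I ε w := by
    funext e a
    have := congrFun (congrFun hx e) (ε.symm a)
    simpa [xcf, onehot] using this
  rw [h5]

/-! ### Degrees -/

omit [NeZero h] in
/-- The extensions of literals have low degree. -/
theorem xword_low {ι : Type*} {ρ : ι → F →+ Y} {t : ℕ}
    (hE : ∀ (f : Cube h → F) (y : Y) (i : ι), PolyLe F (fun u => D.E f (y + ρ i u)) t)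
    (l : S.Ext × Bool) (y : Y) (j : ι) :
    PolyLe F (fun u => xword D I ε s l (y + ρ j u)) t :=
  code_low D hE _ y j

/-- The public kernels have low degree. -/
theorem xker_low {ι : Type*} {ρ : ι → F →+ Y} {t : ℕ}
    (hE : ∀ (f : Cube h → F) (y : Y) (i : ι), PolyLe F (fun u => D.E f (y + ρ i u)) t)
    (c : Chn S.Cell (XVOut S)) (γ : Fin B → Option (XCt S)) (ρ₀ y : Y) (i j : ι) :
    PolyLe F (fun u => xker D I σ ε c γ (ρ₀ + ρ i u) (y + ρ j u)) (2 * t) :=
  ker_low D hE (liveG γ) (kerXF F I σ ε (xoutOf c) γ) ρ₀ y i j

/-- The public kernels have low degree in the first variable. -/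
theorem xker_low1 {ι : Type*} {ρ : ι → F →+ Y} {t : ℕ}
    (hE : ∀ (f : Cube h → F) (y : Y) (i : ι), PolyLe F (fun u => D.E f (y + ρ i u)) t)
    (c : Chn S.Cell (XVOut S)) (γ : Fin B → Option (XCt S)) (ρ₀ y : Y) (i : ι) :
    PolyLe F (fun u => xker D I σ ε c γ (ρ₀ + ρ i u) y) t := by
  unfold xker ESys.ker
  refine PolyLe.sum _ fun a _ => PolyLe.sum _ fun α _ => ?_
  refine ((hE (mon F (muS h 0 a)) ρ₀ i).const_smul (kerXF F I σ ε (xoutOf c) γ a α *
    D.E (mon F (dualS h (liveG γ) α)) y)).congr fun u => ?_
  rw [smul_eq_mul]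
  ring

end

end Vale.Agent.P330.FM
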