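import Vale.Agent.P330.Q.ConcDir
import Vale.Agent.P330.Q.CbENum
import Vale.Agent.P330.Q.SitesDir
import Mathlib.FieldTheory.Finite.GaloisField

/-!
# Functional modules: the parameters of the code domain

`XC nC B m`: the numerical constants and the field, for `nC` contents of cells, `B` slots and a
constant `m` at our disposal.  Everything else is a function of the number `k` of address bits: the
length `C.h k = 2 ^ C.a k`, the number `C.z k` of the pair, the domain `C.Y k`, the extension system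
`C.sys k`, the axes and the directions `C.dir k`, and numbers for all of them.  `C.P` are the
parameters in the form of `Pars (cQ nC B)`, with `t` replaced by `(B + 2) t`: all degrees may be
larger by the factor `B + 2`.
-/

namespace Vale.Agent.P330.FM

open Finset Vale.Agent.Lib.PolyTime Vale.Agent.P330.Q
open Srch
open Vale.Agent.P318.S (PolyLe Low)

/-- The constant: `nC` contents, `B` slots, `m` at our disposal. -/
def cX (nC B m : ℕ) : ℕ := cQ nC B * (B + 2) * (m + 1)

theorem one_le_cX (nC B m : ℕ) : 1 ≤ cX nC B m :=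
  Nat.mul_pos (Nat.mul_pos (Pars.one_le_cQ (nC := nC) (B := B)) (by omega)) (by omega)

/-- Constants and field. -/
structure XC (nC B m : ℕ) where
  P0 : Pars (cX nC B m)
  K : Type
  fK : Field K
  tK : Fintype K
  dK : DecidableEq K
  cK : CharP K 2
  card : @Fintype.card K tK = P0.q

theorem exists_XC (nC B m : ℕ) : Nonempty (XC nC B m) := by
  classical
  obtain ⟨P⟩ := exists_pars (cX nC B m) (one_le_cX nC B m)
  have h1 : P.s ≠ 0 := by have := P.four_le; omega
  exact ⟨⟨P, GaloisField 2 P.s, inferInstance, Fintype.ofFinite _, inferInstance, inferInstance,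
    by rw [Fintype.card_eq_nat_card]; exact GaloisField.card 2 P.s h1⟩⟩

namespace XC

variable {nC B m : ℕ} (C : XC nC B m)

noncomputable instance : Field C.K := C.fK
noncomputable instance : Fintype C.K := C.tK
noncomputable instance : DecidableEq C.K := C.dK
instance : CharP C.K 2 := C.cK

/-- The parameters with `t` replaced by `(B + 2) t`. -/
def P : Pars (cQ nC B) where
  s := C.P0.s
  t := (B + 2) * C.P0.t
  N0 := C.P0.N0
  even_s := C.P0.even_s
  four_le := C.P0.four_le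
  one_le_t := Nat.mul_pos (by omega) C.P0.one_le_t
  deg := by
    refine le_trans ?_ C.P0.deg
    unfold cX
    calc cQ nC B * ((B + 2) * C.P0.t) = cQ nC B * (B + 2) * 1 * C.P0.t := by ring
      _ ≤ cQ nC B * (B + 2) * (m + 1) * C.P0.t :=
        Nat.mul_le_mul_right _ (Nat.mul_le_mul_left _ (by omega))
  zfr_lt := by
    intro N hN
    refine lt_of_le_of_lt ?_ (C.P0.zfr_lt N hN)
    refine mul_le_mul_of_nonneg_left (add_le_add ?_ le_rfl) (Nat.cast_nonneg _)
    refine pow_le_pow_of_le_one ?_ ?_ (Nat.le_mul_of_pos_left _ (by omega))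
    · rw [sub_nonneg, div_le_one (by positivity)]
      exact_mod_cast (show 1 ≤ 16 * (C.P0.s + 5) by omega)
    · exact sub_le_self _ (by positivity)
  bias := by
    intro N hN
    set x : ℝ := 1 - 1 / ((16 * (C.P0.s + 5) : ℕ) : ℝ) with hx
    have x0 : 0 ≤ x := by
      rw [hx, sub_nonneg, div_le_one (by positivity)]
      exact_mod_cast (show 1 ≤ 16 * (C.P0.s + 5) by omega)
    have x1 : x ≤ 1 := sub_le_self _ (by positivity)
    have h1 : x ^ ((B + 2) * C.P0.t) ≤ x ^ C.P0.t :=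
      pow_le_pow_of_le_one x0 x1 (Nat.le_mul_of_pos_left _ (by omega))
    have h0 : 0 ≤ x ^ ((B + 2) * C.P0.t) := pow_nonneg x0 _
    have hz := C.P0.zfr_lt N hN
    rw [← hx] at hz
    have hb := C.P0.bias N hN
    rw [← hx] at hb
    set Q : ℝ := ((2 ^ C.P0.s : ℕ) : ℝ) with hQ
    have hQ0 : 0 < Q := by
      rw [hQ]
      exact_mod_cast Nat.two_pow_pos _
    have hN0 : 0 ≤ 1 / (N : ℝ) := by positivity
    have h2 : Q * (x ^ ((B + 2) * C.P0.t) + 1 / (N : ℝ)) ≤ Q * (x ^ C.P0.t + 1 / (N : ℝ)) :=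
      mul_le_mul_of_nonneg_left (by linarith) hQ0.le
    have h3 : 0 ≤ Q * (x ^ ((B + 2) * C.P0.t) + 1 / (N : ℝ)) := by positivity
    have h4 : 0 ≤ x ^ C.P0.t := pow_nonneg x0 _
    have h5 : 0 ≤ Q * (x ^ C.P0.t + 1 / (N : ℝ)) := by positivity
    refine le_trans (b := (x ^ C.P0.t + Q * (x ^ C.P0.t + 1 / (N : ℝ))) /
      (1 - Q * (x ^ C.P0.t + 1 / (N : ℝ))))
      (div_le_div₀ (by linarith) (by linarith) (by linarith) (by linarith)) ?_
    refine hb.trans ?_
    have hc1 : (1 : ℝ) ≤ (cQ nC B : ℕ) := by exact_mod_cast Pars.one_le_cQ (nC := nC) (B := B)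
    have hc2 : ((cQ nC B : ℕ) : ℝ) ≤ (cX nC B m : ℕ) := by
      refine Nat.cast_le.2 ?_
      unfold cX
      rw [mul_assoc]
      exact Nat.le_mul_of_pos_right _ (Nat.mul_pos (by omega) (by omega))
    refine one_div_le_one_div_of_le (by positivity) ?_
    exact mul_le_mul_of_nonneg_right hc2 (by positivity)

theorem P_q : C.P.q = C.P0.q := rfl

theorem P_t : C.P.t = (B + 2) * C.P0.t := rfl

theorem card_K : Fintype.card C.K = C.P.q := C.card

/-- The bias. -/
noncomputable def lam : ℝ := C.P.lam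

theorem lam0_le : C.P0.lam ≤ C.lam := by
  have hc1 : (1 : ℝ) ≤ (cQ nC B : ℕ) := by exact_mod_cast Pars.one_le_cQ (nC := nC) (B := B)
  have hc2 : ((cQ nC B : ℕ) : ℝ) ≤ (cX nC B m : ℕ) := by
    refine Nat.cast_le.2 ?_
    unfold cX
    rw [mul_assoc]
    exact Nat.le_mul_of_pos_right _ (Nat.mul_pos (by omega) (by omega))
  have hq : (0 : ℝ) < C.P0.q := C.P.q_pos
  have hq' : (0 : ℝ) < C.P.q := hq
  refine one_div_le_one_div_of_le (by positivity) ?_
  exact mul_le_mul_of_nonneg_right hc2 (pow_nonneg hq.le 4)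

/-- The functional. -/
noncomputable def φ : C.K →+ ZMod 2 := pK C.K

theorem φ_one : C.φ 1 = 1 := pK_one C.K

theorem φ_ne : C.φ ≠ 0 := by
  intro h
  have h1 := C.φ_one
  rw [h] at h1
  exact zero_ne_one h1

/-! ### The domain -/

/-- The exponent of the length. -/
noncomputable abbrev a (k : ℕ) : ℕ := aLen B C.P0.N0 k

/-- The length. -/
noncomputable abbrev h (k : ℕ) : ℕ := 2 ^ C.a k

theorem le_h (k : ℕ) : 2 * k * B ≤ C.h k := le_hLen B C.P0.N0 k

theorem le_h' (hB : 1 ≤ B) (k : ℕ) : 2 * k ≤ C.h k :=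
  (Nat.le_mul_of_pos_right _ hB).trans (C.le_h k)

/-- The number of the pair. -/
noncomputable def z (k : ℕ) : ℕ := sch C.K (16 * (C.P0.s + 5)) (C.h k)

/-- The first element of the pair. -/
noncomputable def al (k : ℕ) : ZMod (C.h k) → C.K := alZ C.K (C.h k) (C.z k)

/-- The second element of the pair. -/
noncomputable def be (k : ℕ) : ZMod (C.h k) → C.K := beZ C.K (C.h k) (C.z k)

/-- The inverse of the first element of the pair. -/
noncomputable def ap (k : ℕ) : ZMod (C.h k) → C.K := apZ C.K (C.h k) (C.z k)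

/-- The domain. -/
abbrev Y (k : ℕ) : Type := YY C.K (C.h k)

/-- The axes. -/
noncomputable def ax (k : ℕ) : Bool × ZMod (C.h k) → C.K →+ C.Y k :=
  qax (piY (C.ap k) (C.be k))

theorem card_le : Fintype.card C.K ≤ 2 ^ C.P0.s := C.card.le

theorem search (k : ℕ) :
    cv (C.ap k) (C.al k) = dl (C.h k) C.K ∧ ∑ j, C.al k j ≠ 0 ∧
      GoodPair (16 * (C.P0.s + 5)) (C.al k) (C.be k) ∧
      Spread (1 / ((16 * (C.P0.s + 5) : ℕ) : ℝ)) (C.ax k) :=
  sch_all (C.a k) C.P0.s C.K C.card_le rfl rfl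

theorem cv_eq (k : ℕ) : cv (C.ap k) (C.al k) = dl (2 ^ C.a k) C.K := (C.search k).1

theorem al_sum (k : ℕ) : ∑ j, C.al k j ≠ 0 := (C.search k).2.1

theorem spread (k : ℕ) : Spread (1 / ((16 * (C.P0.s + 5) : ℕ) : ℝ)) (C.ax k) :=
  (C.search k).2.2.2

/-- The extension system. -/
noncomputable def sys (k : ℕ) : ESys C.K (C.h k) (C.Y k) :=
  ysys (C.al k) (C.be k) (C.ap k) (C.al_sum k) (C.cv_eq k)

theorem Y_add_self (k : ℕ) (y : C.Y k) : y + y = 0 := YY_add_self y

/-- The indices of the directions. -/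
abbrev ι (k : ℕ) : Type := DIx (C.ax k) C.P0.t

/-- The directions. -/
noncomputable def dir (k : ℕ) : C.ι k → C.K →+ C.Y k := idir (C.ax k) C.P0.t

theorem N0_le (k : ℕ) : C.P0.N0 ≤ Fintype.card (C.Y k) :=
  (a0_le_hLen B C.P0.N0 k).trans (card_YY_ge C.K (C.h k))

theorem spr0 (k : ℕ) : Nonempty (C.ι k) ∧ Spr (C.dir k) C.P0.lam ∧
    Spr (pdir (C.dir k) (C.dir k)) C.P0.lam :=
  C.P0.spr C.card (C.Y_add_self k) (C.spread k) (C.N0_le k)

/-- **The directions.** -/
theorem spr (k : ℕ) : Nonempty (C.ι k) ∧ Spr (C.dir k) C.lam ∧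
    Spr (pdir (C.dir k) (C.dir k)) C.lam :=
  ⟨(C.spr0 k).1, (C.spr0 k).2.1.mono C.lam0_le, (C.spr0 k).2.2.mono C.lam0_le⟩

instance (k : ℕ) : Nonempty (C.ι k) := (C.spr k).1

/-- The directions of the translations: digit `0`. -/
noncomputable def dg (k : ℕ) (x : TY C.K) : C.Y k := Pi.single 0 x

/-- The extensions have degree at most `t` on the lines. -/
theorem E_low (k : ℕ) (f : Cube (C.h k) → C.K) (y : C.Y k) (i : C.ι k) :
    PolyLe C.K (fun u => (C.sys k).E f (y + C.dir k i u)) C.P0.t :=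
  ysys_idir (C.al_sum k) (C.cv_eq k) C.P0.t f y i

/-- The shift maps lines to lines. -/
noncomputable def mv (k : ℕ) : Move (C.dir k) := mvTheta (C.ap k) (C.be k) C.P0.t

theorem mv_g (k : ℕ) : (C.mv k).g = (C.sys k).θ := rfl

theorem dir_injective (k : ℕ) (i : C.ι k) : Function.Injective (C.dir k i) :=
  idir_injective (C.ax k) C.P0.t i

/-! ### Numbers -/

/-- The digits of the inverse of the first element of the pair. -/
noncomputable def apN (k i : ℕ) : C.K := (dgT (T3 C.K) (C.z k) i).2.2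

/-- The digits of the second element of the pair. -/
noncomputable def beN (k i : ℕ) : C.K := (dgT (T3 C.K) (C.z k) i).2.1

theorem isNat_ap (k : ℕ) : IsNatOf (C.apN k) (C.ap k) := fun _ => rfl

theorem isNat_be (k : ℕ) : IsNatOf (C.beN k) (C.be k) := fun _ => rfl

/-- The number of directions. -/
noncomputable def nD (k : ℕ) : ℕ := Q.nD (C.h k) (C.apN k) (C.beN k) C.P0.t

/-- Numbers of pairs of directions. -/
noncomputable def eDD (k : ℕ) : C.ι k × C.ι k ≃ Fin (C.nD k * C.nD k) :=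
  Q.eDD (C.isNat_ap k) (C.isNat_be k) C.P0.t

/-- The root of the number of elements of the field. -/
def r : ℕ := 2 ^ (C.P0.s / 2)

theorem r_sq : C.r * C.r = Fintype.card C.K := by
  rw [C.card]
  unfold r Pars.q
  obtain ⟨m, hm⟩ := C.P0.even_s
  rw [← pow_add]
  congr 1
  omega

section PT

variable {A : Set Word} {α : Type} [Enc α] {k : α → ℕ}

theorem PT_h (hk : PT A k) (hb : PBd fun x => 2 ^ k x) : PT A fun x => C.h (k x) :=
  PT.hLen B C.P0.N0 hk (hb.mono fun _ => Nat.lt_two_pow_self.le)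

theorem PBd_h (hb : PBd fun x => 2 ^ k x) : PBd fun x => 2 ^ C.h (k x) :=
  PBd.two_pow_hLen B C.P0.N0 hb

theorem PBd_h' (hb : PBd fun x => 2 ^ k x) : PBd fun x => C.h (k x) :=
  (C.PBd_h hb).mono fun _ => Nat.lt_two_pow_self.le

theorem PT_z (hk : PT A k) (hb : PBd fun x => 2 ^ k x) : PT A fun x => C.z (k x) :=
  PT.sch _ (C.PT_h hk hb) (C.PBd_h hb)

/-- **The code domain on numbers.** -/
noncomputable def en (hk : PT A k) (hb : PBd fun x => 2 ^ k x) :
    ENum A (fun x => C.h (k x)) (Y := fun x => C.Y (k x)) fun x => C.sys (k x) :=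
  enumY (a := fun x => C.a (k x)) (z := fun x => C.z (k x)) (C.PT_h hk hb) (C.PBd_h hb)
    (C.PT_z hk hb) (fun x => C.al_sum (k x)) fun x => C.cv_eq (k x)

theorem en_num (hk : PT A k) (hb : PBd fun x => 2 ^ k x) (x : α) (y : C.Y (k x)) :
    (C.en hk hb).num x y = numZ (TY C.K) (C.h (k x)) y := rfl

theorem PTz_apN (hk : PT A k) (hb : PBd fun x => 2 ^ k x) :
    PTz A (fun x => C.h (k x)) fun x => C.apN (k x) :=
  PTz.dg (T := T3 C.K) (C.PT_h hk hb) (C.PBd_h' hb) (fun _ => Nat.two_pow_pos _) (C.PT_z hk hb)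
    fun t => t.2.2

theorem PTz_beN (hk : PT A k) (hb : PBd fun x => 2 ^ k x) :
    PTz A (fun x => C.h (k x)) fun x => C.beN (k x) :=
  PTz.dg (T := T3 C.K) (C.PT_h hk hb) (C.PBd_h' hb) (fun _ => Nat.two_pow_pos _) (C.PT_z hk hb)
    fun t => t.2.1

theorem PT_nD (hk : PT A k) (hb : PBd fun x => 2 ^ k x) : PT A fun x => C.nD (k x) :=
  PT.nD (C.PT_h hk hb) (C.PBd_h' hb) (C.PTz_apN hk hb) (C.PTz_beN hk hb) C.P0.t

theorem PBd_nD (hb : PBd fun x => 2 ^ k x) : PBd fun x => C.nD (k x) :=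
  PBd.nD _ _ (C.PBd_h' hb) C.P0.t

/-- The directions on numbers. -/
theorem PT_dirN {β : Type} [Enc β] (hk : PT A k) (hb : PBd fun x => 2 ^ k x) {x : β → α}
    {i : β → ℕ} (hx : PT A x) (hi : PT A i) (u : C.K) :
    PT A fun b => dirN2 (C.h (k (x b))) (C.apN (k (x b))) (C.beN (k (x b))) C.P0.t (i b) u :=
  PT.dirN2 (h := fun x => C.h (k x)) (x := x) (u := fun _ : β => (u : C.K)) (C.PT_h hk hb)
    (C.PBd_h' hb) (C.PTz_apN hk hb) (C.PTz_beN hk hb) C.P0.t hx hi (PTt.const u)

end PT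

theorem dirN2_ok (k : ℕ) (u : C.K) (i : C.ι k × C.ι k) :
    dirN2 (C.h k) (C.apN k) (C.beN k) C.P0.t (C.eDD k i) u =
      eYY C.K (C.h k) (pdir (C.dir k) (C.dir k) i u) :=
  dirN2_eDD (C.isNat_ap k) (C.isNat_be k) C.P0.t i u

end XC

end Vale.Agent.P330.FM
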