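import Vale.Agent.P330.FM.FSys
import Vale.Agent.P330.FM.Flag
import Vale.Agent.P330.FM.XHot
import Vale.Agent.P330.H972.XFacts

/-!
# Functional module: the flag and the output of a functional system

For the local code `codeX C S` of a machine with external bits:
* `ttB own ofN kc`: the flag.  It applies the test of the identities with kernel bits which are
  computed from the bits of the public kernels (`regK`), and checks that the side `A` is full.
* `xoB isOut ofN l`: the output: the corrected read of the sum of the components `e` of the base of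
  `A` with `isOut e`, with the factor `l`.
* `evB_ttB`, `evB_xoB`: their values; `tt_end`, `xo_end`: their values for the words of the final
  extended states; `tt_sound`: soundness.
-/

namespace Vale.Agent.P330.FM

open Finset PCP.AR
open Vale.Agent.P330.Q Vale.Agent.P330.H972
open Vale.Agent.P318.S (PolyLe Low)
open Vale.Agent.P330.S (b2 BitDef)
open scoped BigOperators

variable {nC B m : ℕ} (C : XC nC B m) (S : XSpec) {Rd CB : Type}

/-! ### Definitions -/

open Classical in
/-- The linear check: the side `A` is full. -/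
noncomputable def lcT : Unit → Fn S.Cell (XVOut S) × Mv B (TY C.K) → C.K :=
  fun _ a => if a = (.uT false, .one) then 1 else 0

/-- The public bits of the test, from the bits of the public kernels. -/
noncomputable def pvOf (own : S.Ext × Bool → S.Cell → Bool)
    (ob : Chn S.Cell (XVOut S) → (Fin B → Option (XCt S)) → C.K → Bool) :
    Unit ⊕ AV C.K S.Cell (XVOut S) B ⊕ Chn S.Cell (XVOut S) × (Fin B → Option S.Cell) × C.K →
      Bool :=
  Sum.elim (fun _ => false) (Sum.elim (fun _ => false) fun v =>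
    decide (C.φ (v.2.2 * regK own (fun c g => bdec C.φ (ob c g)) v.1 v.2.1) = 1))

open Classical in
/-- **The flag.** -/
noncomputable def ttB (own : S.Ext × Bool → S.Cell → Bool) (ofN : (codeX C S).Raw → Rd)
    (kc : Chn S.Cell (XVOut S) → (Fin B → Option (XCt S)) → C.K → CB) : BitDef Unit Rd CB where
  ι := (codeX C S).spec.TK ⊕ (Chn S.Cell (XVOut S) × (Fin B → Option (XCt S)) × C.K)
  fι := inferInstance
  inp := Sum.elim (fun k => .inl (ofN ((codeX C S).spec.tRd k).1, ()))
    fun q => .inr (kc q.1 q.2.1 q.2.2)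
  f y := decide ((codeX C S).spec.tF (fun k => y (.inl k))
      (pvOf C S own fun c g l => y (.inr (c, g, l))) = true ∨
    LinFail C.φ (lcT C S) (fun k => (codeX C S).cval (fun p => y (.inl (.inl p))) k)
      (fun _ l => decide (C.φ (l * 1) = 1)))

/-- **The output.** -/
noncomputable def xoB (isOut : S.Cell → Bool) (ofN : (codeX C S).Raw → Rd) (l : C.K) :
    BitDef Unit Rd CB where
  ι := S.Cell × (codeX C S).U
  fι := inferInstance
  inp i := .inl (ofN (.inl (.inr (some ((.uW false i.1, .one), l)), i.2)), ())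
  f y := decide (∑ e : S.Cell, (if isOut e then ∑ u : (codeX C S).U, b2 (y (e, u)) else 0) = 1)

/-! ### Values -/

/-- points -/
abbrev PtX (k : ℕ) : Type := (C.Y k × C.Y k) × (Comp S.Cell (XVOut S) (C.h k) → C.K)

/-- pads -/
abbrev PadX (k : ℕ) : Type :=
  QPad C.K (Comp S.Cell (XVOut S) (C.h k)) (C.ι k × C.ι k) C.P.Dc

section ev

variable {C S} {k : ℕ} {X : Type} (M : DomData C.K (C.h k) B (C.Y k) S.Cell (XVOut S) X)

/-- The instance of the code for the data `M`. -/
noncomputable abbrev instM : CInst (codeX C S) :=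
  mkInst2 M 1 (tInst M (C.dg k) C.φ) (pdir (C.dir k) (C.dir k)) (C.Y_add_self k)

/-- The flag test for the data `M`. -/
def FlagM (f : PtX C S k → Bool) (ω : PtX C S k × PadX C S k) : Prop :=
  FlagFail C.φ_ne (C.P.Dc_1' C.card_K) (C.P.Dc_2' C.card_K) M 1 (C.dg k)
    (pdir (C.dir k) (C.dir k)) (C.Y_add_self k) (lcT C S) (fun _ _ => 1) f ω

/-- The test only looks at the bits of the kernels. -/
theorem tF_pub {N : Code} (y : N.spec.TK → Bool) {pv pv' : N.V → Bool}
    (h : ∀ r, N.testF r pv = N.testF r pv') : N.spec.tF y pv = N.spec.tF y pv' := by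
  show (decide (∑ u : N.F, b2 (y (.inr u)) ≠ 0) ||
    decide (y (.inr 0) ≠ N.cval (fun p => y (.inl p)) N.kt0) ||
    N.testF (N.cval fun p => y (.inl p)) pv) = (decide (∑ u : N.F, b2 (y (.inr u)) ≠ 0) ||
    decide (y (.inr 0) ≠ N.cval (fun p => y (.inl p)) N.kt0) ||
    N.testF (N.cval fun p => y (.inl p)) pv')
  rw [h]

theorem testF_mk {F : Type} [Field F] [Fintype F] [DecidableEq F] [CharP F 2] {Cell V : Type}
    [Fintype Cell] [DecidableEq Cell] [Fintype V] [DecidableEq V] {φ : F →+ ZMod 2} {hφ : φ ≠ 0}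
    {D : ℕ} {hD : Fintype.card F ≤ 2 * D + 1} {hD2 : D + 2 ≤ Fintype.card F} {T : THalf}
    (r : Option T.KT → Bool) {pv pv' : Unit ⊕ AV F Cell V B ⊕ T.VT → Bool}
    (h : ∀ v, pv (.inr (.inr v)) = pv' (.inr (.inr v))) :
    (mkCode Cell V B φ hφ D hD hD2 T).testF r pv = (mkCode Cell V B φ hφ D hD hD2 T).testF r pv' := by
  show T.testF (fun k => r (some k)) (fun v => pv (.inr (.inr v))) =
    T.testF (fun k => r (some k)) (fun v => pv' (.inr (.inr v)))
  rw [funext h]

theorem rdc_eq {N : Code} (I : CInst N) (f : I.P → Bool) (k : N.K ⊕ N.KT) (ω : I.P × I.Z)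
    (y : (N.K ⊕ N.KT) × N.U → Bool) (hy : ∀ p, y (k, p) = f (I.rd (.inl (k, p)) ω).1) :
    N.cval y k = rdc I f k ω := by
  unfold Code.cval rdc
  simp only [hy]

/-- **The value of the flag.** -/
theorem evB_ttB {own : S.Ext × Bool → S.Cell → Bool} {ofN : (codeX C S).Raw → Rd}
    {kc : Chn S.Cell (XVOut S) → (Fin B → Option (XCt S)) → C.K → CB}
    {K : Chn S.Cell (XVOut S) → (Fin B → Option (XCt S)) → C.Y k → C.Y k → C.K}
    (hMK : M.K = regroup own K)
    {rd : Rd → PtX C S k × PadX C S k → PtX C S k × PadX C S k}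
    {cb : CB → PtX C S k × PadX C S k → Bool}
    (hrd : ∀ R ω, rd (ofN R) ω = (instM M).rd R ω)
    (hcb : ∀ c g l ω, cb (kc c g l) ω = decide (C.φ (l * K c g ω.1.1.1 ω.1.1.2) = 1))
    (f : PtX C S k → Bool) (ω : PtX C S k × PadX C S k) :
    evB (ttB C S own ofN kc) (fun R _ => f (rd R ω).1) (fun c => cb c ω) = true ↔
      FlagM M f ω := by
  classical
  have e1 : evB (ttB C S own ofN kc) (fun R _ => f (rd R ω).1) (fun c => cb c ω) =
      decide ((codeX C S).spec.tF (fun q => f (rd (ofN ((codeX C S).spec.tRd q).1) ω).1)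
        (pvOf C S own fun c g l => cb (kc c g l) ω) = true ∨
      LinFail C.φ (lcT C S) (fun q => (codeX C S).cval
        (fun p => f (rd (ofN ((codeX C S).spec.tRd (.inl p)).1) ω).1) q)
        (fun _ l => decide (C.φ (l * 1) = 1))) := rfl
  have e2 : (fun q => f (rd (ofN ((codeX C S).spec.tRd q).1) ω).1) =
      rawT (instM M) f ω := funext fun q => congrArg (fun z => f z.1) (hrd _ ω)
  have e3 : (codeX C S).spec.tF (rawT (instM M) f ω)
        (pvOf C S own fun c g l => cb (kc c g l) ω) =
      (codeX C S).spec.tF (rawT (instM M) f ω) (fun v => (instM M).v v ω.1.1 ω.1.2) := by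
    refine tF_pub _ fun r => testF_mk r fun v => ?_
    show decide (C.φ (v.2.2 * regK own (fun c g => bdec C.φ fun l =>
      cb (kc c g l) ω) v.1 v.2.1) = 1) =
      decide (C.φ (v.2.2 * M.K v.1 v.2.1 ω.1.1.1 ω.1.1.2) = 1)
    rw [hMK]
    simp only [hcb, bdec_decide C.φ C.φ_ne]
    rfl
  have e4 : (fun q => (codeX C S).cval
      (fun p => f (rd (ofN ((codeX C S).spec.tRd (.inl p)).1) ω).1) q) =
      fun q => rdc (instM M) f (.inr q) ω := by
    funext q
    refine Eq.trans ?_ (rdc_eq (instM M) f (.inr q) ω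
      (fun p => f ((instM M).rd (.inl p) ω).1) fun p => rfl)
    unfold Code.cval
    exact congrArg (fun x : ZMod 2 => decide (x = 1)) (Finset.sum_congr rfl fun p _ =>
      congrArg (fun z => b2 (f z.1)) (hrd _ ω))
  rw [e1, decide_eq_true_iff]
  unfold FlagM FlagFail
  refine or_congr (Iff.of_eq (congrArg (· = true) (Eq.trans ?_ e3))) (Iff.of_eq
    (congrArg (fun r => LinFail C.φ (lcT C S) r fun _ l => decide (C.φ (l * 1) = 1)) e4))
  exact congrArg (fun y => (codeX C S).spec.tF y (pvOf C S own fun c g l => cb (kc c g l) ω)) e2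

/-- The bits of the corrected reads of a word. -/
theorem bitc_some (G : C.Y k × C.Y k → Comp S.Cell (XVOut S) (C.h k) → C.K)
    (a : Fn S.Cell (XVOut S) × Mv B (TY C.K)) (l : C.K) (x : PtX C S k) :
    bitc (instM M) G (.inr (some (a, l))) x =
      decide (C.φ (l * M.atv (C.dg k) G x.1 x.2 a) = 1) := by
  show decide (C.φ (∑ j, (l • fn x.2 a.1) j * G (M.mv (C.dg k) a.2 x.1) j) = 1) = _
  unfold DomData.atv
  rw [Finset.mul_sum]
  have h3 : ∀ j, (l • fn x.2 a.1) j * G (M.mv (C.dg k) a.2 x.1) j =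
      l * (fn x.2 a.1 j * G (M.mv (C.dg k) a.2 x.1) j) := fun j => by
    rw [Pi.smul_apply, smul_eq_mul, mul_assoc]
  simp only [h3]

/-- **The value of the output.** -/
theorem evB_xoB {isOut : S.Cell → Bool} {ofN : (codeX C S).Raw → Rd} {l : C.K}
    {rd : Rd → PtX C S k × PadX C S k → PtX C S k × PadX C S k}
    (hrd : ∀ R ω, rd (ofN R) ω = (instM M).rd R ω) (cb : CB → Bool)
    {f : PtX C S k → Bool} {ω : PtX C S k × PadX C S k}
    {G : C.Y k × C.Y k → Comp S.Cell (XVOut S) (C.h k) → C.K}
    (h : ∀ e, isOut e = true → rdc (instM M) f (.inr (some ((.uW false e, .one), l))) ω =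
      bitc (instM M) G (.inr (some ((.uW false e, .one), l))) ω.1) :
    evB (xoB C S isOut ofN l) (fun R _ => f (rd R ω).1) cb =
      decide (C.φ (l * ∑ e, if isOut e then G ω.1.1 (.W false e) else 0) = 1) := by
  have e1 : evB (xoB C S isOut ofN l) (fun R _ => f (rd R ω).1) cb =
      decide (∑ e : S.Cell, (if isOut e then ∑ u : (codeX C S).U,
        b2 (f (rd (ofN (.inl (.inr (some ((.uW false e, .one), l)), u))) ω).1) else 0) = 1) := rfl
  rw [e1]
  congr 2
  rw [Finset.mul_sum, map_sum]
  refine Finset.sum_congr rfl fun e _ => ?_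
  split_ifs with he
  · have h1 : ∑ u : (codeX C S).U,
        b2 (f (rd (ofN (.inl (.inr (some ((.uW false e, .one), l)), u))) ω).1) =
        b2 (rdc (instM M) f (.inr (some ((.uW false e, .one), l))) ω) := by
      unfold rdc
      rw [b2_decide]
      exact Finset.sum_congr rfl fun u _ => congrArg (fun z => b2 (f z.1)) (hrd _ ω)
    rw [h1, h e he, bitc_some, b2_decide, DomData.atv_uW]
    rfl
  · rw [mul_zero, map_zero]

end ev

/-! ### The data of a machine -/

section reg

variable {S} {k : ℕ} (I : XInst S) (σ : XSlot S ≃ Fin B) (ε : I.J ≃ Addr k)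
  (s : S.Ext → I.J → Bool) (hI : I.Facts s) (own : S.Ext × Bool → S.Cell → Bool)

/-- The data with regrouped kernels. -/
noncomputable def regX : DomData C.K (C.h k) B (C.Y k) S.Cell (XVOut S) (I.J → S.Cell) :=
  setK (xdata (C.sys k) I σ ε s hI) (regroup own (xker (C.sys k) I σ ε))

/-- What is needed for the soundness of the flag. -/
noncomputable def flagHypX : FlagHyp (regX C I σ ε s hI own) (C.dg k) (C.dir k) C.P.t C.lam where
  deg := degReg C I σ ε s hI own
  low1 c γ ρ₀ y i := by
    show PolyLe C.K (fun u => regroup own (xker (C.sys k) I σ ε) c γ (ρ₀ + C.dir k i u) y) C.P.t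
    classical
    unfold regroup regK
    refine PolyLe.sum _ fun g _ => ?_
    split_ifs
    · exact (H972.xker_low1 C I σ ε c g ρ₀ y i).mono (Nat.le_mul_of_pos_left _ (by omega))
    · exact PolyLe.zero _
  gen := genX C I σ ε s hI
  inj i := pdir_injective _ _ i (C.dir_injective k i.1)
  spr := (C.spr k).2.2

theorem regX_rd (R : (codeX C S).Raw) :
    (instM (regX C I σ ε s hI own)).rd R = (famX C I σ ε s hI).rd R := by
  rcases R with ⟨(_ | κ) | (_ | κ), p⟩ | u <;> rfl

/-- Sums of components of the code of a configuration. -/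
theorem sum_xcf (P : S.Cell → Bool) (w : I.J → S.Cell) (y : C.Y k) :
    (∑ e, if P e = true then (C.sys k).code (xcf I ε w e) y else 0) =
      (C.sys k).code (fun a => if P (w (ε.symm a)) = true then 1 else 0) y := by
  have h1 : (fun a : Addr k => if P (w (ε.symm a)) = true then (1 : C.K) else 0) =
      ∑ e, if P e = true then xcf I ε w e else 0 := by
    funext a
    rw [Finset.sum_apply, Finset.sum_eq_single (w (ε.symm a))]
    · split_ifs
      · exact (onehot_self (fun a => w (ε.symm a)) a).symm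
      · rfl
    · intro e _ he
      split_ifs
      · exact onehot_ne (fun a => w (ε.symm a)) (Ne.symm he)
      · rfl
    · intro hh
      exact absurd (Finset.mem_univ _) hh
  rw [h1, map_sum, Finset.sum_apply]
  refine Finset.sum_congr rfl fun e _ => ?_
  split_ifs
  · rfl
  · rw [map_zero]
    rfl

theorem sum_lcT (v : Fn S.Cell (XVOut S) × Mv B (TY C.K) → C.K) (ξ : Unit) :
    ∑ a, lcT C S ξ a * v a = v (.uT false, .one) := by
  classical
  unfold lcT
  rw [Finset.sum_eq_single (.uT false, .one)]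
  · rw [if_pos rfl, one_mul]
  · intro a _ ha
    rw [if_neg ha, zero_mul]
  · intro hh
    exact absurd (Finset.mem_univ _) hh

end reg

/-! ### Soundness -/

/-- **Soundness of the flag.**  If the flag is rarely raised then the output is the code of the
output letters of a configuration `w` with the right static contents and the right windows which do
not look at the external bits. -/
theorem tt_sound (σ : XSlot S ≃ Fin B) (own : S.Ext × Bool → S.Cell → Bool)
    (isOut : S.Cell → Bool) :
    ∀ ρ : ℝ, 0 < ρ → ∃ κ : ℝ, 0 < κ ∧ ∀ (k : ℕ) (I : XInst S) (ε : I.J ≃ Addr k)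
      (s : S.Ext → I.J → Bool) (hI : I.Facts s) (ofN : (codeX C S).Raw → Rd)
      (kc : Chn S.Cell (XVOut S) → (Fin B → Option (XCt S)) → C.K → CB)
      (rd : Rd → PtX C S k × PadX C S k → PtX C S k × PadX C S k)
      (cb : CB → PtX C S k × PadX C S k → Bool)
      (_ : ∀ R ω, rd (ofN R) ω = (famX C I σ ε s hI).rd R ω)
      (_ : ∀ c g l ω, cb (kc c g l) ω =
        decide (C.φ (l * xker (C.sys k) I σ ε c g ω.1.1.1 ω.1.1.2) = 1))
      (f : PtX C S k → Bool),
      pr (fun ω : PtX C S k × PadX C S k => evB (ttB C S own ofN kc)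
        (fun R _ => f (rd R ω).1) (fun c => cb c ω) = true) ≤ κ →
      ∃ w : I.J → S.Cell, (∀ j, S.statOf (w j) = I.stat j) ∧
        (∀ j β, S.dep (fun t => w (j + I.off (S.win t))) = false →
          S.allowed β (fun t => w (j + I.off (S.win t))) = true) ∧
        pr (fun ω : PtX C S k × PadX C S k => ∃ l, evB (xoB C S isOut ofN l)
          (fun R _ => f (rd R ω).1) (fun c => cb c ω) ≠ decide (C.φ (l * (C.sys k).code
            (fun a => if isOut (w (ε.symm a)) = true then 1 else 0) ω.1.1.2) = 1)) ≤ ρ := by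
  intro ρ hρ
  have h0 := C.P.hids (n := nX C S) (d1 := C.P.d') (le_refl _)
  set nn : ℝ := (Fintype.card (S.Cell × C.K) : ℝ) with hnn
  have hnn0 : 0 ≤ nn := by rw [hnn]; positivity
  obtain ⟨κ, hκ, hsound⟩ := flag_sound (F := C.K) (Cell := S.Cell) (V := XVOut S) (Dg := TY C.K)
    (B := B) (φ := C.φ) (hφ := C.φ_ne) (D := C.P.Dc) (hD := C.P.Dc_1' C.card_K)
    (hD2 := C.P.Dc_2' C.card_K) (t := C.P.t) (lam := C.lam) (κ₀ := κX C S) (τ₀ := 1 / 4)
    (d' := C.P.d') (lam_pos C).le (by rw [C.card_K]; exact C.P.q_mul_lam)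
    (by rw [C.card_K, C.P.Dc_3]; exact le_refl _) (by rw [C.card_K, C.P.Dc_3]; exact le_refl _)
    (κX_pos C (S := S)) (by norm_num) h0.1 (by rw [C.card_K]; exact h0.2) (lcT C S)
    (ρ / (nn + 1)) (by positivity)
  refine ⟨κ, hκ, ?_⟩
  intro k I ε s hI ofN kc rd cb hrd hcb f hf
  have hrd' : ∀ R ω, rd (ofN R) ω = (instM (regX C I σ ε s hI own)).rd R ω := by
    intro R ω
    rw [regX_rd]
    exact hrd R ω
  have hne : Nonempty (C.ι k) := (C.spr k).1
  obtain ⟨G, g1, g2, g3, g4, -⟩ := hsound (C.h k) (C.Y k) (I.J → S.Cell) (C.ι k)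
    (regX C I σ ε s hI own) 1 (C.dg k) (C.dir k) (C.Y_add_self k) (flagHypX C I σ ε s hI own)
    (fun _ _ => 1) (fun _ _ _ => PolyLe.const (1 : C.K) _) f
    ((pr_mono fun ω hω => (evB_ttB (regX C I σ ε s hI own) rfl hrd' hcb f ω).2 hω).trans hf)
  -- the side `A` is full
  have hT : ∀ p, G p (.T false (Fin.last (C.h k))) = 1 := by
    intro p
    have h1 := g3 () p 0
    rw [sum_lcT, DomData.atv_uT] at h1
    exact h1
  obtain ⟨b1, b2⟩ := full_base g2 false hT
  obtain ⟨w, w1, w2, w3⟩ := exists_onehot (C.sys k) I σ ε s hI (C.le_h k)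
    (C.le_h' (one_le_B σ) k) (regX C I σ ε s hI own) rfl rfl rfl
    (fun c hc γ ρ y => regroup_free (C.sys k) I σ ε hc γ ρ y)
    (fun e y => G (0, y) (.W false e)) b1 (fun i _ => b2 i)
  have hW : ∀ (p : C.Y k × C.Y k) e, G p (.W false e) = (C.sys k).code (xcf I ε w e) p.2 := by
    intro p e
    have h1 : G (0, p.2) (.W false e) = (C.sys k).code (xcf I ε w e) p.2 :=
      congrFun (congrFun w3 e) p.2
    rw [← h1]
    exact g2.W_ind p.1 0 p.2 false e
  refine ⟨w, w1, w2, ?_⟩
  have h3 := pr_ex_le (fun (q : S.Cell × C.K) (ω : PtX C S k × PadX C S k) =>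
    rdc (instM (regX C I σ ε s hI own)) f (.inr (some ((.uW false q.1, .one), q.2))) ω ≠
    bitc (instM (regX C I σ ε s hI own)) G (.inr (some ((.uW false q.1, .one), q.2))) ω.1) _
    fun q => g4 _
  refine (pr_mono fun ω hω => ?_).trans (h3.trans ?_)
  · by_contra hk
    push Not at hk
    obtain ⟨l, hl⟩ := hω
    refine hl ?_
    rw [evB_xoB (regX C I σ ε s hI own) hrd' _ (G := G) fun e _ => hk (e, l)]
    simp only [hW]
    rw [sum_xcf]
  · rw [mul_div_assoc', div_le_iff₀ (by positivity)]
    nlinarith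

/-! ### Final states -/

theorem wstep_spec {N : Code} (J : CInst N) (z : Bool) {x : J.Y → J.E} (h : J.WVal x) :
    ∃ st, J.Val st ∧ x = J.sec st ∧ J.wstep z x = J.sec (J.step z st) :=
  ⟨h.choose, h.choose_spec.1, h.choose_spec.2, by
    unfold CInst.wstep
    exact dif_pos h⟩

section fin

variable {S} {k : ℕ} (I : XInst S) (σ : XSlot S ≃ Fin B) (ε : I.J ≃ Addr k)
  (s : S.Ext → I.J → Bool) (hI : I.Facts s) {own : S.Ext × Bool → S.Cell → Bool}

/-- The words without successor are the words of the final extended states. -/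
theorem end_state {x : C.Y k × C.Y k → Comp S.Cell (XVOut S) (C.h k) → C.K}
    (h : (famX C I σ ε s hI).WVal x)
    (h' : ¬ (famX C I σ ε s hI).WVal ((famX C I σ ε s hI).wstep false x)) :
    ∃ st : St (I.J → S.Cell), (xdyn I s hI).VE (C.h k + 1) st ∧
      x = (xdata (C.sys k) I σ ε s hI).word st ∧ st.ht false = C.h k + 1 ∧
      I.Valid s (st.base false) ∧ st.base true = I.step s false (st.base false) ∧
      ¬ I.Valid s (I.step s false (st.base false)) := by
  obtain ⟨st, h1, h2, h3⟩ := wstep_spec (famX C I σ ε s hI) false h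
  have h4 : ¬ (xdyn I s hI).VE (C.h k + 1) ((xdyn I s hI).stepE (C.h k + 1) false st) :=
    fun h5 => h' ⟨_, h5, h3⟩
  have h5 := Dyn.not_ve_stepE (Nat.succ_pos (C.h k)) h1 h4
  exact ⟨st, h1, h2, h5.2.1, h5.2.2.2.1, h5.2.2.2.2.1, h5.2.2.2.2.2⟩

/-- The word of an extended state whose bases contain the external bits satisfies the identities
of the regrouped kernels. -/
theorem ids_regX {st : St (I.J → S.Cell)} (hst : (xdyn I s hI).VE (C.h k + 1) st)
    (hown : ∀ τ d b j, own (d, b) (st.base τ j) = decide (s d j = b)) :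
    (regX C I σ ε s hI own).Ids ((xdata (C.sys k) I σ ε s hI).word (h := C.h k) st) := by
  refine (ids_absorb_iff (xdata (C.sys k) I σ ε s hI) (K := xker (C.sys k) I σ ε)
    (S := xword (C.sys k) I ε s) fun τ d ρ y => ?_).1
      ((domX C I σ ε s hI).complete hst)
  refine (sum_xcf C I ε (own d) (st.base τ) y).trans ?_
  refine congrFun (congrArg (C.sys k).code (funext fun a => ?_)) y
  unfold lit extA
  rw [hown τ d.1 d.2]
  simp only [decide_eq_true_eq]

/-- **The flag is not raised in final states.** -/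
theorem tt_end {st : St (I.J → S.Cell)} (hst : (xdyn I s hI).VE (C.h k + 1) st)
    (hht : st.ht false = C.h k + 1)
    (hown : ∀ τ d b j, own (d, b) (st.base τ j) = decide (s d j = b))
    {ofN : (codeX C S).Raw → Rd}
    {kc : Chn S.Cell (XVOut S) → (Fin B → Option (XCt S)) → C.K → CB}
    {rd : Rd → PtX C S k × PadX C S k → PtX C S k × PadX C S k}
    {cb : CB → PtX C S k × PadX C S k → Bool}
    (hrd : ∀ R ω, rd (ofN R) ω = (famX C I σ ε s hI).rd R ω)
    (hcb : ∀ c g l ω, cb (kc c g l) ω =
      decide (C.φ (l * xker (C.sys k) I σ ε c g ω.1.1.1 ω.1.1.2) = 1))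
    (ω : PtX C S k × PadX C S k) :
    evB (ttB C S own ofN kc) (fun R _ => wbit C.φ (rd R ω).1.2
      ((xdata (C.sys k) I σ ε s hI).word st (rd R ω).1.1)) (fun c => cb c ω) = false := by
  have hrd' : ∀ R ω, rd (ofN R) ω = (instM (regX C I σ ε s hI own)).rd R ω := by
    intro R ω
    rw [regX_rd]
    exact hrd R ω
  have hne : Nonempty (C.ι k) := (C.spr k).1
  rw [← Bool.not_eq_true]
  intro h1
  have h2 := (evB_ttB (regX C I σ ε s hI own) (K := xker (C.sys k) I σ ε) rfl hrd' hcb
    (fun x => wbit C.φ x.2 ((xdata (C.sys k) I σ ε s hI).word st x.1)) ω).1 h1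
  refine flag_complete (regX C I σ ε s hI own) 1 (C.dg k) (C.Y_add_self k)
    (lowX C I σ ε s hI st) (ids_regX C I σ ε s hI hst hown) (fun ξ p c => ?_) ω h2
  rw [sum_lcT]
  refine (DomData.atv_uT (M := regX C I σ ε s hI own) (dg := C.dg k)
    (G := (xdata (C.sys k) I σ ε s hI).word st) p c false .one).trans ?_
  show (if (Fin.last (C.h k) : ℕ) + 1 = st.ht false then (1 : C.K) else 0) = 1
  rw [hht]
  exact if_pos rfl

/-- **The output in final states.** -/
theorem xo_end (st : St (I.J → S.Cell)) {isOut : S.Cell → Bool}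
    {ofN : (codeX C S).Raw → Rd} {l : C.K}
    {rd : Rd → PtX C S k × PadX C S k → PtX C S k × PadX C S k}
    (hrd : ∀ R ω, rd (ofN R) ω = (famX C I σ ε s hI).rd R ω) (cb : CB → Bool)
    (ω : PtX C S k × PadX C S k) :
    evB (xoB C S isOut ofN l) (fun R _ => wbit C.φ (rd R ω).1.2
      ((xdata (C.sys k) I σ ε s hI).word st (rd R ω).1.1)) cb =
      decide (C.φ (l * (C.sys k).code
        (fun a => if isOut (st.base false (ε.symm a)) = true then 1 else 0) ω.1.1.2) = 1) := by
  have hrd' : ∀ R ω, rd (ofN R) ω =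
      (instM (regX C I σ ε s hI fun _ _ => false)).rd R ω := by
    intro R ω
    rw [regX_rd]
    exact hrd R ω
  have hw : (instM (regX C I σ ε s hI fun _ _ => false)).IsWord
      ((xdata (C.sys k) I σ ε s hI).word st) := lowX C I σ ε s hI st
  have h1 := evB_xoB (regX C I σ ε s hI fun _ _ => false) (isOut := isOut) hrd' cb (l := l)
    (f := fun x => wbit C.φ x.2 ((xdata (C.sys k) I σ ε s hI).word st x.1)) (ω := ω)
    (G := (xdata (C.sys k) I σ ε s hI).word st)
    fun e _ => CInst.cval_read _ hw (.inr (some ((.uW false e, .one), l))) ω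
  refine h1.trans ?_
  have h2 := sum_xcf C I ε isOut (st.base false) ω.1.1.2
  rw [← h2]
  rfl

end fin

end Vale.Agent.P330.FM
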