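import Vale.Agent.P330.FM.FTTm
import Vale.Agent.P330.H972.FInstD

/-!
# Functional modules: flag and output of the concrete functional system

The fields `tt_ok`, `xo_ok` of `FInst.Facts` and `TTSound` for the instances `finst` of `H972`.
-/

namespace Vale.Agent.P330.FM

open Finset PCP.AR
open Vale.Agent.P330.Q hiding net
open Vale.Agent.P330.H972 Vale.Agent.P330.FM.TM Vale.Agent.Lib.PolyTime
open Vale.Agent.P330.H800 (Tab)
open Vale.Agent.P330.H475 (Wd)
open Vale.Agent.P330.S (BitDef)

/-- **The definitions of the concrete functional system.** -/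
noncomputable def defsM {kk mm : ℕ} {τ : Tab kk} (C : XC (nCm τ) (nBm τ) mm) : FDefs C where
  hw := hwX C (spec τ)
  xo := xoM C
  tt := ttM C

variable {kk mm : ℕ} {τ : Tab kk} {C : XC (nCm τ) (nBm τ) mm} (d : FDefs C)

section

variable (c : ℕ) {α : Type} [Enc α] {m : α → ℕ} (hm : PT ∅ m) (hb : PBd m) (a : α)

/-- The inner words of the instances are those of the machine. -/
theorem finst_valid {s : Fin kk → Wd (m a)} {w : (finst d c hm hb a).Cf} :
    (finst d c hm hb a).Valid s w ↔ (famB C c hm hb a s).WVal w.1 := Iff.rfl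

theorem finst_step {s : Fin kk → Wd (m a)} {w : (finst d c hm hb a).Cf} :
    ((finst d c hm hb a).step s false w).1 = (famB C c hm hb a s).wstep false w.1 := rfl

/-- **The field `tt_ok`.** -/
theorem finst_tt_ok (hd : d.tt = ttM C) (s : Fin kk → Wd (m a)) (w : (finst d c hm hb a).Cf)
    (hw : (finst d c hm hb a).Valid s w)
    (hw' : ¬ (finst d c hm hb a).Valid s ((finst d c hm hb a).step s false w))
    (ω : (finst d c hm hb a).W) :
    evB (fspec d).tt (fun R x => (finst d c hm hb a).cod w x ((finst d c hm hb a).rd R ω).1)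
      (fun v => (finst d c hm hb a).cb v ω) = false := by
  have h1 : (fspec d).tt = ttM C := hd
  rw [h1]
  exact ttM_ok (C := C) (c := c) (hm := hm) (hb := hb) (a := a) (X := s) (x := w.1)
    (rd := (finst d c hm hb a).rd) (cb := (finst d c hm hb a).cb)
    (fun _ _ => rfl) (fun _ _ => rfl) hw hw' ω

/-- **The field `xo_ok`.** -/
theorem finst_xo_ok (hd : ∀ l, d.xo l = xoM C l) (s : Fin kk → Wd (m a))
    (w : (finst d c hm hb a).Cf) (hw : (finst d c hm hb a).Valid s w)
    (hw' : ¬ (finst d c hm hb a).Valid s ((finst d c hm hb a).step s false w))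
    (l : C.K) (ω : (finst d c hm hb a).W) :
    evB ((fspec d).xo l) (fun R x => (finst d c hm hb a).cod w x ((finst d c hm hb a).rd R ω).1)
      (fun v => (finst d c hm hb a).cb v ω) =
        (finst d c hm hb a).enc ((finst d c hm hb a).F s) l ω.1 := by
  have h1 : (fspec d).xo l = xoM C l := hd l
  rw [h1]
  refine xoM_ok (C := C) (c := c) (hm := hm) (hb := hb) (a := a) (X := s) (x := w.1)
    (rd := (finst d c hm hb a).rd) (cb := (finst d c hm hb a).cb)
    (fun _ _ => rfl) hw hw' (b := outW τ c s) (fun j => ?_) l ω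
  refine (fin_out_bitsB τ c s j).trans ?_
  by_cases hj : j.val < m a
  · rw [if_pos hj, dif_pos hj, extB_of_lt _ hj]
  · rw [if_neg hj, dif_neg hj]

end

/-- **Soundness of the flag** for all instances of all families. -/
theorem ttSound_classF (ht : d.tt = ttM C) (hx : ∀ l, d.xo l = xoM C l) :
    TTSound (fspec d) (ClassF d) := by
  intro ρ hρ
  obtain ⟨κ, hκ, hs⟩ := ttM_sound C ρ hρ
  refine ⟨κ, hκ, ?_⟩
  rintro I ⟨c, α, _, m, hm, hb, a, rfl⟩ f hf
  have h1 : (fspec d).tt = ttM C := ht
  have h2 : ∀ l, (fspec d).xo l = xoM C l := hx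
  rw [h1] at hf
  obtain ⟨b, hb'⟩ := hs c hm hb a (finst d c hm hb a).rd (finst d c hm hb a).cb
    (fun _ _ => rfl) (fun _ _ => rfl) (f ()) hf
  refine ⟨b, ?_⟩
  simp only [h2]
  exact hb'

end Vale.Agent.P330.FM
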