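import Vale.Agent.P330.FM.PBits
import Vale.Agent.P330.H972.MFam

/-!
# Functional modules: the public bits of the family of the machines of a tableau

`mfamN` are the numbers of the family `mfam` (`mfamN_fam`); `pbM` the public bits of an instance of
the family, `cbM` the public bits on pairs of numbers.
-/

namespace Vale.Agent.P330.FM

open Finset Vale.Agent.P330.H800 Vale.Agent.P330.Q Vale.Agent.Lib.PolyTime
open Vale.Agent.P330.H972 Vale.Agent.P330.FM.TM

section

variable {kk mm : ℕ} {τ : Tab kk} (C : XC (nCm τ) (nBm τ) mm) (c : ℕ) {α : Type} [Enc α]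
  {m : α → ℕ} (hm : PT ∅ m) (hb : PBd m)

/-- **The family of the machines, with numbers.** -/
noncomputable def mfamN : MFam C (spec τ) α where
  σ := σm τ
  k x := 2 * aOf c (m x)
  PT_k := PT_two_mul (PT_aOf c hm)
  PB_k := PBd_two_pow_two_mul (PBd_aOf c hb)
  I x := inst τ (good_aOf c (m x))
  X := xnum τ (PT_aOf c hm) (PBd_aOf c hb) hm fun x => good_aOf c (m x)
  facts a s := facts (good_aOf c (m a)) s
  bl := bl τ
  hb := blankOK τ
  bl_w0 a j := blank_w0 (good_aOf c (m a)) j
  bl_back a s j := blank_back (good_aOf c (m a)) s j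
  h0 _ := 0
  PT_h0 := PT.const 0
  head a := head_w0 τ (PT_aOf c hm) (PBd_aOf c hb) hm (fun x => good_aOf c (m x)) a

theorem mfamN_fam : (mfamN C c hm hb).fam = mfam C c hm hb := rfl

/-- **The public bits** at a point of the family. -/
noncomputable def pbM (a : α) (v : PB C (spec τ)) (p : ((mfam C c hm hb).sk a).P) : Bool :=
  (mfamN C c hm hb).pb a v p

/-- The public bits are those of every instance. -/
theorem pbM_eq (a : α) (s : Fin kk → ZMod (2 ^ (2 * aOf c (m a))) → Bool) (v : PB C (spec τ))
    (p : ((mfam C c hm hb).sk a).P) :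
    pbM C c hm hb a v p = pbit C (inst τ (good_aOf c (m a))) (σm τ) (epsZ (2 * aOf c (m a))) s
      (facts (good_aOf c (m a)) s) v p :=
  (mfamN C c hm hb).pb_eq a s (facts (good_aOf c (m a)) s) v p

/-- **The public bits on pairs of numbers** (the word is not used). -/
noncomputable def cbM (v : PB C (spec τ)) : α × Word × ℕ × ℕ → Bool := (mfamN C c hm hb).cbN v

theorem cbM_eq (v : PB C (spec τ)) (a : α) (w : Word) (p : ((mfam C c hm hb).sk a).P) (z : ℕ) :
    cbM C c hm hb v (a, w, (((mfam C c hm hb).nm a).eP p : ℕ), z) = pbM C c hm hb a v p :=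
  (mfamN C c hm hb).cbN_eq v a w p z

theorem PT_cbM (v : PB C (spec τ)) : PT ∅ (cbM C c hm hb v) := (mfamN C c hm hb).PT_cbN v

end

end Vale.Agent.P330.FM
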