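import Vale.Agent.P330.FM.FTT
import Vale.Agent.P330.FM.MConc
import Vale.Agent.P330.FM.TMEnd
import Vale.Agent.P330.FM.XHw

/-!
# Functional modules: flag and output of the family of the machines of a tableau

* `ttM C`, `xoM C l`: the fields `tt`, `xo l` of the functional system: `ownM` compares the stored
  external bits of a cell, `outM` is the letter of the output.
* `ttM_ok`, `xoM_ok`: the fields `tt_ok`, `xo_ok` of `FInst.Facts`.
* `ttM_sound`: soundness of the flag, with constants which only depend on `C`.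
-/

namespace Vale.Agent.P330.FM

open Finset PCP.AR
open Vale.Agent.P330.Q hiding net
open Vale.Agent.P330.H972 Vale.Agent.P330.FM.TM Vale.Agent.Lib.PolyTime
open Vale.Agent.P330.H800 (Tab)
open Vale.Agent.P330.S (BitDef)

/-- The stored external bits. -/
def ownM {kk : ℕ} (τ : Tab kk) (d : (spec τ).Ext × Bool) (e : (spec τ).Cell) : Bool :=
  decide (TM.Cell.inb (A := τ.A) (k := kk) e d.1 = d.2)

/-- The letter of the output. -/
def outM {kk : ℕ} (τ : Tab kk) (e : (spec τ).Cell) : Bool :=
  decide ((show TM.Cell τ.A kk from e).out = some true)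

/-- The array of the output letters of a configuration whose outputs are the block `b`. -/
theorem outM_arrB {kk mm k n : ℕ} {τ : Tab kk} (C : XC (nCm τ) (nBm τ) mm)
    {w : ZMod (2 ^ k) → TM.Cell τ.A kk} {b : Fin n → Bool}
    (h : ∀ j, outM τ (w j) = extB b j) :
    (fun x : Addr k => if outM τ (w ((epsZ k).symm x)) = true then (1 : C.K) else 0) =
      arrB C k b := by
  funext x
  unfold arrB
  rw [h]

/-- Right static contents and right windows without external bits: there is no output at the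
positions `≥ m`. -/
theorem outM_eq_false {kk L : ℕ} {τ : Tab kk} {P : Prm} (h : Good P L)
    {w : (inst τ h).J → (spec τ).Cell}
    (h1 : ∀ j, (spec τ).statOf (w j) = (inst τ h).stat j)
    (h2 : ∀ j β, (spec τ).dep (fun t => w (j + (inst τ h).off ((spec τ).win t))) = false →
      (spec τ).allowed β (fun t => w (j + (inst τ h).off ((spec τ).win t))) = true)
    {j : (inst τ h).J} (hj : P.m ≤ ZMod.val (n := L) j) : outM τ (w j) = false := by
  have e0 : w (j + (inst τ h).off ((spec τ).win 0)) = w j := by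
    rw [(spec τ).win0, (inst τ h).off_zero, add_zero]
  obtain ⟨c, hc⟩ : ∃ c : Fin 6 → TM.Cell τ.A kk,
      c = fun t => w (j + (inst τ h).off ((spec τ).win t)) := ⟨_, rfl⟩
  have hc0 : c 0 = w j := by
    rw [hc]
    exact e0
  have h3 := h2 j (fun _ => false)
  have e1 : (c 0).st.io = false := by
    have e2 : (c 0).st = P.st (ZMod.val (n := L) j) := by
      rw [hc0]
      exact h1 j
    rw [e2]
    exact decide_eq_false (not_lt.2 hj)
  rw [← Bool.not_eq_true]
  intro h4
  have h5 : (c 0).out = some true := by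
    rw [hc0]
    exact of_decide_eq_true h4
  have h6 : (spec τ).dep c = false := by
    rw [← Bool.not_eq_true]
    intro h6
    have h7 := ((dep_iff c).1 h6).2.2
    rw [e1] at h7
    exact absurd h7 (by simp)
  have h7 : (spec τ).allowed (fun _ => false) c = true := by
    rw [hc] at h6 ⊢
    exact h3 h6
  have h8 : (spec τ).allowed (fun _ => false) c = false :=
    not_allowed_of_out (by rw [h5]; simp) e1
  exact absurd (h7.symm.trans h8) (by simp)

section

variable {kk mm : ℕ} {τ : Tab kk} (C : XC (nCm τ) (nBm τ) mm)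

/-- **The flag.** -/
noncomputable def ttM : BitDef Unit (XRd C (spec τ)) (PB C (spec τ)) :=
  ttB C (spec τ) (ownM τ) Sum.inl PB.ker

/-- **The output.** -/
noncomputable def xoM (l : C.K) : BitDef Unit (XRd C (spec τ)) (PB C (spec τ)) :=
  xoB C (spec τ) (outM τ) Sum.inl l

/-- **Soundness of the flag**, uniformly in all families. -/
theorem ttM_sound : ∀ ρ : ℝ, 0 < ρ → ∃ κ : ℝ, 0 < κ ∧ ∀ (c : ℕ) {α : Type} [Enc α]
    {m : α → ℕ} (hm : PT ∅ m) (hb : PBd m) (a : α)
    (rd : XRd C (spec τ) → ((mfam C c hm hb).sk a).P × ((mfam C c hm hb).sk a).Z →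
      ((mfam C c hm hb).sk a).P × ((mfam C c hm hb).sk a).Z)
    (cb : PB C (spec τ) → ((mfam C c hm hb).sk a).P × ((mfam C c hm hb).sk a).Z → Bool)
    (_ : ∀ R ω, rd (.inl R) ω = ((mfam C c hm hb).sk a).rd R ω)
    (_ : ∀ v ω, cb v ω = pbM C c hm hb a v ω.1)
    (f : ((mfam C c hm hb).sk a).P → Bool),
    pr (fun ω : ((mfam C c hm hb).sk a).P × ((mfam C c hm hb).sk a).Z =>
      evB (ttM C) (fun R _ => f (rd R ω).1) (fun c => cb c ω) = true) ≤ κ →
    ∃ b : Fin (m a) → Bool, pr (fun ω : ((mfam C c hm hb).sk a).P × ((mfam C c hm hb).sk a).Z =>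
      ∃ l, evB (xoM C l) (fun R _ => f (rd R ω).1) (fun c => cb c ω) ≠
        encB C c hm hb a b l ω.1) ≤ ρ := by
  intro ρ hρ
  obtain ⟨κ, hκ, hs⟩ := tt_sound C (spec τ) (Rd := XRd C (spec τ)) (CB := PB C (spec τ)) (σm τ)
    (ownM τ) (outM τ) ρ hρ
  refine ⟨κ, hκ, ?_⟩
  intro c α _ m hm hb a rd cb hrd hcb f hf
  obtain ⟨w, w1, w2, w3⟩ := hs (2 * aOf c (m a)) (inst τ (good_aOf c (m a)))
    (epsZ (2 * aOf c (m a))) (fun _ _ => false) (facts (good_aOf c (m a)) _) Sum.inl PB.ker rd cb
    (fun R ω => (hrd R ω).trans (congrFun ((mfam C c hm hb).fam_rd a _ _ R) ω).symm)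
    (fun ch g l ω => (hcb _ ω).trans (pbM_eq C c hm hb a (fun _ _ => false) (.ker ch g l) ω.1))
    f hf
  have hL : NeZero (2 ^ (2 * aOf c (m a))) := ⟨by positivity⟩
  refine ⟨fun i => outM τ (w ((i : ℕ) : ZMod (2 ^ (2 * aOf c (m a))))), le_trans (le_of_eq ?_) w3⟩
  refine congrArg _ (funext fun ω => propext (exists_congr fun l => ?_))
  refine not_congr (Eq.congr_right ?_)
  have h1 : ∀ j : ZMod (2 ^ (2 * aOf c (m a))), outM τ (w j) =
      extB (fun i : Fin (m a) => outM τ (w ((i : ℕ) : ZMod (2 ^ (2 * aOf c (m a)))))) j := by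
    intro j
    by_cases hj : j.val < m a
    · rw [extB_of_lt _ hj]
      rw [ZMod.natCast_zmod_val]
    · rw [extB_of_le _ (not_lt.1 hj)]
      exact outM_eq_false (good_aOf c (m a)) w1 w2 (not_lt.1 hj)
  have h2 := outM_arrB C (τ := τ) h1
  refine congrArg (fun x : Addr (2 * aOf c (m a)) → C.K => decide (C.φ (l *
    (C.sys (2 * aOf c (m a))).code x ω.1.1.2) = 1)) h2.symm

end

section ends

variable {kk mm : ℕ} {τ : Tab kk} (C : XC (nCm τ) (nBm τ) mm) (c : ℕ) {α : Type} [Enc α]
  {m : α → ℕ} (hm : PT ∅ m) (hb : PBd m) (a : α)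

/-- The local code of an instance of the family, for the external bits of the blocks `X`. -/
noncomputable abbrev famB (X : Fin kk → Fin (m a) → Bool) : CInst (codeX C (spec τ)) :=
  (mfam C c hm hb).fam a (fun d => extB (X d)) (facts (good_aOf c (m a)) _)

variable {C c hm hb a}
  {rd : XRd C (spec τ) → ((mfam C c hm hb).sk a).P × ((mfam C c hm hb).sk a).Z →
      ((mfam C c hm hb).sk a).P × ((mfam C c hm hb).sk a).Z}
  {cb : PB C (spec τ) → ((mfam C c hm hb).sk a).P × ((mfam C c hm hb).sk a).Z → Bool}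
  {X : Fin kk → Fin (m a) → Bool}
  {x : ((mfam C c hm hb).sk a).Y → ((mfam C c hm hb).sk a).E}

/-- **The flag is not raised by the words without successor.** -/
theorem ttM_ok (hrd : ∀ R ω, rd (.inl R) ω = ((mfam C c hm hb).sk a).rd R ω)
    (hcb : ∀ v ω, cb v ω = pbM C c hm hb a v ω.1)
    (h : (famB C c hm hb a X).WVal x)
    (h' : ¬ (famB C c hm hb a X).WVal ((famB C c hm hb a X).wstep false x))
    (ω : ((mfam C c hm hb).sk a).P × ((mfam C c hm hb).sk a).Z) :
    evB (ttM C) (fun R _ => (codeX C (spec τ)).bit (rd R ω).1.2 (x (rd R ω).1.1))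
      (fun c => cb c ω) = false := by
  obtain ⟨st, h1, h2, h3, h4, h5, h6⟩ := end_state C (inst τ (good_aOf c (m a))) (σm τ)
    (epsZ (2 * aOf c (m a))) (fun d => extB (X d)) (facts (good_aOf c (m a)) _) h h'
  subst h2
  have h7 := eq_fin (good_aOf c (m a)) h4 h6
  have h10 : st.base true = nohd (TM.fin τ (prmOf (aOf c (m a)) (m a)) (2 ^ (2 * aOf c (m a)))
      fun d => extB (X d)) :=
    h5.trans ((congrArg (XInst.step _ _ false) h7).trans (step_fin (good_aOf c (m a)) _))
  have h9 : ∀ (d : Fin kk) (j : ZMod (2 ^ (2 * aOf c (m a)))),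
      (TM.fin τ (prmOf (aOf c (m a)) (m a)) (2 ^ (2 * aOf c (m a)))
        (fun d => extB (X d)) j).inb d = extB (X d) j :=
    fin_inb (good_aOf c (m a)) fun d j hj => extB_of_le (X d) hj
  have h8 : ∀ t d (j : ZMod (2 ^ (2 * aOf c (m a)))),
      TM.Cell.inb (A := τ.A) (k := kk) (st.base t j) d = extB (X d) j := by
    intro t d j
    cases t with
    | false => exact (congrArg (fun w => TM.Cell.inb (A := τ.A) (k := kk) (w j) d) h7).trans (h9 d j)
    | true => exact (congrArg (fun w => TM.Cell.inb (A := τ.A) (k := kk) (w j) d) h10).trans (h9 d j)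
  exact tt_end C (inst τ (good_aOf c (m a))) (σm τ) (epsZ (2 * aOf c (m a)))
    (fun d => extB (X d)) (facts (good_aOf c (m a)) _) h1 h3
    (own := ownM τ) (fun t d b j => congrArg (fun z => decide (z = b)) (h8 t d j))
    (fun R ω => (hrd R ω).trans (congrFun ((mfam C c hm hb).fam_rd a _ _ R) ω).symm)
    (fun ch g l ω => (hcb _ ω).trans (pbM_eq C c hm hb a (fun d => extB (X d)) (.ker ch g l) ω.1))
    ω

/-- **The output of the words without successor** is the code of the block `b` if the output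
letters of the final configuration are `b`. -/
theorem xoM_ok (hrd : ∀ R ω, rd (.inl R) ω = ((mfam C c hm hb).sk a).rd R ω)
    (h : (famB C c hm hb a X).WVal x)
    (h' : ¬ (famB C c hm hb a X).WVal ((famB C c hm hb a X).wstep false x))
    {b : Fin (m a) → Bool}
    (hF : ∀ j : ZMod (2 ^ (2 * aOf c (m a))), (TM.fin τ (prmOf (aOf c (m a)) (m a))
      (2 ^ (2 * aOf c (m a))) (fun d => extB (X d)) j).out =
        if h : j.val < m a then some (b ⟨j.val, h⟩) else none)
    (l : C.K) (ω : ((mfam C c hm hb).sk a).P × ((mfam C c hm hb).sk a).Z) :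
    evB (xoM C l) (fun R _ => (codeX C (spec τ)).bit (rd R ω).1.2 (x (rd R ω).1.1))
      (fun c => cb c ω) = encB C c hm hb a b l ω.1 := by
  obtain ⟨st, h1, h2, h3, h4, h5, h6⟩ := end_state C (inst τ (good_aOf c (m a))) (σm τ)
    (epsZ (2 * aOf c (m a))) (fun d => extB (X d)) (facts (good_aOf c (m a)) _) h h'
  subst h2
  have h7 := eq_fin (good_aOf c (m a)) h4 h6
  have h8 : ∀ j : ZMod (2 ^ (2 * aOf c (m a))), outM τ (st.base false j) = extB b j := by
    intro j
    have h9 : outM τ (st.base false j) = decide ((TM.fin τ (prmOf (aOf c (m a)) (m a))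
      (2 ^ (2 * aOf c (m a))) (fun d => extB (X d)) j).out = some true) :=
      congrArg (fun w => outM τ (w j)) h7
    rw [h9, hF]
    unfold extB
    split_ifs with h10
    · simp
    · simp
  refine (xo_end C (inst τ (good_aOf c (m a))) (σm τ) (epsZ (2 * aOf c (m a)))
    (fun d => extB (X d)) (facts (good_aOf c (m a)) _) st (isOut := outM τ)
    (fun R ω => (hrd R ω).trans (congrFun ((mfam C c hm hb).fam_rd a _ _ R) ω).symm)
    (fun c => cb c ω) ω).trans ?_
  exact congrArg (fun x : Addr (2 * aOf c (m a)) → C.K => decide (C.φ (l *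
    (C.sys (2 * aOf c (m a))).code x ω.1.1.2) = 1)) (outM_arrB C (τ := τ) h8)

end ends

end Vale.Agent.P330.FM
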