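import Vale.Agent.P330.FM.Call

/-!
# Soundness of the module `hold`
-/

namespace Vale.Agent.P330.FM

open Finset PCP.AR
open H855 (mean)
open S (BitDef MDef Sem IsB)
open H551 (ODef Mod)

/-! ### Means -/

theorem meanM_le_of_false {Ω : Type} [Fintype Ω] [Nonempty Ω] {f : Ω → ℝ} {ε δ : ℝ}
    (hf : ∀ ω, 0 ≤ f ω ∧ f ω ≤ 1) (hε : 0 ≤ ε) (h : pr (fun ω => ¬ IsB ε false (f ω)) ≤ δ) :
    mean f ≤ ε + δ := by
  classical
  obtain ⟨p, hp⟩ : ∃ p : Ω → Prop, ∀ ω, (¬ IsB ε false (f ω)) ↔ p ω := ⟨_, fun _ => Iff.rfl⟩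
  rw [pr_congr hp, S.pr_eq_mean] at h
  have h1 : mean f ≤ mean fun ω => ε + if p ω then (1 : ℝ) else 0 := by
    refine S.mean_mono fun ω => ?_
    split_ifs with hω
    · linarith [(hf ω).2]
    · rw [← hp, not_not] at hω
      simpa [IsB] using hω
  rw [S.mean_add, S.mean_const] at h1
  linarith

theorem prM_true_mul_le {Ω : Type} [Fintype Ω] {f : Ω → ℝ} {ε : ℝ}
    (hf : ∀ ω, 0 ≤ f ω) : (1 - ε) * pr (fun ω => IsB ε true (f ω)) ≤ mean f :=
  S.mul_pr_le_mean hf fun ω h => by simpa [IsB] using h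

/-! ### Thresholds -/

theorem thj_pos (k : ℕ) (j : Fin (2 * k + 1)) : (1 : ℝ) / (8 * (k + 1)) ≤ (thj k j : ℝ) := by
  unfold thj
  push_cast
  apply div_le_div_of_nonneg_right _ (by positivity)
  have : (0 : ℝ) ≤ (j : ℕ) := Nat.cast_nonneg _
  linarith

theorem thj_lt (k : ℕ) (j : Fin (2 * k + 1)) : (thj k j : ℝ) < 1 / 4 := by
  unfold thj
  push_cast
  rw [div_lt_div_iff₀ (by positivity) (by norm_num)]
  have : ((j : ℕ) : ℝ) + 1 ≤ 2 * k + 1 := by exact_mod_cast j.2
  linarith

theorem thj_sep (k : ℕ) {j j' : Fin (2 * k + 1)} (h : j < j') :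
    (thj k j : ℝ) + 1 / (8 * (k + 1)) ≤ thj k j' := by
  unfold thj
  push_cast
  rw [← add_div]
  apply div_le_div_of_nonneg_right _ (by positivity)
  have : ((j : ℕ) : ℝ) + 1 ≤ (j' : ℕ) := by exact_mod_cast h
  linarith

/-- All numbers `D i` are away from the threshold `j`. -/
def Crisp {k : ℕ} (δ : ℝ) (D : Fin k → ℝ) (j : Fin (2 * k + 1)) : Prop :=
  ∀ i, D i < thj k j - 2 * δ ∨ (thj k j : ℝ) + 2 * δ < D i

open Classical in
/-- Most thresholds are crisp. -/
theorem card_crisp {k : ℕ} {δ : ℝ} (hδ : 32 * ((k : ℝ) + 1) * δ < 1) (D : Fin k → ℝ) :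
    (univ.filter fun j => ¬ Crisp δ D j).card ≤ k ∧
      k + 1 ≤ (univ.filter fun j => Crisp δ D j).card := by
  have h1 : (univ.filter fun j => ¬ Crisp δ D j).card ≤ k := by
    have h : ∀ j : Fin (2 * k + 1), ∃ i : Option (Fin k), ¬ Crisp δ D j → ∃ i', i = some i' ∧
        (thj k j : ℝ) - 2 * δ ≤ D i' ∧ D i' ≤ thj k j + 2 * δ := by
      intro j
      by_cases hj : Crisp δ D j
      · exact ⟨none, fun h => absurd hj h⟩
      · unfold Crisp at hj
        push Not at hj
        obtain ⟨i, hi, hi'⟩ := hj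
        exact ⟨some i, fun _ => ⟨i, rfl, hi, hi'⟩⟩
    choose φ hφ using h
    have h2 : (univ.filter fun j => ¬ Crisp δ D j).card ≤
        ((univ : Finset (Fin k)).map Function.Embedding.some).card := by
      refine Finset.card_le_card_of_injOn φ ?_ ?_
      · intro j hj
        obtain ⟨i, hi, -⟩ := hφ j (by simpa using hj)
        simp [hi]
      · intro j hj j' hj' he
        obtain ⟨i, hi, h3, h4⟩ := hφ j (by simpa using hj)
        obtain ⟨i', hi', h5, h6⟩ := hφ j' (by simpa using hj')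
        have h7 : i = i' := by
          rw [hi, hi'] at he
          exact Option.some.inj he
        subst h7
        have h8 : 4 * δ < 1 / (8 * ((k : ℝ) + 1)) := by
          rw [lt_div_iff₀ (by positivity)]
          linarith
        rcases lt_trichotomy j j' with hlt | heq | hlt
        · have := thj_sep k hlt
          linarith
        · exact heq
        · have := thj_sep k hlt
          linarith
    simpa using h2
  refine ⟨h1, ?_⟩
  have h2 := Finset.card_filter_add_card_filter_not (s := (univ : Finset (Fin (2 * k + 1))))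
    (fun j => Crisp δ D j)
  rw [Finset.card_univ, Fintype.card_fin] at h2
  omega

variable {S : FSpec} {k : ℕ}

/-! ### Rules of `hold` -/

section Rules

variable (I : FInst S) (blk : CN → I.Bl) {ε lam : ℝ} {x : HReg S k → I.W → ℝ}
  {u : Fin k × S.L → I.W → ℝ} {ω : I.W}

theorem mk_false (hself : I.rd S.self ω = ω) {i : Fin k} {j : Fin (2 * k + 1)} {l : S.L}
    (h : (MDef.bit (mkBit i j l)).Rel (I.semM blk) ε lam (Sum.elim x u) (.inl (.mk j i l)) ω)
    {b : Bool} (h1 : IsB ε false (x (.fl i j) ω)) (h2 : IsB ε b (x (.san i (.y l)) ω)) :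
    IsB ε b (x (.mk j i l) ω) := by
  refine h b fun y hy => ?_
  have h3 : y true = false := hy true false (by
    change IsB ε false (x (.fl i j) (I.rd S.self ω))
    rwa [hself])
  have h4 : y false = b := hy false b (by
    change IsB ε b (x (.san i (.y l)) (I.rd S.self ω))
    rwa [hself])
  simp [mkBit, h3, h4]

theorem mk_true (hself : I.rd S.self ω = ω) {i : Fin k} {j : Fin (2 * k + 1)} {l : S.L}
    (h : (MDef.bit (mkBit i j l)).Rel (I.semM blk) ε lam (Sum.elim x u) (.inl (.mk j i l)) ω)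
    (h1 : IsB ε true (x (.fl i j) ω)) : IsB ε false (x (.mk j i l) ω) := by
  refine h false fun y hy => ?_
  have h3 : y true = true := hy true true (by
    change IsB ε true (x (.fl i j) (I.rd S.self ω))
    rwa [hself])
  simp [mkBit, h3]

open Classical in
theorem majority {p : Fin (2 * k + 1) → Prop} (hp : (univ.filter fun j => ¬ p j).card ≤ k)
    (hp' : k + 1 ≤ (univ.filter p).card) (y : Fin (2 * k + 1) → Bool) (b : Bool)
    (h2 : ∀ j, p j → y j = b) :
    decide (k + 1 ≤ (univ.filter fun j => y j = true).card) = b := by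
  cases b with
  | true =>
    rw [decide_eq_true_iff]
    refine hp'.trans (Finset.card_le_card fun j hj => ?_)
    simp only [mem_filter, mem_univ, true_and] at hj ⊢
    exact h2 j hj
  | false =>
    rw [decide_eq_false_iff_not, not_le]
    refine lt_of_le_of_lt (Finset.card_le_card (t := univ.filter fun j => ¬ p j) fun j hj => ?_)
      (Nat.lt_succ_of_le hp)
    simp only [mem_filter, mem_univ, true_and] at hj ⊢
    intro hj'
    rw [h2 j hj'] at hj
    exact absurd hj (by simp)

open Classical in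
theorem maj_rule (hself : I.rd S.self ω = ω) {l : S.L}
    (h : (MDef.bit (majBit l)).Rel (I.semM blk) ε lam (Sum.elim x u) (.inl (.out l)) ω)
    {b : Bool} {p : Fin (2 * k + 1) → Prop} (hp : (univ.filter fun j => ¬ p j).card ≤ k)
    (hp' : k + 1 ≤ (univ.filter p).card) (h1 : ∀ j, p j → IsB ε b (x (.rep j (.y l)) ω)) :
    IsB ε b (x (.out l) ω) :=
  h b fun y hy => majority hp hp' y b fun j hj => hy j b (by
    change IsB ε b (x (.rep j (.y l)) (I.rd S.self ω))
    rw [hself]
    exact h1 j hj)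

end Rules

/-- **Soundness of `hold`.** -/
theorem hold_sound {Q : FInst S → Prop} {q : CConst} {ρc g : ℝ} (H : ModHyp S Q q ρc g)
    (eK : S.K ≃ Fin (k + 2)) (i0 : Fin k) {θ ρ : ℝ} (hρ : 0 < ρ) : ∃ η : ℝ, 0 < η ∧
    ∀ I : FInst S, Q I → ∀ (blk : CN → I.Bl) (zero : I.Bl), I.MFacts eK (blk .sid) zero i0 θ →
    ∀ (ε lam β : ℝ), H551.Small η ε lam β →
    ∀ (x : HReg S k → I.W → ℝ) (u : Fin k × S.L → I.W → ℝ),
    (holdMod S eK q).Obeys (I.semM blk) ε lam β x u →
    ∀ (G : Fin k → Option I.Bl) (s' : I.Bl),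
      (∀ i s, G i = some s → I.Clean ε ρc s fun l => u (i, l)) →
      (∀ X : Fin k → I.Bl, (∀ i s, G i = some s → X i = s) →
        I.F (fun a => argv (blk .shold) (blk .pub) X (eK a)) = s') →
      I.Clean ε ρ s' fun l => x (.out l) := by
  classical
  have hk1 : (0 : ℝ) < (k : ℝ) + 1 := by positivity
  set nL : ℝ := (Fintype.card S.L : ℝ) + 1 with hnL
  have hnL0 : 0 < nL := by positivity
  set δ : ℝ := min (1 / (64 * ((k : ℝ) + 1))) (min (ρc / 4) (ρ / (4 * (k + 1)))) with hδ
  have hδ0 : 0 < δ := by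
    have := H.core.pos
    refine lt_min (by positivity) (lt_min (by linarith) (by positivity))
  have hδ1 : δ ≤ 1 / (64 * ((k : ℝ) + 1)) := min_le_left _ _
  have hδ2 : δ ≤ ρc / 4 := (min_le_right _ _).trans (min_le_left _ _)
  have hδ3 : δ ≤ ρ / (4 * (k + 1)) := (min_le_right _ _).trans (min_le_right _ _)
  have hδ4 : 64 * ((k : ℝ) + 1) * δ ≤ 1 := by
    rw [le_div_iff₀ (by positivity)] at hδ1
    linarith
  have hδ5 : δ ≤ 1 / 64 := by nlinarith [Nat.cast_nonneg (α := ℝ) k]
  obtain ⟨η₁, h1, hhon⟩ := call_honest H.core hδ0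
  obtain ⟨η₂, h2, hgar⟩ := call_garbage H.core hδ0
  obtain ⟨η₃, h3, -, hcst⟩ := exists_cst (S := S) H.core.pos
  obtain ⟨η₄, h4, havg⟩ := ra_glob_small (δ := δ) H.g0 H.g1 hδ0
  refine ⟨min (min η₁ η₂) (min (min η₃ η₄) (min 1 (δ / (4 * nL)))),
    lt_min (lt_min h1 h2) (lt_min (lt_min h3 h4) (lt_min one_pos (by positivity))), ?_⟩
  intro I hI blk zero hM ε lam β hs' x u hx G s' hG hF
  have hs := Small.of551 hs'
  have hs1 := hs.mono ((min_le_left _ _).trans (min_le_left _ _))
  have hs2 := hs.mono ((min_le_left _ _).trans (min_le_right _ _))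
  have hs3 := hs.mono ((min_le_right _ _).trans ((min_le_left _ _).trans (min_le_left _ _)))
  have hs4 := hs.mono ((min_le_right _ _).trans ((min_le_left _ _).trans (min_le_right _ _)))
  have hs5 := hs.mono ((min_le_right _ _).trans (min_le_right _ _))
  have hε : ε ≤ δ / 4 := by
    refine (hs5.ε_le' (min_le_left _ _)).trans ((min_le_right _ _).trans ?_)
    apply div_le_div_of_nonneg_left hδ0.le (by norm_num)
    have : (0 : ℝ) ≤ Fintype.card S.L := Nat.cast_nonneg _
    linarith
  have hε0 : 0 < ε := hs.ε_pos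
  have hβL : nL * β ≤ δ / 4 := by
    have h5 : β ≤ δ / (4 * nL) := (hs5.β_le' (min_le_left _ _)).trans (min_le_right _ _)
    rw [le_div_iff₀ (by positivity)] at h5
    linarith
  have hβ0 : 0 ≤ β := (pr_nonneg _).trans (hx.rel (.fa i0))
  have hβ : β ≤ δ / 4 := by
    have : (0 : ℝ) ≤ Fintype.card S.L := Nat.cast_nonneg _
    nlinarith
  have hβL' : (Fintype.card S.L : ℝ) * β ≤ δ / 4 := by nlinarith
  have hself := H.self I hI
  -- constant streams
  have hc : ∀ n, I.Clean ε ρc (blk n) fun l => x (.k n l) := fun n =>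
    hcst k I (HReg S k) blk n (.k n) ε lam β hs3 x u fun l => hx.rel (.k n l)
  -- sanitizers
  have hsan : ∀ i s, G i = some s → I.Clean ε δ s (fun l => x (.san i (.y l))) ∧
      pr (fun ω => ¬ IsB ε false (x (.san i .tf) ω)) ≤ δ := by
    intro i s hi
    have h5 := hhon k eK I hI (HReg S k) blk (.san i) (.k .sid) (.k .pub) (fun _ l => .inr (i, l))
      ε lam β hs1 x u hx.mem (fun r => hx.rel (.san i r)) _ _ (fun _ => s) (hc .sid) (hc .pub)
      fun _ => hG i s hi
    rwa [hM.F_id] at h5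
  -- averages of the flags
  set D : Fin k → ℝ := fun i => mean (x (.san i .tf)) with hD
  have hfa : ∀ i, pr (fun ω => δ < |x (.fa i) ω - D i|) ≤ δ := fun i =>
    havg (H.gapP I hI) (H.gapZ I hI) (nb := I.sem.nb) (fun _ _ => rfl) (hx.mem _) (hx.mem _) hs4
      (hx.rel (.fa i))
  -- thresholds
  have hfl0 : ∀ i j, D i < thj k j - 2 * δ →
      pr (fun ω => ¬ IsB ε false (x (.fl i j) ω)) ≤ δ + β := by
    intro i j hij
    refine prm2 (hfa i) (hx.rel (.fl i j)) fun ω hω => ?_
    by_contra hcon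
    push Not at hcon
    obtain ⟨h5, h6⟩ := hcon
    refine hω (h6.2 ?_)
    have := abs_le.1 h5
    change x (.fa i) ω < _
    linarith
  have hfl1 : ∀ i j, (thj k j : ℝ) + 2 * δ < D i →
      pr (fun ω => ¬ IsB ε true (x (.fl i j) ω)) ≤ δ + β := by
    intro i j hij
    refine prm2 (hfa i) (hx.rel (.fl i j)) fun ω hω => ?_
    by_contra hcon
    push Not at hcon
    obtain ⟨h5, h6⟩ := hcon
    refine hω (h6.1 ?_)
    have := abs_le.1 h5
    change _ < x (.fa i) ω
    linarith
  -- masked streams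
  have hmk : ∀ i j, (D i < thj k j - 2 * δ ∨ (thj k j : ℝ) + 2 * δ < D i) →
      ∃ X : I.Bl, (∀ s, G i = some s → X = s) ∧ I.Clean ε ρc X fun l => x (.mk j i l) := by
    intro i j hij
    have hrule : pr (fun ω => ∃ l, ¬ (MDef.bit (mkBit i j l)).Rel (I.semM blk) ε lam
        (Sum.elim x u) (.inl (.mk j i l)) ω) ≤ Fintype.card S.L * β :=
      prm_exists fun l => hx.rel (.mk j i l)
    have key : ∀ X : I.Bl, I.Clean ε δ X (fun l => x (.san i (.y l))) →
        D i < thj k j - 2 * δ → I.Clean ε ρc X fun l => x (.mk j i l) := by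
      intro X hX hlt
      refine (prm3 (hfl0 i j hlt) hX hrule fun ω hω => ?_).trans (by linarith)
      by_contra hcon
      push Not at hcon
      obtain ⟨h5, h6, h7⟩ := hcon
      obtain ⟨l, hl⟩ := hω
      exact hl (mk_false I blk (hself ω) (h7 l) h5 (h6 l))
    rcases hi : G i with _ | s
    · rcases hij with hlt | hgt
      · have h5 : (1 - ε) * pr (fun ω => IsB ε true (x (.san i .tf) ω)) ≤ D i :=
          prM_true_mul_le fun ω => (hx.mem _ ω).1
        have h6 := thj_lt k j
        have h7 : pr (fun ω => IsB ε true (x (.san i .tf) ω)) ≤ 1 / 2 := by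
          have := pr_nonneg (fun ω => IsB ε true (x (.san i .tf) ω))
          nlinarith
        obtain ⟨b, hb⟩ := hgar k eK I hI (HReg S k) blk (.san i)
          (argv (fun l => .inl (.k .sid l)) (fun l => .inl (.k .pub l)) fun _ l => .inr (i, l))
          ε lam β hs2 x u hx.mem (fun r => hx.rel (.san i r)) h7
        exact ⟨b, by simp, key b hb hlt⟩
      · refine ⟨zero, by simp, ?_⟩
        refine (prm2 (hfl1 i j hgt) hrule fun ω hω => ?_).trans (by linarith)
        by_contra hcon
        push Not at hcon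
        obtain ⟨h5, h7⟩ := hcon
        obtain ⟨l, hl⟩ := hω
        rw [hM.enc_zero] at hl
        exact hl (mk_true I blk (hself ω) (h7 l) h5)
    · have h5 := hsan i s hi
      have h6 : D i ≤ ε + δ := meanM_le_of_false (hx.mem _) hε0.le h5.2
      have h7 : D i < thj k j - 2 * δ := by
        have h8 := thj_pos k j
        have h9 : 8 * δ ≤ 1 / (8 * ((k : ℝ) + 1)) := by
          rw [le_div_iff₀ (by positivity)]
          linarith
        linarith
      exact ⟨s, fun s'' h => Option.some.inj h, key s h5.1 h7⟩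
  -- replicas
  have hrep : ∀ j, Crisp δ D j → I.Clean ε δ s' fun l => x (.rep j (.y l)) := by
    intro j hj
    choose X hX hX' using fun i => hmk i j (hj i)
    have h5 := (hhon k eK I hI (HReg S k) blk (.rep j) (.k .shold) (.k .pub)
      (fun i l => .inl (.mk j i l)) ε lam β hs1 x u hx.mem (fun r => hx.rel (.rep j r)) _ _ X
      (hc .shold) (hc .pub) hX').1
    rwa [hF X hX] at h5
  -- majority
  have hcard := card_crisp (δ := δ) (by linarith) D
  have hall : pr (fun ω => ∃ j : Fin (2 * k + 1), Crisp δ D j ∧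
      ∃ l, ¬ IsB ε (I.enc s' l ω.1) (x (.rep j (.y l)) ω)) ≤
        Fintype.card (Fin (2 * k + 1)) * δ := by
    refine prm_exists fun j => ?_
    by_cases hj : Crisp δ D j
    · exact (pr_mono fun ω hω => hω.2).trans (hrep j hj)
    · exact ((pr_mono fun ω hω => hj hω.1).trans pr_false.le).trans hδ0.le
  have hrule : pr (fun ω => ∃ l, ¬ (MDef.bit (majBit l)).Rel (I.semM blk) ε lam
      (Sum.elim x u) (.inl (.out l)) ω) ≤ Fintype.card S.L * β :=
    prm_exists fun l => hx.rel (.out l)
  refine (prm2 hall hrule fun ω hω => ?_).trans ?_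
  · by_contra hcon
    push Not at hcon
    obtain ⟨h5, h6⟩ := hcon
    obtain ⟨l, hl⟩ := hω
    exact hl (maj_rule I blk (hself ω) (h6 l) (p := Crisp δ D) hcard.1 hcard.2
      fun j hj => h5 j hj l)
  · rw [Fintype.card_fin]
    push_cast
    rw [le_div_iff₀ (by positivity)] at hδ3
    have : (0 : ℝ) ≤ k := Nat.cast_nonneg _
    nlinarith

end Vale.Agent.P330.FM
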