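import Vale.Agent.P330.H475.SFam
import Vale.Agent.Lib.PolyTime.Lists3

/-!
# One function for all site functions

`fsel fc fe fs` is a polynomial time function of `K + 2` words (selector, public word, `K` words)
which computes the first word, `fs z`, `fe` or the verdict of `fc`, depending on the first three
letters of the selector.
-/

namespace Vale.Agent.P330.FM

open Vale.Agent.Lib.PolyTime
open Vale.Agent.P330.H475 (Wd wd toWd wd0)

/-- The selectors. -/
inductive Sel
  | id
  | step (z : Bool)
  | hold
  | chk
  deriving DecidableEq

/-- The first three letters of a selector. -/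
def Sel.bits : Sel → ℕ → Bool
  | .id, _ => false
  | .step _, 0 => true
  | .step z, 1 => z
  | .step _, _ => false
  | .hold, 1 => true
  | .hold, _ => false
  | .chk, 2 => true
  | .chk, _ => false

/-- The selector as a word of length `m`. -/
def selW (m : ℕ) (σ : Sel) : Wd m := fun i => σ.bits i

/-- The accepting word. -/
def wd1 (m : ℕ) : Wd m := fun _ => true

/-- **One function for all site functions.** -/
def fsel (fc fe : List Word → Word) (fs : Bool → List Word → Word) (l : List Word) : Word :=
  bif (l.headD []).getD 2 false then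
    (bif (fc l.tail).getD 0 false then (l.headD []).map fun _ => true else [])
  else bif (l.headD []).getD 0 false then
    (bif (l.headD []).getD 1 false then fs true l.tail else fs false l.tail)
  else bif (l.headD []).getD 1 false then fe l.tail
  else l.tail.tail.headD []

theorem PT.fsel {A : Set Word} {fc fe : List Word → Word} {fs : Bool → List Word → Word}
    (hc : PT A fc) (he : PT A fe) (hs : ∀ z, PT A (fs z)) : PT A (fsel fc fe fs) := by
  have h0 : PT A (fun l : List Word => l.headD []) := PT.headD PT.id (PT.const [])
  have hg : ∀ i : ℕ, PT A (fun l : List Word => (l.headD []).getD i false) := fun i =>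
    PT.getD h0 (PT.const i) (PT.const false)
  have ht : PT A (fun l : List Word => l.tail) := PT.tail PT.id
  refine PT.cond (hg 2) (PT.cond (PT.getD (hc.comp ht) (PT.const 0) (PT.const false)) ?_
    (PT.const [])) (PT.cond (hg 0) (PT.cond (hg 1) ((hs true).comp ht) ((hs false).comp ht))
      (PT.cond (hg 1) (he.comp ht) (PT.headD ht.tail (PT.const []))))
  exact PT.map (f := fun (_ : List Word) (_ : Bool) => true) h0 (PT.const true)

section eqs

variable {fc fe : List Word → Word} {fs : Bool → List Word → Word} {m : ℕ}

theorem getD_wd (s : Wd m) (i : ℕ) (b : Bool) :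
    (wd s).getD i b = if h : i < m then s ⟨i, h⟩ else b := by
  unfold wd
  rw [List.getD_eq_getElem?_getD, List.getElem?_ofFn]
  split_ifs <;> rfl

theorem toWd_wd (s : Wd m) : toWd m (wd s) = s := by
  funext i
  unfold toWd
  rw [getD_wd, dif_pos i.2]

theorem getD_selW {i : ℕ} (hi : i < m) (σ : Sel) : (wd (selW m σ)).getD i false = σ.bits i := by
  rw [getD_wd, dif_pos hi]
  rfl

theorem fsel_id (hm : 3 ≤ m) (p x : Word) (l : List Word) :
    fsel fc fe fs (wd (selW m .id) :: p :: x :: l) = x := by
  unfold fsel
  simp only [List.headD_cons, List.tail_cons]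
  rw [getD_selW (by omega), getD_selW (by omega), getD_selW (by omega)]
  rfl

theorem fsel_step (hm : 3 ≤ m) (z : Bool) (l : List Word) :
    fsel fc fe fs (wd (selW m (.step z)) :: l) = fs z l := by
  unfold fsel
  simp only [List.headD_cons, List.tail_cons]
  rw [getD_selW (by omega), getD_selW (by omega), getD_selW (by omega)]
  cases z <;> rfl

theorem fsel_hold (hm : 3 ≤ m) (l : List Word) :
    fsel fc fe fs (wd (selW m .hold) :: l) = fe l := by
  unfold fsel
  simp only [List.headD_cons, List.tail_cons]
  rw [getD_selW (by omega), getD_selW (by omega), getD_selW (by omega)]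
  rfl

theorem fsel_chk (hm : 3 ≤ m) (l : List Word) :
    toWd m (fsel fc fe fs (wd (selW m .chk) :: l)) =
      if (fc l).getD 0 false = true then wd1 m else wd0 m := by
  unfold fsel
  simp only [List.headD_cons, List.tail_cons]
  rw [getD_selW (by omega)]
  show toWd m (bif (fc l).getD 0 false then (wd (selW m .chk)).map fun _ => true else []) = _
  cases h : (fc l).getD 0 false with
  | true =>
    rw [if_pos rfl]
    funext i
    show ((wd (selW m .chk)).map fun _ => true).getD i false = true
    rw [List.getD_eq_getElem?_getD, List.getElem?_map]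
    unfold wd
    rw [List.getElem?_ofFn, dif_pos i.2]
    rfl
  | false =>
    rw [if_neg (by simp)]
    funext i
    rfl

theorem wd1_ne_wd0 (hm : 3 ≤ m) : wd1 m ≠ wd0 m := by
  intro h
  have := congrFun h ⟨0, by omega⟩
  simp [wd1, wd0] at this

end eqs

/-! ### As a function on words of length `m`

The `K + 2` words are indexed by `Option (Option (Fin K))`: `none` is the selector, `some none` the
public word. -/

/-- The list of the words. -/
def slst {K m : ℕ} (X : Option (Option (Fin K)) → Wd m) : List Word :=
  wd (X none) :: wd (X (some none)) :: List.ofFn fun i => wd (X (some (some i)))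

/-- The function on words of length `m`. -/
def fselW (fc fe : List Word → Word) (fs : Bool → List Word → Word) {K m : ℕ}
    (X : Option (Option (Fin K)) → Wd m) : Wd m := toWd m (fsel fc fe fs (slst X))

/-- The inputs, from selector, public word and words. -/
def sinp {K m : ℕ} (σ : Sel) (p : Wd m) (v : Fin K → Wd m) : Option (Option (Fin K)) → Wd m
  | none => selW m σ
  | some none => p
  | some (some i) => v i

section eqs

variable {fc fe : List Word → Word} {fs : Bool → List Word → Word} {K m : ℕ}

theorem slst_sinp (σ : Sel) (p : Wd m) (v : Fin K → Wd m) :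
    slst (sinp σ p v) = wd (selW m σ) :: wd p :: List.ofFn fun i => wd (v i) := rfl

theorem fselW_id (hm : 3 ≤ m) (p : Wd m) (v : Fin (K + 1) → Wd m) :
    fselW fc fe fs (sinp .id p v) = v 0 := by
  unfold fselW
  rw [slst_sinp, List.ofFn_succ, fsel_id hm, toWd_wd]

theorem fselW_id' (hm : 3 ≤ m) (hK : 0 < K) (p : Wd m) (v : Fin K → Wd m) :
    fselW fc fe fs (sinp .id p v) = v ⟨0, hK⟩ := by
  obtain ⟨K, rfl⟩ : ∃ K', K = K' + 1 := ⟨K - 1, by omega⟩
  exact fselW_id hm p v

theorem fselW_step (hm : 3 ≤ m) (z : Bool) (p : Wd m) (v : Fin K → Wd m) :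
    fselW fc fe fs (sinp (.step z) p v) =
      toWd m (fs z (wd p :: List.ofFn fun i => wd (v i))) := by
  unfold fselW
  rw [slst_sinp, fsel_step hm]

theorem fselW_hold (hm : 3 ≤ m) (p : Wd m) (v : Fin K → Wd m) :
    fselW fc fe fs (sinp .hold p v) = toWd m (fe (wd p :: List.ofFn fun i => wd (v i))) := by
  unfold fselW
  rw [slst_sinp, fsel_hold hm]

theorem fselW_chk (hm : 3 ≤ m) (p : Wd m) (v : Fin K → Wd m) :
    fselW fc fe fs (sinp .chk p v) =
      if (fc (wd p :: List.ofFn fun i => wd (v i))).getD 0 false = true then wd1 m
      else wd0 m := by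
  unfold fselW
  rw [slst_sinp, fsel_chk hm]

end eqs

end Vale.Agent.P330.FM
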