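import Vale.Agent.P330.FM.CheckS
import Vale.Agent.P330.FM.HoldS
import Vale.Agent.P330.FM.Sel
import Vale.Agent.P330.H475.FFam

/-!
# Families of modules from families of functional systems

`fdatF`: the family of the modules `hold`, `step`, `check` of a family of instances. `sound_fdatF`:
its soundness.
-/

namespace Vale.Agent.P330.FM

open Finset PCP.AR
open Vale.Agent.Lib.PolyTime
open S (BitDef MDef Sem IsB)
open H551 (ODef Mod)
open H475 (Wd wd toWd wd0 FData)

/-- The constant blocks: selectors (`z` is the argument of `step`) and the public word. -/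
def blkW {B : Type} {n : ℕ} (e : Wd n ≃ B) (z : Bool) (p : Wd n) : CN → B
  | .sid => e (selW n .id)
  | .shold => e (selW n .hold)
  | .sstep => e (selW n (.step z))
  | .schk => e (selW n .chk)
  | .pub => e p

section

variable {ι : Type} {K : ℕ} {m : ι → ℕ} (S : FSpec) (eK : S.K ≃ Fin (K + 2)) (q : CConst) (τv : ℚ)
  (own : Fin K) (I : ι → FInst S) (eB : ∀ a, Wd (m a) ≃ (I a).Bl)

/-- **The family of modules.** -/
noncomputable def fdatF : FData K m where
  L := S.L
  fL := S.fL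
  dL := S.dL
  hold := holdMod S eK q
  step := stepMod S eK q
  check := checkMod S eK q τv own
  P a := (I a).P
  fP a := (I a).fP
  nP a := (I a).nP
  Z a := (I a).Z
  fZ a := (I a).fZ
  nZ a := (I a).nZ
  enc a s := (I a).enc (eB a s)
  sP a := (I a).sP
  sZ a := (I a).sZ
  rdH a := (I a).rd
  rdS a := (I a).rd
  rdC a := (I a).rd
  cbH a p := ((I a).semM (blkW (eB a) false p)).cb
  cbS a z p := ((I a).semM (blkW (eB a) z p)).cb
  cbC a p := ((I a).semM (blkW (eB a) false p)).cb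

end

/-- The value of the function at words. -/
structure FEq {S : FSpec} {K n : ℕ} (eK : S.K ≃ Fin (K + 2)) (I : FInst S) (e : Wd n ≃ I.Bl)
    (fc fe : List Word → Word) (fs : Bool → List Word → Word) : Prop where
  F_eq : ∀ X : Fin (K + 2) → Wd n, I.F (fun κ => e (X (eK κ))) =
    e (toWd n (fsel fc fe fs (List.ofFn fun j => wd (X j))))
  enc_zero : ∀ l p, I.enc (e (wd0 n)) l p = false

section eqs

variable {S : FSpec} {K n : ℕ} {eK : S.K ≃ Fin (K + 2)} {I : FInst S} {e : Wd n ≃ I.Bl}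
  {fc fe : List Word → Word} {fs : Bool → List Word → Word}

theorem argv_map {A B : Type} (e : A → B) (s p : A) (X : Fin K → A) (j : Fin (K + 2)) :
    argv (e s) (e p) (fun i => e (X i)) j = e (argv s p X j) := by
  refine Fin.cases ?_ (fun j => Fin.cases ?_ (fun i => ?_) j) j <;> rfl

theorem ofFn_argv (s p : Wd n) (X : Fin K → Wd n) :
    (List.ofFn fun j => wd (argv s p X j)) = wd s :: wd p :: List.ofFn fun i => wd (X i) := by
  rw [List.ofFn_succ, List.ofFn_succ]
  rfl

theorem FEq.argv (h : FEq eK I e fc fe fs) (s p : Wd n) (X : Fin K → Wd n) :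
    I.F (fun κ => FM.argv (e s) (e p) (fun i => e (X i)) (eK κ)) =
      e (toWd n (fsel fc fe fs (wd s :: wd p :: List.ofFn fun i => wd (X i)))) := by
  have h1 : (fun κ => FM.argv (e s) (e p) (fun i => e (X i)) (eK κ)) =
      fun κ => e (FM.argv s p X (eK κ)) := by
    funext κ
    exact argv_map e s p X (eK κ)
  rw [h1, h.F_eq, ofFn_argv]

theorem FEq.sid (h : FEq eK I e fc fe fs) (hn : 3 ≤ n) (hK : 0 < K) (p : I.Bl)
    (X : Fin K → I.Bl) :
    I.F (fun κ => FM.argv (e (selW n .id)) p X (eK κ)) = X ⟨0, hK⟩ := by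
  have h1 := h.argv (selW n .id) (e.symm p) fun i => e.symm (X i)
  simp only [Equiv.apply_symm_apply] at h1
  rw [h1]
  obtain ⟨K', rfl⟩ : ∃ K', K = K' + 1 := ⟨K - 1, by omega⟩
  rw [List.ofFn_succ, fsel_id hn, toWd_wd, Equiv.apply_symm_apply]
  rfl

theorem FEq.step (h : FEq eK I e fc fe fs) (hn : 3 ≤ n) (z : Bool) (p : Wd n)
    (X : Fin K → Wd n) :
    I.F (fun κ => FM.argv (e (selW n (.step z))) (e p) (fun i => e (X i)) (eK κ)) =
      e (toWd n (fs z (wd p :: List.ofFn fun i => wd (X i)))) := by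
  rw [h.argv, fsel_step hn]

theorem FEq.hold (h : FEq eK I e fc fe fs) (hn : 3 ≤ n) (p : Wd n) (X : Fin K → Wd n) :
    I.F (fun κ => FM.argv (e (selW n .hold)) (e p) (fun i => e (X i)) (eK κ)) =
      e (toWd n (fe (wd p :: List.ofFn fun i => wd (X i)))) := by
  rw [h.argv, fsel_hold hn]

theorem FEq.chk (h : FEq eK I e fc fe fs) (hn : 3 ≤ n) (p : Wd n) (X : Fin K → Wd n) :
    I.F (fun κ => FM.argv (e (selW n .chk)) (e p) (fun i => e (X i)) (eK κ)) =
      e (if (fc (wd p :: List.ofFn fun i => wd (X i))).getD 0 false = true then wd1 n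
        else wd0 n) := by
  rw [h.argv, fsel_chk hn]

end eqs

section sound

variable {ι : Type} {K : ℕ} {m : ι → ℕ} {S : FSpec} {eK : S.K ≃ Fin (K + 2)} {q : CConst} {τv : ℚ}
  {own : Fin K} {I : ι → FInst S} {eB : ∀ a, Wd (m a) ≃ (I a).Bl}
  {fc fe : List Word → Word} {fs : Bool → List Word → Word}

/-- **Soundness of the family of modules.** -/
theorem sound_fdatF {Q : FInst S → Prop} {ρc g θ : ℝ} (H : ModHyp S Q q ρc g) (h0 : 0 < τv)
    (h1 : (τv : ℝ) < θ) (hQ : ∀ a, Q (I a)) (hm : ∀ a, 3 ≤ m a)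
    (hF : ∀ a, FEq eK (I a) (eB a) fc fe fs)
    (hd : ∀ a (s s' : Wd (m a)), s ≠ s' →
      θ ≤ pr fun p : (I a).P => ∃ l, (I a).enc (eB a s) l p ≠ (I a).enc (eB a s') l p)
    (c : FData.Cs) (c1 : c.ρin ≤ ρc) (c2 : c.θin ≤ θ) (c3 : 4 * c.κin ≤ 1)
    (c4 : 4 * c.κin ≤ c.ρin) (c5 : c.g = g) :
    (fdatF S eK q τv own I eB).Sound own fc fe fs c := by
  have hMF : ∀ a z p, (I a).MFacts eK (blkW (eB a) z p .sid) (eB a (wd0 (m a)))
      ⟨0, own.pos⟩ θ := fun a z p =>
    { F_id := fun p X => (hF a).sid (hm a) own.pos p X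
      enc_zero := (hF a).enc_zero
      encDist := fun s s' hs => by
        have h2 := hd a ((eB a).symm s) ((eB a).symm s') fun h => hs ((eB a).symm.injective h)
        simpa only [Equiv.apply_symm_apply] using h2 }
  refine ⟨?_, ?_, ?_, ?_, ?_, ?_, ?_, ?_⟩
  · intro a
    rw [c5]
    exact H.gapP _ (hQ a)
  · intro a
    rw [c5]
    exact H.gapZ _ (hQ a)
  · intro a s s' hs
    exact c2.trans (hd a s s' hs)
  · -- hold
    intro ρ hρ
    obtain ⟨η, hη, h⟩ := hold_sound H eK ⟨0, own.pos⟩ (θ := θ) hρ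
    refine ⟨η, hη, ?_⟩
    intro a p ε lam β hs x u hx G s' hG hs'
    refine h (I a) (hQ a) (blkW (eB a) false p) (eB a (wd0 (m a))) (hMF a false p) ε lam β hs x u
      hx (fun i => (G i).map (eB a)) (eB a s') ?_ ?_
    · intro i s hs
      rw [Option.map_eq_some_iff] at hs
      obtain ⟨s₁, h2, h3⟩ := hs
      rw [← h3]
      exact (hG i s₁ h2).trans c1
    · intro X hX
      have h2 := hs' (fun i => (eB a).symm (X i)) fun i s hs => by
        rw [hX i (eB a s) (by rw [hs]; rfl), Equiv.symm_apply_apply]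
      have h3 := (hF a).hold (hm a) p fun i => (eB a).symm (X i)
      simp only [Equiv.apply_symm_apply] at h3
      rw [← h2]
      exact h3
  · -- step
    intro ρ hρ
    obtain ⟨η, hη, h⟩ := step_sound H eK hρ
    refine ⟨η, hη, ?_⟩
    intro a z p ε lam β hs x u hx s hs1
    have h2 := h (I a) (hQ a) (blkW (eB a) z p) ε lam β hs x u hx (fun i => eB a (s i))
      fun i => (hs1 i).trans c1
    have h3 := (hF a).step (hm a) z p s
    have h4 : (I a).Clean ε ρ (eB a (toWd (m a) (fs z (wd p :: List.ofFn fun i => wd (s i)))))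
        fun l => x (.c (.y l)) := by
      rw [← h3]
      exact h2
    exact h4
  · -- flag
    have hκ := c.κin_pos
    obtain ⟨η, hη, h⟩ := check_flag H eK τv own (κ := c.κin) (ρ := c.ρin) hκ c3 c4
    refine ⟨η, hη, ?_⟩
    intro a p ε lam β hs x u hx h2 h3
    obtain ⟨s, hs⟩ := h (I a) (hQ a) (blkW (eB a) false p) ε lam β hs x u hx h2 h3
    refine ⟨(eB a).symm s, ?_⟩
    have h4 : (I a).Clean ε c.ρin (eB a ((eB a).symm s)) fun l => u (own, l) := by
      rw [Equiv.apply_symm_apply]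
      exact hs
    exact h4
  · -- reject
    intro ρ hρ
    obtain ⟨η, hη, h⟩ := check_reject H eK h0 own hρ
    refine ⟨η, hη, ?_⟩
    intro a p ε lam β hs x u hx s hs1 hrej
    refine h (I a) (hQ a) (blkW (eB a) false p) ε lam β hs x u hx (fun i => eB a (s i))
      (fun i => (hs1 i).trans c1) fun l pt => ?_
    have h3 := (hF a).chk (hm a) p s
    have hrej' : ¬ (fc (wd p :: List.ofFn fun i => wd (s i))).getD 0 false = true := hrej
    rw [if_neg hrej'] at h3
    have h4 : (I a).F (fun κ => argv (blkW (eB a) false p .schk) (blkW (eB a) false p .pub)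
        (fun i => eB a (s i)) (eK κ)) = eB a (wd0 (m a)) := h3
    rw [h4]
    exact (hF a).enc_zero l pt
  · -- accept
    intro ρ hρ
    obtain ⟨ρa, hρa, η, hη, h⟩ := check_accept H eK h1 own ⟨0, own.pos⟩ hρ
    refine ⟨ρa, hρa, η, hη, ?_⟩
    intro a p ε lam β hs x u hx s hs1 hacc
    refine h (I a) (hQ a) (blkW (eB a) false p) (eB a (wd0 (m a))) (hMF a false p) ε lam β hs x u
      hx (fun i => eB a (s i)) hs1 ?_
    have h3 := (hF a).chk (hm a) p s
    have hacc' : (fc (wd p :: List.ofFn fun i => wd (s i))).getD 0 false = true := hacc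
    rw [if_pos hacc'] at h3
    have h4 : (I a).F (fun κ => argv (blkW (eB a) false p .schk) (blkW (eB a) false p .pub)
        (fun i => eB a (s i)) (eK κ)) = eB a (wd1 (m a)) := h3
    rw [h4]
    exact fun h5 => wd1_ne_wd0 (hm a) ((eB a).injective h5)

/-- **Constants.** -/
theorem exists_cs {ρc θ g : ℝ} (hρ : 0 < ρc) (hθ : 0 < θ) (hg : g < 1) :
    ∃ c : FData.Cs, c.ρin ≤ ρc ∧ c.θin ≤ θ ∧ 4 * c.κin ≤ 1 ∧ 4 * c.κin ≤ c.ρin ∧ c.g = g := by
  have h1 : 0 < min ρc (θ / 4) := lt_min hρ (by linarith)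
  have h2 : 0 < min (1 / 4) (min ρc (θ / 4) / 4) := lt_min (by norm_num) (by linarith)
  refine ⟨⟨min ρc (θ / 4), h1, θ, ?_, min (1 / 4) (min ρc (θ / 4) / 4), h2, g, hg⟩,
    min_le_left _ _, le_refl _, ?_, ?_, rfl⟩
  · have := min_le_right ρc (θ / 4)
    linarith
  · have h3 : min (1 / 4) (min ρc (θ / 4) / 4) ≤ 1 / 4 := min_le_left _ _
    show 4 * min (1 / 4) (min ρc (θ / 4) / 4) ≤ 1
    linarith
  · have h3 : min (1 / 4) (min ρc (θ / 4) / 4) ≤ min ρc (θ / 4) / 4 := min_le_right _ _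
    show 4 * min (1 / 4) (min ρc (θ / 4) / 4) ≤ min ρc (θ / 4)
    linarith

end sound

end Vale.Agent.P330.FM
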