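import Vale.Agent.P330.FM.FNumC
import Vale.Agent.P330.FM.FFacts
import Vale.Agent.P330.H838.FDatOk
import Vale.Agent.P330.H475.Lower

/-!
# FUNC: assembly

`funcStmt_of`: `FuncStmt` from the inner decoder (`FData.Dec`) of the concrete family of modules.
-/

namespace Vale.Agent.P330.FM

open Finset Vale.Agent.Lib.PolyTime PCP.AR
open Vale.Agent.P330.H972
open Vale.Agent.P330.FM.TM
open Vale.Agent.P330.H800 (Tab)
open Vale.Agent.P330.H475 (Wd wd toWd wd0 FData FuncStmt)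

/-- **The core of the concrete functional systems.** -/
theorem exists_modHypM {kk mm : ℕ} {τ : Tab kk} (C : XC (nCm τ) (nBm τ) mm) :
    ∃ (q : CConst) (ρc : ℝ), q.Ok ∧ ModHyp (fspec (defsM C)) (ClassF (defsM C)) q ρc (73 / 80) :=
  exists_modHyp (defsM C) (by
    rintro I ⟨c, α, _, m, hm, hb, a, rfl⟩
    exact finst_facts C c hm hb a) (ttSoundM C)

/-- The inner decoder of the concrete family of modules. -/
def DecStmt : Prop := ∀ {K mm : ℕ} {τ : Tab (K + 2)} (C : XC (nCm τ) (nBm τ) mm) (c : ℕ)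
  {α : Type} [Enc α] {m : α → ℕ} (hm : PT ∅ m) (hb : PBd m), (∀ a, 3 ≤ m a) →
  ∃ ρd : ℝ, 0 < ρd ∧ ∀ (q : CConst) (τv : ℚ) (own : Fin K) (ρ : ℝ), 0 < ρ → ρ ≤ ρd →
    Nonempty ((fdatC (defsM C) c hm hb q τv own).Dec (numsC (defsM C) c hm hb q τv own) ρ)

/-- **FUNC from the inner decoder.** -/
theorem funcStmt_of (HD : DecStmt) : FuncStmt := by
  intro ι _ m hm hb hm3 K own fc fe fs hc he hs
  obtain ⟨τ, c, hF⟩ := exists_computes (PT.fsel hc he hs) (K + 2)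
  obtain ⟨C⟩ := exists_XC (nCm τ) (nBm τ) 0
  obtain ⟨q, ρc, hq, H⟩ := exists_modHypM C
  obtain ⟨ρd, hρd, hN⟩ := HD C c hm hb hm3
  obtain ⟨τv, cs, h0, h1, h2, hS⟩ := sound_fdatC (defsM C) c hm hb H hF hm3 own hρd
  exact ⟨fdatC (defsM C) c hm hb q τv own, cs,
    H838.fdatF_ok _ hq h0 h1 own _ _ (Finite.of_fintype (PB C (spec τ))), hS, numsC (defsM C) c hm hb q τv own,
    hN q τv own cs.ρin cs.ρin_pos h2⟩

end Vale.Agent.P330.FM
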