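import Vale.Agent.P330.FM.FuncAsm
import Vale.Agent.P330.H798.InnX

/-!
# FUNC

`funcStmt : FuncStmt`: for all polynomial time site functions there is a family of modules, with
numbers and inner decoder.
-/

namespace Vale.Agent.P330.FM

open Vale.Agent.P330.H972
open Vale.Agent.P330.FM.TM

/-- **The inner decoder.** -/
theorem decStmt : DecStmt := by
  intro K mm τ C c α _ m hm hb _
  refine ⟨ρX C (spec τ) / 2, half_pos (ρX_pos C), fun q τv own ρ _ hρ => ⟨?_⟩⟩
  exact H798.decX (defsM C) c hm hb q τv own (numsC (defsM C) c hm hb q τv own)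
    (fun _ _ => rfl) (fun _ _ => rfl) (by linarith)

/-- **FUNC.** -/
theorem funcStmt : H475.FuncStmt := funcStmt_of decStmt

end Vale.Agent.P330.FM
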