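import Vale.Agent.P330.FM.Absorb
import Vale.Agent.P330.FM.Core

/-!
# Functional module: the test over arbitrary streams

The test of the code is applied with kernel bits which are computed from arbitrary stream bits `o`
(at the moved sites), together with the own test (the own words of both sides are the streams) and
with finitely many linear checks.  If this fails with small probability then the table is near a
word `G` which satisfies the identities of the regrouped kernels everywhere, the linear checks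
everywhere, and whose own words are near the streams.
-/

namespace Vale.Agent.P330.FM

open Finset PCP.AR
open Vale.Agent.P330.Q Vale.Agent.P330.Q.TS
open Vale.Agent.P318.S (PolyLe Low)
open Vale.Agent.P330.S (b2)
open scoped BigOperators

/-! ### Defects -/

section defects

variable {F : Type*} [Field F] {B : ℕ} {Cell V Dg Ext : Type} [Fintype Cell] [DecidableEq Cell]
  [Fintype V] [DecidableEq V] [Fintype Ext]

omit [DecidableEq Cell] [DecidableEq V] [Fintype Ext] in
/-- The kernels enter the defects only through `rk`. -/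
theorem defect_congr {k k' : Chn Cell V → (Fin B → Option Cell) → F}
    {v : Fn Cell V × Mv B Dg → F} (h : ∀ σ c, rk k v σ c = rk k' v σ c) (m : Df Cell V Dg) :
    defect k v m = defect k' v m := by
  cases m with
  | stk =>
    simp only [defect]
    simp only [h]
  | _ => rfl

omit [DecidableEq Cell] [Fintype V] [DecidableEq V] in
theorem rk_absK (k : Chn Cell V → (Fin B → Option (Cell ⊕ Ext)) → F) (x : Ext → Fin B → F)
    (v : Fn Cell V × Mv B Dg → F) (σ : Bool) (c : Chn Cell V) :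
    rk (absK k x) v σ c = sumE k x (fun t e => v (.uW σ e, .sh t)) c :=
  sum_absK k x (fun t e => v (.uW σ e, .sh t)) c

omit [DecidableEq Cell] [Fintype V] [DecidableEq V] in
theorem rk_regK (own : Ext → Cell → Bool)
    (k : Chn Cell V → (Fin B → Option (Cell ⊕ Ext)) → F)
    (v : Fn Cell V × Mv B Dg → F) (σ : Bool) (c : Chn Cell V) :
    rk (regK own k) v σ c =
      sumE k (fun d t => ∑ e, if own d e then v (.uW σ e, .sh t) else 0)
        (fun t e => v (.uW σ e, .sh t)) c :=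
  sum_regK own k (fun t e => v (.uW σ e, .sh t)) c

omit [DecidableEq Cell] [DecidableEq V] in
/-- The defects with external values, if these are the own values. -/
theorem defect_own {own : Ext → Cell → Bool}
    {k : Chn Cell V → (Fin B → Option (Cell ⊕ Ext)) → F} {x : Ext → Fin B → F}
    {v : Fn Cell V × Mv B Dg → F}
    (hx : ∀ σ d t, x d t = ownW own (fun e => v (.uW σ e, .sh t)) d) (m : Df Cell V Dg) :
    defect (absK k x) v m = defect (regK own k) v m := by
  refine defect_congr (fun σ c => ?_) m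
  rw [rk_absK, rk_regK]
  congr 1
  funext d t
  exact hx σ d t

end defects

/-! ### The tests -/

section tests

variable {F : Type} [Field F] {B : ℕ} {Cell V Dg Ext Ξ : Type} [Fintype Cell] [DecidableEq Cell]
  [Fintype V] [DecidableEq V] [Fintype Dg]

/-- The values of the atoms, from the bits. -/
noncomputable def vals (φ : F →+ ZMod 2) (rd : Option ((Fn Cell V × Mv B Dg) × F) → Bool)
    (a : Fn Cell V × Mv B Dg) : F :=
  bdec φ fun l => rd (some (a, l))

/-- The own test fails: some own word of some side is not the stream. -/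
def OwnFail (φ : F →+ ZMod 2) (own : Ext → Cell → Bool)
    (rd : Option ((Fn Cell V × Mv B Dg) × F) → Bool) (ob : Ext → F → Bool) : Prop :=
  ∃ (σ : Bool) (d : Ext) (l : F),
    ob d l ≠ decide (φ (l * ownW own (fun e => vals φ rd (.uW σ e, .one)) d) = 1)

/-- Some linear check fails. -/
def LinFail [Fintype F] (φ : F →+ ZMod 2) (lc : Ξ → Fn Cell V × Mv B Dg → F)
    (rd : Option ((Fn Cell V × Mv B Dg) × F) → Bool) (pb : Ξ → F → Bool) : Prop :=
  ∃ ξ, ∑ a, lc ξ a * vals φ rd a ≠ bdec φ (pb ξ)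

end tests

/-! ### Exactness -/

section exact

variable {F : Type} [Field F] [Fintype F] [DecidableEq F] {Cell V Dg : Type}
  [Fintype Cell] [DecidableEq Cell] [Fintype V] [DecidableEq V] [Fintype Dg] {h B : ℕ} {Y X : Type}
  [AddCommGroup Y] [CharP F 2] [Fintype Y] [DecidableEq Y] {ι : Type} [Fintype ι] [Nonempty ι]
  {ρ : ι → F →+ Y} {t : ℕ} {M : DomData F h B Y Cell V X}

omit [DecidableEq Y] in
/-- An identity of small degree which holds at most points holds at all points. -/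
theorem atoms_exact (H : DegData M ρ t) (dg : Dg → Y) (h2 : ∀ y : Y, y + y = 0) {lam κ τ : ℝ}
    (h0 : 0 ≤ lam) (hb : Spr (pdir ρ ρ) lam) {d d' : ℕ}
    {s : Y × Y → Comp Cell V h → F} {J : Finset (ι × ι)}
    (hJ : (1 - κ) * Fintype.card (ι × ι) ≤ #J)
    (hlow : ∀ i ∈ J, ∀ y, Low d fun u : F => s (y + pdir ρ ρ i u))
    (Φ : (Y × Y) × (Comp Cell V h → F) → (Fn Cell V × Mv B Dg → F) → F)
    (hΦ : ∀ x i (v : F → Fn Cell V × Mv B Dg → F),
      (∀ a, PolyLe F (fun u => v u a) (2 + d)) →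
      PolyLe F (fun u => Φ (x + prodDir (pdir ρ ρ) (modDir F (Comp Cell V h → F)) i u) (v u)) d')
    (hτ : pr (fun x => ¬ Φ x (M.atv dg s x.1 x.2) = 0) ≤ τ)
    (hκ : (Fintype.card (Fn Cell V × Mv B Dg) : ℝ) * κ < 1)
    (hnum : τ < (1 - (d' : ℝ) / ((Fintype.card F : ℝ) - 1)) *
      (1 - Fintype.card (Fn Cell V × Mv B Dg) * κ) - lam)
    (x : (Y × Y) × (Comp Cell V h → F)) : Φ x (M.atv dg s x.1 x.2) = 0 := by
  classical
  have hX : ∀ x : (Y × Y) × (Comp Cell V h → F), x + x = 0 := by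
    rintro ⟨⟨y, y'⟩, c⟩
    refine Prod.ext (Prod.ext (h2 y) (h2 y')) ?_
    funext j
    exact CharTwo.add_self_eq_zero _
  have hbX : Spr (prodDir (pdir ρ ρ) (modDir F (Comp Cell V h → F))) (max lam 0) :=
    spr_prodDir hb spr_modDir
  rw [max_eq_left h0] at hbX
  have hE : Nonempty (Comp Cell V h → F) := ⟨fun _ => 0⟩
  refine (H.atoms dg).exact (q := Fintype.card F) rfl hX h0 hbX hJ
    (fun i hi y => low_iff.1 (hlow i hi y)) Φ hΦ ?_ hnum hκ x
  refine le_trans ?_ hτ
  rw [pr_eq_expect]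
  refine Vale.Agent.P318.S.expect_mono fun x => ?_
  by_cases h1 : Φ x (M.atv dg s x.1 x.2) = 0
  · rw [if_neg (not_not.2 h1)]
    exact le_of_eq (if_pos h1)
  · rw [if_pos h1]
    split_ifs <;> norm_num

end exact

/-! ### Values of a word -/

section values

variable {F : Type} [Field F] [Fintype F] [DecidableEq F] [CharP F 2] {Cell V Dg : Type}
  [Fintype Cell] [DecidableEq Cell] [Fintype V] [DecidableEq V] [Fintype Dg] {h B : ℕ} {Y X : Type}
  [AddCommGroup Y] [Fintype Y] [DecidableEq Y] {φ : F →+ ZMod 2} {hφ : φ ≠ 0} {D : ℕ}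
  {hD : Fintype.card F ≤ 2 * D + 1} {hD2 : D + 2 ≤ Fintype.card F} {ι : Type} [Fintype ι]
  [Nonempty ι]

/-- The values of the atoms, from the bits of a word. -/
theorem vals_bitc (hφ' : φ ≠ 0) (M : Dom F h B Y Cell V X) (l₁ : F) (dg : Dg → Y)
    (r : ι → F →+ Y × Y) (h2 : ∀ y : Y, y + y = 0) (s : Y × Y → Comp Cell V h → F)
    (x : (Y × Y) × (Comp Cell V h → F)) (a : Fn Cell V × Mv B Dg) :
    vals φ (fun k => bitc (mkInst M l₁ (tInst M.toDomData dg φ) r h2 :
        CInst (mkCode Cell V B φ hφ D hD hD2 (tHalf Cell V Dg B φ))) s (.inr k) x) a =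
      M.toDomData.atv dg s x.1 x.2 a := by
  have h5 : ∀ l : F, bitc (mkInst M l₁ (tInst M.toDomData dg φ) r h2 :
        CInst (mkCode Cell V B φ hφ D hD hD2 (tHalf Cell V Dg B φ))) s (.inr (some (a, l))) x =
      decide (φ (l * M.toDomData.atv dg s x.1 x.2 a) = 1) := by
    intro l
    show decide (φ (∑ j, (l • fn x.2 a.1) j * s (M.toDomData.mv dg a.2 x.1) j) = 1) = _
    unfold DomData.atv
    rw [Finset.mul_sum]
    have h3 : ∀ j, (l • fn x.2 a.1) j * s (M.toDomData.mv dg a.2 x.1) j =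
        l * (fn x.2 a.1 j * s (M.toDomData.mv dg a.2 x.1) j) := fun j => by
      rw [Pi.smul_apply, smul_eq_mul, mul_assoc]
    simp only [h3]
  exact (congrArg (bdec φ) (funext h5)).trans (bdec_decide φ hφ' _)

end values

/-! ### Arbitrary streams -/

section garbage

variable {F : Type} [Field F] [Fintype F] [DecidableEq F] [CharP F 2] {Cell V Dg Ext Ξ : Type}
  [Fintype Cell] [DecidableEq Cell] [Fintype V] [DecidableEq V] [Fintype Dg] [Fintype Ext]
  {h B : ℕ} {Y X : Type}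
  [AddCommGroup Y] [Fintype Y] [DecidableEq Y] {φ : F →+ ZMod 2} {hφ : φ ≠ 0} {D : ℕ}
  {hD : Fintype.card F ≤ 2 * D + 1} {hD2 : D + 2 ≤ Fintype.card F} {ι : Type} [Fintype ι]
  [Nonempty ι] {ρ : ι → F →+ Y} {t : ℕ}

/-- The site at which the slot `t` reads the streams. -/
def mvS (M : DomData F h B Y Cell V X) {E Z : Type*} (t : Fin B) :
    ((Y × Y) × E) × Z ≃ ((Y × Y) × E) × Z :=
  (((Equiv.refl Y).prodCongr (M.sh t)).prodCongr (Equiv.refl E)).prodCongr (Equiv.refl Z)

/-- The kernel bits, computed from the stream bits. -/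
def KerBits (M : DomData F h B Y Cell V X)
    (K : Chn Cell V → (Fin B → Option (Cell ⊕ Ext)) → Y → Y → F) (φ : F →+ ZMod 2)
    {E Z V₀ : Type*} (o : Ext → F → ((Y × Y) × E) × Z → Bool)
    (pv : ((Y × Y) × E) × Z → V₀ ⊕ AV F Cell V B ⊕ Chn Cell V × (Fin B → Option Cell) × F → Bool) :
    Prop :=
  ∀ ω c γ l, pv ω (.inr (.inr (c, γ, l))) =
    decide (φ (l * absK (fun c g => K c g ω.1.1.1 ω.1.1.2)
      (fun d t => bdec φ fun l => o d l (mvS M t ω)) c γ) = 1)

omit [DecidableEq Y] in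
/-- **Arbitrary streams, for a word.** -/
theorem garbage_core {Z : Type} [Fintype Z] [Nonempty Z]
    (hφ' : φ ≠ 0) (M : DomData F h B Y Cell V X) (dg : Dg → Y) (h2 : ∀ y : Y, y + y = 0)
    {K : Chn Cell V → (Fin B → Option (Cell ⊕ Ext)) → Y → Y → F} {own : Ext → Cell → Bool}
    (H : DegData (setK M (regroup own K)) ρ t) (hgen : M.Gen dg)
    {lam κ δ η τ : ℝ} (h0 : 0 ≤ lam) (hb : Spr (pdir ρ ρ) lam)
    {lc : Ξ → Fn Cell V × Mv B Dg → F} {π : Ξ → Y × Y → F} {d d' : ℕ}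
    (hd' : 2 * t + (B + 3) * (2 + d) ≤ d')
    (hπ : ∀ ξ p i, PolyLe F (fun u => π ξ (p + pdir ρ ρ i u)) d')
    (hκ : (Fintype.card (Fn Cell V × Mv B Dg) : ℝ) * κ < 1)
    (hτ' : ((B : ℝ) + 1) * (δ + η) ≤ τ)
    (hτ : τ < (1 - (d' : ℝ) / ((Fintype.card F : ℝ) - 1)) *
      (1 - Fintype.card (Fn Cell V × Mv B Dg) * κ) - lam)
    {G : Y × Y → Comp Cell V h → F} {J : Finset (ι × ι)}
    (hJ : (1 - κ) * Fintype.card (ι × ι) ≤ #J)
    (hlow : ∀ i ∈ J, ∀ y, Low d fun u : F => G (y + pdir ρ ρ i u))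
    (rd : ((Y × Y) × (Comp Cell V h → F)) × Z → Option ((Fn Cell V × Mv B Dg) × F) → Bool)
    (o : Ext → F → ((Y × Y) × (Comp Cell V h → F)) × Z → Bool)
    (pv : ((Y × Y) × (Comp Cell V h → F)) × Z →
      Unit ⊕ AV F Cell V B ⊕ Chn Cell V × (Fin B → Option Cell) × F → Bool)
    (hpv : KerBits M K φ o pv)
    (hT : pr (fun ω : ((Y × Y) × (Comp Cell V h → F)) × Z =>
      (∃ m : Df Cell V Dg, defect (fun c γ => bdec φ fun l => pv ω (.inr (.inr (c, γ, l))))
        (vals φ (rd ω)) m ≠ 0) ∨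
      OwnFail φ own (rd ω) (fun d l => o d l ω) ∨
      LinFail φ lc (rd ω) (fun ξ l => decide (φ (l * π ξ ω.1.1) = 1))) ≤ δ)
    (herr : pr (fun ω : ((Y × Y) × (Comp Cell V h → F)) × Z =>
      ∃ a, vals φ (rd ω) a ≠ M.atv dg G ω.1.1 ω.1.2 a) ≤ η) :
    (setK M (regroup own K)).Ids G ∧
      (∀ ξ p c, ∑ a, lc ξ a * M.atv dg G p c a = π ξ p) ∧
      (∀ σ d p, ownW own (fun e => G p (.W σ e)) d = ownW own (fun e => G p (.W false e)) d) ∧
      pr (fun ω : ((Y × Y) × (Comp Cell V h → F)) × Z =>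
        ∃ d l, o d l ω ≠ decide (φ (l * ownW own (fun e => G ω.1.1 (.W false e)) d) = 1)) ≤
        δ + η := by
  classical
  set Bad : ((Y × Y) × (Comp Cell V h → F)) × Z → Prop := fun ω =>
      ((∃ m : Df Cell V Dg, defect (fun c γ => bdec φ fun l => pv ω (.inr (.inr (c, γ, l))))
        (vals φ (rd ω)) m ≠ 0) ∨
      OwnFail φ own (rd ω) (fun d l => o d l ω) ∨
      LinFail φ lc (rd ω) (fun ξ l => decide (φ (l * π ξ ω.1.1) = 1))) ∨
      ∃ a, vals φ (rd ω) a ≠ M.atv dg G ω.1.1 ω.1.2 a with hBad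
  have hBad1 : pr Bad ≤ δ + η := (pr_or _ _).trans (add_le_add hT herr)
  -- good sites
  have hval : ∀ ω, ¬ Bad ω → vals φ (rd ω) = M.atv dg G ω.1.1 ω.1.2 := by
    intro ω hω
    funext a
    by_contra hk
    exact hω (Or.inr ⟨a, hk⟩)
  have hown : ∀ ω, ¬ Bad ω → ∀ σ d l, o d l ω =
      decide (φ (l * ownW own (fun e => G ω.1.1 (.W σ e)) d) = 1) := by
    intro ω hω σ d l
    by_contra hk
    refine hω (Or.inl (Or.inr (Or.inl ⟨σ, d, l, fun h5 => hk (h5.trans ?_)⟩)))
    rw [hval ω hω]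
    simp only [DomData.atv_uW]
    rfl
  have hown' : ∀ ω, ¬ Bad ω → ∀ σ d, (bdec φ fun l => o d l ω) =
      ownW own (fun e => G ω.1.1 (.W σ e)) d := by
    intro ω hω σ d
    simp only [hown ω hω σ]
    exact bdec_decide φ hφ' _
  have hlin : ∀ ω, ¬ Bad ω → ∀ ξ, ∑ a, lc ξ a * M.atv dg G ω.1.1 ω.1.2 a = π ξ ω.1.1 := by
    intro ω hω ξ
    by_contra hk
    refine hω (Or.inl (Or.inr (Or.inr ⟨ξ, fun h5 => hk ?_⟩)))
    rw [bdec_decide φ hφ', hval ω hω] at h5
    exact h5
  have htest : ∀ ω, ¬ Bad ω → ∀ m : Df Cell V Dg,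
      defect (fun c γ => bdec φ fun l => pv ω (.inr (.inr (c, γ, l))))
        (M.atv dg G ω.1.1 ω.1.2) m = 0 := by
    intro ω hω m
    by_contra hk
    refine hω (Or.inl (Or.inl ⟨m, ?_⟩))
    rw [hval ω hω]
    exact hk
  have hker : ∀ ω, ¬ Bad ω → (∀ r : Fin B, ¬ Bad (mvS M r ω)) → ∀ m : Df Cell V Dg,
      defect (fun c γ => (setK M (regroup own K)).K c γ ω.1.1.1 ω.1.1.2)
        (M.atv dg G ω.1.1 ω.1.2) m = 0 := by
    intro ω hω hs m
    have h3 := htest ω hω m
    have h4 : (fun c γ => bdec φ fun l => pv ω (.inr (.inr (c, γ, l)))) =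
        absK (fun c g => K c g ω.1.1.1 ω.1.1.2)
          (fun d r => bdec φ fun l => o d l (mvS M r ω)) := by
      funext c γ
      simp only [hpv ω c γ]
      exact bdec_decide φ hφ' _
    rw [h4, defect_own (own := own) (fun σ d r => ?_)] at h3
    · exact h3
    · rw [hown' _ (hs r) σ d]
      simp only [DomData.atv_uW]
      rfl
  -- probabilities
  have hBad2 : pr (fun ω => Bad ω ∨ ∃ r : Fin B, Bad (mvS M r ω)) ≤ τ := by
    refine (pr_or _ _).trans (le_trans (add_le_add hBad1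
      (pr_ex_le (fun (r : Fin B) ω => Bad (mvS M r ω)) (δ + η) fun r =>
        ((pr_equiv (mvS M r) Bad).le.trans hBad1))) (le_trans (le_of_eq ?_) hτ'))
    rw [Fintype.card_fin]
    ring
  have hEn : Nonempty (Comp Cell V h → F) := ⟨fun _ => 0⟩
  have hYn : Nonempty Y := ⟨0⟩
  have hpr : ∀ P : (Y × Y) × (Comp Cell V h → F) → Prop,
      (∀ ω : ((Y × Y) × (Comp Cell V h → F)) × Z, ¬ Bad ω → (∀ r : Fin B, ¬ Bad (mvS M r ω)) →
        P ω.1) → pr (fun x => ¬ P x) ≤ τ := by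
    intro P hP
    rw [← pr_fst (Ω' := Z) (fun x => ¬ P x)]
    refine (pr_mono fun ω hω => ?_).trans hBad2
    by_contra hk
    rw [not_or] at hk
    push Not at hk
    exact hω (hP ω hk.1 hk.2)
  refine ⟨?_, ?_, ?_, ?_⟩
  · refine DomData.ids_of_defect (dg := dg) hgen fun p c m => ?_
    exact atoms_exact H dg h2 h0 hb (d' := d') hJ hlow
      (fun x v => defect (fun ch γ => (setK M (regroup own K)).K ch γ x.1.1 x.1.2) v m)
      (fun x i v hv => (defect_low (fun c γ => H.K_low c γ x.1.1 x.1.2 i.1.1 i.1.2) hv m).mono hd')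
      (hpr _ fun ω h3 h4 => hker ω h3 h4 m) hκ hτ (p, c)
  · intro ξ p c
    have h3 := atoms_exact H dg h2 h0 hb (d' := d') hJ hlow
      (fun x v => ∑ a, lc ξ a * v a - π ξ x.1)
      (fun x i v hv => ?_)
      (hpr _ fun ω h3 h4 => sub_eq_zero.2 (hlin ω h3 ξ)) hκ hτ (p, c)
    · exact sub_eq_zero.1 h3
    · refine PolyLe.sub (PolyLe.sum _ fun a _ => ((hv a).const_smul (lc ξ a)).mono ?_)
        (hπ ξ x.1 i.1)
      refine le_trans ?_ hd'
      nlinarith [Nat.zero_le (2 * t), Nat.zero_le (B * (2 + d))]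
  · intro σ e₀ p
    have h3 := atoms_exact H dg h2 h0 hb (d' := d') hJ hlow
      (fun _ v => ownW own (fun e => v (.uW σ e, .one)) e₀ -
        ownW own (fun e => v (.uW false e, .one)) e₀)
      (fun x i v hv => ?_)
      (hpr (fun x => ownW own (fun e => M.atv dg G x.1 x.2 (.uW σ e, .one)) e₀ -
        ownW own (fun e => M.atv dg G x.1 x.2 (.uW false e, .one)) e₀ = 0)
        fun ω h3 _ => ?_) hκ hτ (p, 0)
    · have h4 := sub_eq_zero.1 h3
      simp only [DomData.atv_uW] at h4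
      exact h4
    · have h5 : ∀ σ', PolyLe F (fun u => ownW own (fun e => v u (.uW σ' e, .one)) e₀) d' := by
        intro σ'
        unfold ownW
        refine PolyLe.sum _ fun e _ => ?_
        split_ifs
        · refine (hv _).mono (le_trans ?_ hd')
          nlinarith [Nat.zero_le (2 * t), Nat.zero_le (B * (2 + d))]
        · exact PolyLe.zero _
      exact (h5 σ).sub (h5 false)
    · simp only [DomData.atv_uW]
      rw [sub_eq_zero]
      exact (hown' ω h3 σ e₀).symm.trans (hown' ω h3 false e₀)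
  · refine (pr_mono ?_).trans hBad1
    rintro ω ⟨d, l, hdl⟩
    by_contra hk
    exact hdl (hown ω hk false d l)

/-- **Arbitrary streams.**  The test of the code with kernel bits from the streams, the own test and
the linear checks. -/
theorem garbage (hφ' : φ ≠ 0) (M : Dom F h B Y Cell V X) (l₁ : F) (dg : Dg → Y)
    (h2 : ∀ y : Y, y + y = 0)
    {K : Chn Cell V → (Fin B → Option (Cell ⊕ Ext)) → Y → Y → F} {own : Ext → Cell → Bool}
    (H : DegData (setK M.toDomData (regroup own K)) ρ t) (hgen : M.toDomData.Gen dg)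
    {lam δ τ : ℝ} (h0 : 0 ≤ lam) (inj : ∀ i, Function.Injective (pdir ρ ρ i))
    (hb : Spr (pdir ρ ρ) lam) (hlam : (Fintype.card F : ℝ) * lam ≤ 1 / 16)
    {lc : Ξ → Fn Cell V × Mv B Dg → F} {π : Ξ → Y × Y → F} {d' : ℕ}
    (hd' : 2 * t + (B + 3) * (2 + (Fintype.card F - 2 - D)) ≤ d')
    (hπ : ∀ ξ p i, PolyLe F (fun u => π ξ (p + pdir ρ ρ i u)) d')
    (h1 : δ ≤ 1 / (160 * (Fintype.card F : ℝ) ^ 2))
    (hκ : (Fintype.card (Fn Cell V × Mv B Dg) : ℝ) * (4 * (Fintype.card F : ℝ) * δ) < 1)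
    (hτ' : ((B : ℝ) + 1) * (δ + (Fintype.card (Option ((Fn Cell V × Mv B Dg) × F)) : ℝ) *
      ((6 + 8 * (Fintype.card F : ℝ)) * δ)) ≤ τ)
    (hτ : τ < (1 - (d' : ℝ) / ((Fintype.card F : ℝ) - 1)) *
      (1 - Fintype.card (Fn Cell V × Mv B Dg) * (4 * (Fintype.card F : ℝ) * δ)) - lam)
    (f : (Y × Y) × (Comp Cell V h → F) → Bool)
    (o : Ext → F → ((Y × Y) × (Comp Cell V h → F)) × QPad F (Comp Cell V h) (ι × ι) D → Bool)
    (pv : ((Y × Y) × (Comp Cell V h → F)) × QPad F (Comp Cell V h) (ι × ι) D →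
      Unit ⊕ AV F Cell V B ⊕ Chn Cell V × (Fin B → Option Cell) × F → Bool)
    (hpv : KerBits M.toDomData K φ o pv)
    (hT : pr (fun ω : ((Y × Y) × (Comp Cell V h → F)) × QPad F (Comp Cell V h) (ι × ι) D =>
      (mkCode Cell V B φ hφ D hD hD2 (tHalf Cell V Dg B φ)).spec.tF
        (rawT (mkInst M l₁ (tInst M.toDomData dg φ) (pdir ρ ρ) h2) f ω) (pv ω) = true ∨
      OwnFail φ own
        (fun k => rdc (mkInst M l₁ (tInst M.toDomData dg φ) (pdir ρ ρ) h2 :
          CInst (mkCode Cell V B φ hφ D hD hD2 (tHalf Cell V Dg B φ))) f (.inr k) ω)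
        (fun d l => o d l ω) ∨
      LinFail φ lc
        (fun k => rdc (mkInst M l₁ (tInst M.toDomData dg φ) (pdir ρ ρ) h2 :
          CInst (mkCode Cell V B φ hφ D hD hD2 (tHalf Cell V Dg B φ))) f (.inr k) ω)
        (fun ξ l => decide (φ (l * π ξ ω.1.1) = 1))) ≤ δ) :
    ∃ G : Y × Y → Comp Cell V h → F,
      (setK M.toDomData (regroup own K)).Ids G ∧
      (∀ ξ p c, ∑ a, lc ξ a * M.toDomData.atv dg G p c a = π ξ p) ∧
      (∀ σ d p, ownW own (fun e => G p (.W σ e)) d = ownW own (fun e => G p (.W false e)) d) ∧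
      pr (fun ω : ((Y × Y) × (Comp Cell V h → F)) × QPad F (Comp Cell V h) (ι × ι) D =>
        ∃ d l, o d l ω ≠ decide (φ (l * ownW own (fun e => G ω.1.1 (.W false e)) d) = 1)) ≤
        δ + (Fintype.card (Option ((Fn Cell V × Mv B Dg) × F)) : ℝ) *
          ((6 + 8 * (Fintype.card F : ℝ)) * δ) ∧
      pr (fun x : (Y × Y) × (Comp Cell V h → F) => f x ≠ wbit φ x.2 (G x.1)) ≤
        (7 + 8 * (Fintype.card F : ℝ)) * δ := by
  set N : Code := mkCode Cell V B φ hφ D hD hD2 (tHalf Cell V Dg B φ) with hN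
  set I : CInst N := mkInst M l₁ (tInst M.toDomData dg φ) (pdir ρ ρ) h2 with hI
  obtain ⟨s, J, hlow, hcard, herr, hdist⟩ := word_core I inj hb hlam h1 f
    ((pr_mono fun ω hω => Or.inl ((tF_iff I f ω (pv ω)).2 (Or.inl hω))).trans hT)
    ((pr_mono fun ω hω => Or.inl ((tF_iff I f ω (pv ω)).2 (Or.inr (Or.inl hω)))).trans hT)
  have h5 := pr_ex_le (fun (k : N.KT) (ω : I.P × QPad N.F I.R I.ι N.D) =>
    rdc I f (.inr k) ω ≠ bitc I s (.inr k) ω.1) _ fun k => herr (.inr k)
  have hZ : Nonempty (QPad F (Comp Cell V h) (ι × ι) D) :=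
    ⟨(fun _ => 0, fun _ _ _ => 0, fun _ => Classical.arbitrary _)⟩
  refine ⟨s, ?_⟩
  have h6 := garbage_core (Z := QPad F (Comp Cell V h) (ι × ι) D) (lc := lc) hφ' M.toDomData dg h2 H hgen
    (κ := 4 * (Fintype.card F : ℝ) * δ) (δ := δ)
    (η := (Fintype.card (Option ((Fn Cell V × Mv B Dg) × F)) : ℝ) *
          ((6 + 8 * (Fintype.card F : ℝ)) * δ)) h0 hb hd' hπ hκ hτ' hτ (G := s) hcard hlow
    (fun ω k => rdc I f (.inr k) ω) o pv hpv ((pr_mono fun ω hω => ?_).trans hT)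
    ((pr_mono fun ω hω => ?_).trans h5)
  · exact ⟨h6.1, h6.2.1, h6.2.2.1, h6.2.2.2, hdist⟩
  · rcases hω with hω | hω
    · refine Or.inl ((tF_iff I f ω (pv ω)).2 (Or.inr (Or.inr ?_)))
      classical
      exact decide_eq_true hω
    · exact Or.inr hω
  · obtain ⟨a, ha⟩ := hω
    by_contra hk
    push Not at hk
    refine ha ?_
    have h7 := vals_bitc (hφ := hφ) (hD := hD) (hD2 := hD2) hφ' M l₁ dg (pdir ρ ρ) h2 s ω.1 a
    rw [← h7]
    congr 1
    funext k
    exact hk k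

end garbage

end Vale.Agent.P330.FM
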