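import Vale.Agent.P330.FM.FSys
import Vale.Agent.P330.H551.BDefs

/-!
# The modules `hold`, `step`, `check` from the core network

The core network of a functional system `S` with `k + 2` inputs (selector, public block, `k` wires)
is used as a black box.

* `step`: one copy of the core.
* `hold`: every wire is sanitized by a copy of the core (selector `sid`), with a flag; the flags are
  averaged and compared with `2 k + 1` thresholds; the replica `j` of the core uses the threshold `j`
  to mask the wires; the output is the bitwise majority of the replicas.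
* `check`: the own stream is sanitized and compared with the result; the verdict is read off one copy
  of the core.
-/

namespace Vale.Agent.P330.FM

open Finset PCP.AR
open S (BitDef MDef Sem IsB)
open H551 (ODef Mod)

/-- Names of the constant blocks: selectors of the four functions, the public block. -/
inductive CN
  | sid
  | shold
  | sstep
  | schk
  | pub
  deriving DecidableEq

instance : Fintype CN := ⟨{.sid, .shold, .sstep, .schk, .pub}, by intro n; cases n <;> simp⟩

/-- The inputs of the core: selector, public block, wires. -/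
def argv {k : ℕ} {A : Type} (s p : A) (x : Fin k → A) : Fin (k + 2) → A :=
  Fin.cons (α := fun _ => A) s (Fin.cons (α := fun _ => A) p x)

@[simp] theorem argv_zero {k : ℕ} {A : Type} (s p : A) (x : Fin k → A) : argv s p x 0 = s := rfl

@[simp] theorem argv_one {k : ℕ} {A : Type} (s p : A) (x : Fin k → A) :
    argv s p x (Fin.succ 0) = p := rfl

@[simp] theorem argv_succ {k : ℕ} {A : Type} (s p : A) (x : Fin k → A) (i : Fin k) :
    argv s p x i.succ.succ = x i := rfl

/-! ### Definitions of registers -/

/-- A definition as a definition of an open network; thresholds and averages of inputs are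
replaced by those of `d`. -/
def ofX {Reg Rd CB I : Type} (d : Reg) : XDef (Reg ⊕ I) Rd CB → ODef Reg Rd CB I
  | .bit B => .bit B
  | .thr α (.inl r) => .thr α r
  | .thr α (.inr _) => .thr α d
  | .ra o g (.inl r) => .ra o g r
  | .ra o g (.inr _) => .ra o g d

/-- Thresholds and averages are those of own registers. -/
def IsOwn {Reg Rd CB I : Type} : XDef (Reg ⊕ I) Rd CB → Prop
  | .bit _ => True
  | .thr _ r => r.isLeft = true
  | .ra _ _ r => r.isLeft = true

theorem ofX_rel {Reg Rd CB I Ω : Type} {d : Reg} {D : XDef (Reg ⊕ I) Rd CB} (hD : IsOwn D)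
    (E : Sem Rd CB Ω) (ε lam : ℝ) (v : Reg ⊕ I → Ω → ℝ) (ρ : Reg ⊕ I) (ω : Ω) :
    (ofX d D).toM.Rel E ε ((ofX d D).lamOf lam) v ρ ω ↔ D.Rel E ε lam v ρ ω := by
  cases D with
  | bit B => exact Iff.rfl
  | thr α r =>
    rcases r with r | r
    · exact Iff.rfl
    · simp [IsOwn] at hD
  | ra o g r =>
    rcases r with r | r
    · exact Iff.rfl
    · simp [IsOwn] at hD

variable {S : FSpec} {k : ℕ}

theorem isOwn_coreDef (q : CConst) (ρ : CReg S) : IsOwn (coreDef q ρ) := by
  cases ρ with
  | inn ρ => cases ρ <;> simp [coreDef, innDef, Q.net, IsOwn]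
  | _ => simp [coreDef, IsOwn]

/-- The hard-wired bits of a module. -/
abbrev CBM (S : FSpec) : Type := S.CB ⊕ (CN × S.L)

/-- A copy of the core in a module: `own` are its registers, `inp` its inputs. -/
noncomputable def callDef {Reg : Type} (eK : S.K ≃ Fin (k + 2)) (q : CConst) (own : CReg S → Reg)
    (inp : Fin (k + 2) → S.L → Reg ⊕ (Fin k × S.L)) (ρ : CReg S) :
    ODef Reg S.Rd (CBM S) (Fin k × S.L) :=
  ofX (own .e) ((coreDef q ρ).map (Sum.elim (fun r => .inl (own r)) fun a => inp (eK a.1) a.2)
    id .inl)

/-- A register that copies the bit `l` of the constant block `n`. -/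
def cstDef {Reg : Type} (n : CN) (l : S.L) : ODef Reg S.Rd (CBM S) (Fin k × S.L) :=
  .bit { ι := Unit
         fι := inferInstance
         inp := fun _ => .inr (.inr (n, l))
         f := fun y => y () }

/-- The semantics of a module: `blk` are the constant blocks. -/
def FInst.semM (I : FInst S) (blk : CN → I.Bl) : Sem S.Rd (CBM S) I.W where
  rd := I.rd
  cb := Sum.elim I.cb fun a ω => I.enc (blk a.1) a.2 ω.1
  nb := I.sem.nb

/-- What the modules need to know about an instance. -/
structure FInst.MFacts (I : FInst S) (eK : S.K ≃ Fin (k + 2)) (sid zero : I.Bl) (i0 : Fin k)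
    (θ : ℝ) : Prop where
  /-- the selector `sid` selects the first wire -/
  F_id : ∀ p X, I.F (fun a => argv sid p X (eK a)) = X i0
  enc_zero : ∀ l p, I.enc zero l p = false
  encDist : ∀ s s' : I.Bl, s ≠ s' → θ ≤ pr fun p : I.P => ∃ l, I.enc s l p ≠ I.enc s' l p

/-! ### `step` -/

/-- Registers of `step`. -/
inductive SReg (S : FSpec)
  | k (n : CN) (l : S.L)
  | c (ρ : CReg S)

instance : Fintype (SReg S) :=
  Fintype.ofEquiv ((CN × S.L) ⊕ CReg S)
    { toFun := Sum.elim (fun a => .k a.1 a.2) .c
      invFun := fun r => match r with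
        | .k n l => .inl (n, l)
        | .c ρ => .inr ρ
      left_inv := by rintro (a | a) <;> rfl
      right_inv := by rintro (a | a) <;> rfl }

/-- The module `step`. -/
noncomputable def stepMod (S : FSpec) {k : ℕ} (eK : S.K ≃ Fin (k + 2)) (q : CConst) :
    Mod (Fin k × S.L) S.L where
  Reg := SReg S
  fReg := inferInstance
  dReg := Classical.decEq _
  Rd := S.Rd
  CB := CBM S
  net
    | .k n l => cstDef n l
    | .c ρ => callDef eK q .c
        (argv (fun l => .inl (.k .sstep l)) (fun l => .inl (.k .pub l)) fun i l => .inr (i, l)) ρ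
  out l := .c (.y l)

/-! ### `hold` -/

/-- Registers of `hold`. -/
inductive HReg (S : FSpec) (k : ℕ)
  | k (n : CN) (l : S.L)
  /-- sanitizer of the wire `i` -/
  | san (i : Fin k) (ρ : CReg S)
  /-- average of its flag -/
  | fa (i : Fin k)
  /-- comparison with the threshold `j` -/
  | fl (i : Fin k) (j : Fin (2 * k + 1))
  /-- masked stream of the wire `i` in the replica `j` -/
  | mk (j : Fin (2 * k + 1)) (i : Fin k) (l : S.L)
  /-- replica `j` -/
  | rep (j : Fin (2 * k + 1)) (ρ : CReg S)
  | out (l : S.L)

instance : Fintype (HReg S k) :=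
  Fintype.ofEquiv (((CN × S.L) ⊕ (Fin k × CReg S)) ⊕ (Fin k ⊕ (Fin k × Fin (2 * k + 1))) ⊕
      ((Fin (2 * k + 1) × Fin k × S.L) ⊕ (Fin (2 * k + 1) × CReg S)) ⊕ S.L)
    { toFun := fun r => match r with
        | .inl (.inl a) => .k a.1 a.2
        | .inl (.inr a) => .san a.1 a.2
        | .inr (.inl (.inl i)) => .fa i
        | .inr (.inl (.inr a)) => .fl a.1 a.2
        | .inr (.inr (.inl (.inl a))) => .mk a.1 a.2.1 a.2.2
        | .inr (.inr (.inl (.inr a))) => .rep a.1 a.2
        | .inr (.inr (.inr l)) => .out l
      invFun := fun r => match r with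
        | .k n l => .inl (.inl (n, l))
        | .san i ρ => .inl (.inr (i, ρ))
        | .fa i => .inr (.inl (.inl i))
        | .fl i j => .inr (.inl (.inr (i, j)))
        | .mk j i l => .inr (.inr (.inl (.inl (j, i, l))))
        | .rep j ρ => .inr (.inr (.inl (.inr (j, ρ))))
        | .out l => .inr (.inr (.inr l))
      left_inv := by
        rintro ((a | a) | (a | a) | (a | a) | a) <;> rfl
      right_inv := by rintro (a | a | a | a | a | a | a) <;> rfl }

/-- The thresholds of `hold`. -/
def thj (k : ℕ) (j : Fin (2 * k + 1)) : ℚ := ((j : ℕ) + 1) / (8 * ((k : ℚ) + 1))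

/-- Definition of `mk j i l`. -/
def mkBit (i : Fin k) (j : Fin (2 * k + 1)) (l : S.L) :
    BitDef (HReg S k ⊕ (Fin k × S.L)) S.Rd (CBM S) where
  ι := Bool
  fι := inferInstance
  inp b := .inl (S.self, .inl (if b then .fl i j else .san i (.y l)))
  f y := y false && !(y true)

/-- Definition of `out l`: majority. -/
def majBit (l : S.L) : BitDef (HReg S k ⊕ (Fin k × S.L)) S.Rd (CBM S) where
  ι := Fin (2 * k + 1)
  fι := inferInstance
  inp j := .inl (S.self, .inl (.rep j (.y l)))
  f y := decide (k + 1 ≤ (univ.filter fun j => y j = true).card)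

/-- The module `hold`. -/
noncomputable def holdMod (S : FSpec) {k : ℕ} (eK : S.K ≃ Fin (k + 2)) (q : CConst) :
    Mod (Fin k × S.L) S.L where
  Reg := HReg S k
  fReg := inferInstance
  dReg := Classical.decEq _
  Rd := S.Rd
  CB := CBM S
  net
    | .k n l => cstDef n l
    | .san i ρ => callDef eK q (.san i)
        (argv (fun l => .inl (.k .sid l)) (fun l => .inl (.k .pub l)) fun _ l => .inr (i, l)) ρ
    | .fa i => .ra none true (.san i .tf)
    | .fl i j => .thr (thj k j) (.fa i)
    | .mk j i l => .bit (mkBit i j l)
    | .rep j ρ => callDef eK q (.rep j)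
        (argv (fun l => .inl (.k .shold l)) (fun l => .inl (.k .pub l)) fun i l => .inl (.mk j i l)) ρ
    | .out l => .bit (majBit l)
  out l := .out l

/-! ### `check` -/

/-- Registers of `check`. -/
inductive KReg (S : FSpec)
  | k (n : CN) (l : S.L)
  /-- sanitizer of the own stream -/
  | san (ρ : CReg S)
  /-- the verdict: acceptance is a nonzero block -/
  | c (ρ : CReg S)
  | v0
  | va
  | vt
  | out

instance : Fintype (KReg S) :=
  Fintype.ofEquiv (((CN × S.L) ⊕ CReg S) ⊕ CReg S ⊕ Fin 4)
    { toFun := fun r => match r with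
        | .inl (.inl a) => .k a.1 a.2
        | .inl (.inr a) => .san a
        | .inr (.inl a) => .c a
        | .inr (.inr 0) => .v0
        | .inr (.inr 1) => .va
        | .inr (.inr 2) => .vt
        | .inr (.inr 3) => .out
      invFun := fun r => match r with
        | .k n l => .inl (.inl (n, l))
        | .san ρ => .inl (.inr ρ)
        | .c ρ => .inr (.inl ρ)
        | .v0 => .inr (.inr 0)
        | .va => .inr (.inr 1)
        | .vt => .inr (.inr 2)
        | .out => .inr (.inr 3)
      left_inv := by
        rintro ((a | a) | a | a)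
        · rfl
        · rfl
        · rfl
        · fin_cases a <;> rfl
      right_inv := by rintro (a | a | a | a | a | a | a) <;> rfl }

open Classical in
/-- Definition of `v0`: the result is not zero. -/
noncomputable def v0Bit (S : FSpec) (k : ℕ) : BitDef (KReg S ⊕ (Fin k × S.L)) S.Rd (CBM S) where
  ι := S.L
  fι := inferInstance
  inp l := .inl (S.self, .inl (.c (.y l)))
  f y := decide (∃ l, y l = true)

open Classical in
/-- Definition of `out`: flag, or the sanitized own stream differs from the own stream, or the
verdict is negative. -/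
noncomputable def outBit (S : FSpec) {k : ℕ} (own : Fin k) :
    BitDef (KReg S ⊕ (Fin k × S.L)) S.Rd (CBM S) where
  ι := Bool ⊕ (Bool × S.L)
  fι := inferInstance
  inp
    | .inl b => .inl (S.self, .inl (if b then .vt else .san .tf))
    | .inr a => .inl (S.self, if a.1 then .inr (own, a.2) else .inl (.san (.y a.2)))
  f y := decide (y (.inl false) = true ∨ y (.inl true) = false ∨
    ∃ l, y (.inr (false, l)) ≠ y (.inr (true, l)))

/-- The module `check`. -/
noncomputable def checkMod (S : FSpec) {k : ℕ} (eK : S.K ≃ Fin (k + 2)) (q : CConst) (τv : ℚ)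
    (own : Fin k) : Mod (Fin k × S.L) Unit where
  Reg := KReg S
  fReg := inferInstance
  dReg := Classical.decEq _
  Rd := S.Rd
  CB := CBM S
  net
    | .k n l => cstDef n l
    | .san ρ => callDef eK q .san
        (argv (fun l => .inl (.k .sid l)) (fun l => .inl (.k .pub l)) fun _ l => .inr (own, l)) ρ
    | .c ρ => callDef eK q .c
        (argv (fun l => .inl (.k .schk l)) (fun l => .inl (.k .pub l)) fun i l => .inr (i, l)) ρ
    | .v0 => .bit (v0Bit S k)
    | .va => .ra none true .v0
    | .vt => .thr τv .va
    | .out => .bit (outBit S own)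
  out _ := .out

end Vale.Agent.P330.FM
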