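import Vale.Agent.P330.FM.XDef
import Vale.Agent.P330.H800.Lin

/-!
# The machine of a tableau

The machine fills the cells of the tableau of a `Tab k` one after the other (linear array, rows of
width `W`, `L = T W` positions on a circle), then it writes the `m` letters of the output into the
cells `0, …, m - 1`.  The `k` input words are external bits, which are read in the same cells.
-/

namespace Vale.Agent.P330.FM.TM

open Finset Vale.Agent.P330.H800

/-- Static contents. -/
@[ext] structure St where
  /-- position `0` -/
  first : Bool
  /-- row `0` -/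
  row0 : Bool
  /-- column `0` -/
  col0 : Bool
  /-- last column -/
  last : Bool
  /-- input and output cell: position `< m` -/
  io : Bool
  deriving DecidableEq

instance : Fintype St :=
  Fintype.ofEquiv (Bool × Bool × Bool × Bool × Bool)
    { toFun := fun s => ⟨s.1, s.2.1, s.2.2.1, s.2.2.2.1, s.2.2.2.2⟩
      invFun := fun s => (s.first, s.row0, s.col0, s.last, s.io)
      left_inv := fun _ => rfl
      right_inv := fun _ => rfl }

/-- Contents of a filled cell: content of the tableau, the external bits which have been read. -/
abbrev Con (A : Type) (k : ℕ) : Type := A × (Fin k → Bool)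

/-- Contents of a cell. -/
@[ext] structure Cell (A : Type) (k : ℕ) where
  st : St
  /-- `false`: blank phase -/
  ph : Bool
  hd : Bool
  con : Option (Con A k)
  /-- letter of the output -/
  out : Option Bool

instance {A : Type} {k : ℕ} [DecidableEq A] : DecidableEq (Cell A k) := fun a b =>
  decidable_of_iff (a.st = b.st ∧ a.ph = b.ph ∧ a.hd = b.hd ∧ a.con = b.con ∧ a.out = b.out)
    ⟨fun h => Cell.ext h.1 h.2.1 h.2.2.1 h.2.2.2.1 h.2.2.2.2,
      fun h => by subst h; exact ⟨rfl, rfl, rfl, rfl, rfl⟩⟩

instance {A : Type} {k : ℕ} [Fintype A] : Fintype (Cell A k) :=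
  Fintype.ofEquiv (St × Bool × Bool × Option (Con A k) × Option Bool)
    { toFun := fun s => ⟨s.1, s.2.1, s.2.2.1, s.2.2.2.1, s.2.2.2.2⟩
      invFun := fun s => (s.st, s.ph, s.hd, s.con, s.out)
      left_inv := fun _ => rfl
      right_inv := fun _ => rfl }

/-- Offsets: `0`, `1`, `-1`, `-W - 1`, `-W`, `-W + 1`. -/
inductive Off
  | o0
  | p1
  | l
  | ul
  | u
  | ur
  deriving DecidableEq

instance : Fintype Off := ⟨{.o0, .p1, .l, .ul, .u, .ur}, by intro x; cases x <;> simp⟩

variable {k : ℕ} (τ : Tab k)

/-- some content -/
def a0 : τ.A := τ.init true fun _ => none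

/-- The content of the tableau at a cell (some content if it is not filled). -/
def Cell.val (c : Cell τ.A k) : τ.A := (c.con.map Prod.fst).getD (a0 τ)

/-- The external bits which are stored in a cell. -/
def Cell.inb {A : Type} (c : Cell A k) (d : Fin k) : Bool :=
  (c.con.map fun q => q.2 d).getD false

/-- The content of the cell `x`, from the external bits and the cells `l`, `ul`, `u`, `ur`. -/
def newCon (β : Fin k → Bool) (x l ul u ur : Cell τ.A k) : Con τ.A k :=
  if x.st.row0 then
    (τ.init x.st.first (fun d => if x.st.io then some (β d) else none), fun d => x.st.io && β d)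
  else (τ.rule x.st.col0 x.st.last (l.val τ) (ul.val τ) (u.val τ) (ur.val τ), fun _ => false)

/-- The letter of the output, from the cell `u`. -/
def newOut (u : Cell τ.A k) : Bool := (τ.out (u.val τ)).getD false

/-- Allowed windows. -/
structure Allowed (β : Fin k → Bool) (x l ul u ur : Cell τ.A k) : Prop where
  ph : x.ph = l.ph
  blank : x.ph = false → x.con = none
  pre : x.st.first = false → x.con ≠ none → l.con ≠ none
  oio : x.out ≠ none → x.st.io = true
  ofirst : x.st.first = true → x.out ≠ none → l.con ≠ none
  opre : x.st.first = false → x.out ≠ none → l.out ≠ none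
  hd : x.hd = true ↔ (x.con = none ∧ (x.st.first = true ∨ l.con ≠ none)) ∨
    (x.con ≠ none ∧ x.out = none ∧
      ((x.st.first = true ∧ l.con ≠ none) ∨ (x.st.first = false ∧ l.out ≠ none)))
  ok : ∀ c, x.con = some c → c = newCon τ β x l ul u ur
  okout : ∀ b, x.out = some b → b = newOut τ u

/-- What the machine does. -/
inductive Act
  | fill
  | unfill
  | write
  | unwrite
  | phase (b : Bool)
  | stuck

/-- The action, from the cell at the head. -/
def actOf (z : Bool) (x : Cell τ.A k) : Act :=
  if z then
    if x.ph then
      if x.con.isSome then (if x.st.first then .unfill else .unwrite)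
      else (if x.st.first then .phase false else .unfill)
    else .stuck
  else
    if x.ph then
      if x.con.isSome then (if x.st.io then .write else .stuck)
      else .fill
    else .phase true

/-- The rule for an action. -/
def doAct (β : Fin k → Bool) (g : Off → Cell τ.A k) :
    Act → (Cell τ.A k → Cell τ.A k) × (Off → Cell τ.A k)
  | .fill => (fun c => c, fun o =>
      match o with
      | .o0 => { g .o0 with
          hd := false
          con := some (newCon τ β (g .o0) (g .l) (g .ul) (g .u) (g .ur)) }
      | .p1 => { g .p1 with hd := true }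
      | o => g o)
  | .unfill => (fun c => c, fun o =>
      match o with
      | .o0 => { g .o0 with hd := false }
      | .l => { g .l with hd := true, con := none }
      | o => g o)
  | .write => (fun c => c, fun o =>
      match o with
      | .o0 => { g .o0 with hd := false, out := some (newOut τ (g .u)) }
      | .p1 => { g .p1 with hd := true }
      | o => g o)
  | .unwrite => (fun c => c, fun o =>
      match o with
      | .o0 => { g .o0 with hd := false }
      | .l => { g .l with hd := true, out := none }
      | o => g o)
  | .phase b => (fun c => { c with ph := b }, fun o => { g o with ph := b })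
  | .stuck => (fun c => c, fun o => if o = .o0 then { g .o0 with hd := false } else g o)

/-- offsets of the cells that are rewritten -/
def upd : Off → Bool
  | .o0 => true
  | .p1 => true
  | .l => true
  | _ => false

/-- The window looks at the external bits. -/
def depC (x : Cell τ.A k) : Bool := x.con.isSome && (x.st.row0 && x.st.io)

/-- The rule looks at the external bits. -/
def depRC (z : Bool) (x : Cell τ.A k) : Bool :=
  !z && x.ph && !x.con.isSome && (x.st.row0 && x.st.io)

theorem newCon_congr {x : Cell τ.A k} (h : (x.st.row0 && x.st.io) = false)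
    (β β' : Fin k → Bool) (l ul u ur : Cell τ.A k) :
    newCon τ β x l ul u ur = newCon τ β' x l ul u ur := by
  unfold newCon
  by_cases hz : x.st.row0 = true
  · have hio : x.st.io = false := by simpa [hz] using h
    simp [hz, hio]
  · simp [hz]

open Classical in
/-- The finite data of the machine. -/
noncomputable def spec : XSpec where
  Cell := Cell τ.A k
  Off := Off
  Stat := St
  Ext := Fin k
  d := 4
  fCell := inferInstance
  dCell := inferInstance
  fOff := inferInstance
  dOff := inferInstance
  fStat := inferInstance
  dStat := inferInstance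
  fExt := inferInstance
  dExt := inferInstance
  cell0 := ⟨⟨false, false, false, false, false⟩, false, false, none, none⟩
  zero := .o0
  win := ![.o0, .o0, .l, .ul, .u, .ur]
  win0 := rfl
  win1 := rfl
  statOf := Cell.st
  hd := Cell.hd
  dep c := depC τ (c 0)
  allowed β c := decide (c 0 = c 1 ∧ Allowed τ β (c 0) (c 2) (c 3) (c 4) (c 5))
  allowed_dep := by
    intro c hc β β'
    simp only [decide_eq_decide]
    have key : ∀ β β' : Fin k → Bool, Allowed τ β (c 0) (c 2) (c 3) (c 4) (c 5) →
        Allowed τ β' (c 0) (c 2) (c 3) (c 4) (c 5) := by
      intro β β' h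
      refine ⟨h.ph, h.blank, h.pre, h.oio, h.ofirst, h.opre, h.hd, fun q hq => ?_, h.okout⟩
      have h2 : ((c 0).st.row0 && (c 0).st.io) = false := by
        simpa [depC, hq] using hc
      rw [newCon_congr τ h2 β' β]
      exact h.ok q hq
    exact ⟨fun h => ⟨h.1, key _ _ h.2⟩, fun h => ⟨h.1, key _ _ h.2⟩⟩
  allowed01 := by
    intro β c h
    simp only [decide_eq_true_eq] at h
    exact h.1
  upd := upd
  depR z g := depRC τ z (g .o0)
  rule z β g := doAct τ β g (actOf τ z (g .o0))
  rule_dep := by
    intro z g h β β'
    cases hz : actOf τ z (g .o0) with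
    | fill =>
      have h1 : z = false ∧ (g .o0).ph = true ∧ (g .o0).con.isSome = false := by
        revert hz
        unfold actOf
        cases z <;> cases (g .o0).ph <;> cases (g .o0).con.isSome <;> simp <;> split_ifs <;> simp
      have h2 : ((g .o0).st.row0 && (g .o0).st.io) = false := by
        simpa [depRC, h1.1, h1.2.1, h1.2.2] using h
      simp only [doAct]
      rw [newCon_congr τ h2 β β']
    | unfill => rfl
    | write => rfl
    | unwrite => rfl
    | phase b => rfl
    | stuck => rfl

/-- Parameters: width and number of the rows, number of input and output columns. -/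
structure Prm where
  W : ℕ
  T : ℕ
  m : ℕ

variable (P : Prm)

/-- The number of cells of the tableau. -/
def Prm.N : ℕ := P.T * P.W

/-- Static contents as a function of the number of the position. -/
def Prm.st (p : ℕ) : St :=
  ⟨decide (p = 0), decide (p < P.W), decide (p % P.W = 0), decide (p % P.W + 1 = P.W),
    decide (p < P.m)⟩

/-- Conditions on the parameters; `L` is the number of positions. -/
structure Good (L : ℕ) : Prop where
  W2 : 2 ≤ P.W
  T2 : 2 ≤ P.T
  m1 : P.m ≤ P.W
  hL : L = P.T * P.W

/-- Values of the offsets, as integers. -/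
def Prm.offZ : Off → ℤ
  | .o0 => 0
  | .p1 => 1
  | .l => -1
  | .ul => -(P.W : ℤ) - 1
  | .u => -(P.W : ℤ)
  | .ur => -(P.W : ℤ) + 1

variable {P} {L : ℕ}

theorem Good.WL (h : Good P L) : 2 * P.W ≤ L := by
  rw [h.hL]
  exact Nat.mul_le_mul_right _ h.T2

theorem Good.pos (h : Good P L) : 0 < L := by have := h.WL; have := h.W2; omega

theorem cast_inj {a b : ℤ} (h : ((a : ℤ) : ZMod L) = (b : ZMod L)) (hab : |a - b| < L) : a = b := by
  have h1 : ((a - b : ℤ) : ZMod L) = 0 := by push_cast; rw [h, sub_self]
  have h2 := (ZMod.intCast_zmod_eq_zero_iff_dvd _ _).1 h1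
  have := Int.eq_zero_of_abs_lt_dvd h2 (by exact_mod_cast hab)
  omega

theorem Good.off_inj (h : Good P L) (o o' : Off) (ho : upd o = true) (ho' : upd o' = true)
    (e : ((P.offZ o : ℤ) : ZMod L) = (P.offZ o' : ZMod L)) : o = o' := by
  have hb := h.WL
  have hW := h.W2
  have h1 : P.offZ o = P.offZ o' := by
    apply cast_inj e
    rw [abs_lt]
    cases o <;> cases o' <;> simp only [upd, Bool.false_eq_true] at ho ho' <;>
      simp only [Prm.offZ] <;> omega
  cases o <;> cases o' <;> simp only [upd, Bool.false_eq_true] at ho ho' <;>
    first | rfl | (exfalso; simp only [Prm.offZ] at h1; omega)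

/-- The blank configuration. -/
def blank (τ : Tab k) (P : Prm) (L : ℕ) (j : ZMod L) : Cell τ.A k :=
  ⟨P.st j.val, false, decide (j.val = 0), none, none⟩

/-- The instance. -/
noncomputable def inst (h : Good P L) : XInst (spec τ) :=
  haveI : NeZero L := ⟨h.pos.ne'⟩
  { J := ZMod L
    gJ := inferInstance
    fJ := inferInstance
    dJ := inferInstance
    off := fun o => (P.offZ o : ZMod L)
    off_zero := by show ((P.offZ .o0 : ℤ) : ZMod L) = 0; simp [Prm.offZ]
    off_inj := h.off_inj
    stat := fun j => P.st j.val
    w0 := blank τ P L }

end Vale.Agent.P330.FM.TM
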