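import Vale.Agent.P330.FM.TMValid

/-!
# The steps of the machine of a tableau

* `step_blank`, `step_conf`, `back_conf0`, `back_conf`: the steps between valid configurations.
* `step_end`, `back_blank`: at the two ends the step only removes the head.
* `facts`: the facts about the dynamics.
* `valid_end`: the ends.
-/

namespace Vale.Agent.P330.FM.TM

open Finset Vale.Agent.P330.H800

variable {k : ℕ} {τ : Tab k} {P : Prm} {L : ℕ}

/-- A configuration without the head. -/
def nohd (w : ZMod L → Cell τ.A k) (j : ZMod L) : Cell τ.A k := { w j with hd := false }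

/-- The position of the head of `conf n`. -/
def hpos (L n : ℕ) : ℕ := if n < L then n else n - L

theorem val_p1 (h : Good P L) (j : ZMod L) :
    (j.val + 1 < L ∧ (j + (P.offZ .p1 : ZMod L)).val = j.val + 1) ∨
      (j.val + 1 = L ∧ (j + (P.offZ .p1 : ZMod L)).val = 0) := by
  have : NeZero L := ⟨h.pos.ne'⟩
  by_cases h2 : j.val + 1 < L
  · exact Or.inl ⟨h2, val_add j (a := 1) (by simp [Prm.offZ]) h2⟩
  · have h3 : j.val + 1 = L := by have := j.val_lt; omega
    have h4 : j + (P.offZ .p1 : ZMod L) = 0 := by
      have h5 : ((j.val + 1 : ℕ) : ZMod L) = 0 := by rw [h3]; exact ZMod.natCast_self L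
      rw [Nat.cast_add, ZMod.natCast_zmod_val] at h5
      simpa [Prm.offZ] using h5
    exact Or.inr ⟨h3, by rw [h4, ZMod.val_zero]⟩

theorem val_l (h : Good P L) (j : ZMod L) :
    (j.val = 0 ∧ (j + (P.offZ .l : ZMod L)).val = L - 1) ∨
      (1 ≤ j.val ∧ (j + (P.offZ .l : ZMod L)).val = j.val - 1) := by
  have : NeZero L := ⟨h.pos.ne'⟩
  rcases Nat.eq_zero_or_pos j.val with h2 | h2
  · exact Or.inl ⟨h2, val_l0 h h2⟩
  · exact Or.inr ⟨h2, val_l1 h2⟩

theorem val_o0 {j : ZMod L} : j + (P.offZ .o0 : ZMod L) = j := by simp [Prm.offZ]

/-- The new content in the configuration `conf n`. -/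
theorem newCon_conf (h : Good P L) (s : Fin k → ZMod L → Bool) {n : ℕ} {j : ZMod L}
    (hj : j.val ≤ n) (x : Cell τ.A k) (hx : x.st = P.st j.val) :
    newCon τ (fun d => s d j) x (conf τ P s n (j + (P.offZ .l : ZMod L)))
      (conf τ P s n (j + (P.offZ .ul : ZMod L))) (conf τ P s n (j + (P.offZ .u : ZMod L)))
      (conf τ P s n (j + (P.offZ .ur : ZMod L))) = cont τ P s j.val := by
  have : NeZero L := ⟨h.pos.ne'⟩
  have hW := h.W2
  refine cont_eq h s hx (fun h3 => ?_) (fun h3 => ?_) (fun h3 => ?_) (fun h3 => ?_)
  · exact conf_val_of s (by omega) (val_l1 h3)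
  · refine conf_val_of s (by omega) ?_
    rw [val_sub j (a := P.W + 1) (by simp only [Prm.offZ]; push_cast; ring) h3]
    omega
  · refine conf_val_of s (by omega) ?_
    rw [val_sub j (a := P.W) (by simp only [Prm.offZ]) h3]
  · refine conf_val_of s (by omega) ?_
    rw [val_sub j (a := P.W - 1) (by simp only [Prm.offZ]; omega) (by omega)]
    omega

theorem newOut_conf (h : Good P L) (s : Fin k → ZMod L → Bool) {n : ℕ} {j : ZMod L}
    (hj : j.val < P.W) (hn : L ≤ n) :
    newOut τ (conf τ P s n (j + (P.offZ .u : ZMod L))) = outv τ P s j.val := by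
  have : NeZero L := ⟨h.pos.ne'⟩
  unfold newOut outv
  have h3 := val_u0 h hj
  rw [conf_val_of s (p := (P.T - 1) * P.W + j.val) (by
    have := (j + (P.offZ .u : ZMod L)).val_lt
    omega) h3]

theorem hpos_lt (h : Good P L) {n : ℕ} (hn : n ≤ L + P.m) : hpos L n < L := by
  have := h.WL
  have := h.W2
  have := h.m1
  unfold hpos
  split_ifs <;> omega

theorem head_conf (h : Good P L) (s : Fin k → ZMod L → Bool) {n : ℕ} (hn : n ≤ L + P.m) :
    (inst τ h).IsHead (conf τ P s n) (pt L (hpos L n)) := by
  have : NeZero L := ⟨h.pos.ne'⟩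
  have hp := hpos_lt h hn
  constructor
  · show decide _ = true
    rw [decide_eq_true_eq, val_pt hp]
    unfold hpos
    split_ifs <;> omega
  · intro j hj
    have h1 : decide (j.val = n ∨ j.val + L = n) = true := hj
    rw [decide_eq_true_eq] at h1
    have h2 : j.val = hpos L n := by
      have hj2 := j.val_lt
      unfold hpos
      split_ifs <;> omega
    exact (pt_val (L := L) j).symm.trans (congrArg (pt L) h2)

theorem head_blank (h : Good P L) : (inst τ h).IsHead (blank τ P L) (pt L 0) := by
  have : NeZero L := ⟨h.pos.ne'⟩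
  constructor
  · show decide _ = true
    rw [decide_eq_true_eq, val_pt h.pos]
  · intro j hj
    have h1 : decide (j.val = 0) = true := hj
    rw [decide_eq_true_eq] at h1
    exact (pt_val (L := L) j).symm.trans (congrArg (pt L) h1)

/-- Equality of two configurations at a position. -/
theorem conf_eq_conf (s : Fin k → ZMod L → Bool) {n n' : ℕ} {j : ZMod L}
    (h1 : (j.val = n ∨ j.val + L = n) ↔ (j.val = n' ∨ j.val + L = n')) (h2 : j.val < n ↔ j.val < n')
    (h3 : j.val + L < n ↔ j.val + L < n') : conf τ P s n j = conf τ P s n' j := by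
  refine Cell.ext rfl rfl ?_ ?_ ?_
  · show decide _ = decide _
    exact decide_eq_decide.2 h1
  · exact if_congr h2 rfl rfl
  · exact if_congr h3 rfl rfl

theorem upd_cases {o : Off} (ho : upd o = true) : o = .o0 ∨ o = .p1 ∨ o = .l := by
  cases o <;> simp_all [upd]

/-- The step in terms of the action: a reformulation of `XInst.step_eq_iff`. -/
theorem step_of (h : Good P L) {s : Fin k → ZMod L → Bool} {w w' : ZMod L → Cell τ.A k}
    {p : ZMod L} (H : (inst τ h).IsHead w p) (z : Bool) {a : Act} (ha : actOf τ z (w p) = a)
    (h0 : w' p = (doAct τ (fun d => s d p) (fun o => w (p + (P.offZ o : ZMod L))) a).2 .o0)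
    (h1 : w' (p + (P.offZ .p1 : ZMod L)) =
      (doAct τ (fun d => s d p) (fun o => w (p + (P.offZ o : ZMod L))) a).2 .p1)
    (h2 : w' (p + (P.offZ .l : ZMod L)) =
      (doAct τ (fun d => s d p) (fun o => w (p + (P.offZ o : ZMod L))) a).2 .l)
    (h3 : ∀ j, j ≠ p → j ≠ p + (P.offZ .p1 : ZMod L) → j ≠ p + (P.offZ .l : ZMod L) →
      w' j = (doAct τ (fun d => s d p) (fun o => w (p + (P.offZ o : ZMod L))) a).1 (w j)) :
    (inst τ h).step s z w = w' := by
  have e : (spec τ).rule z (fun d => s d p) ((inst τ h).around w p) =
      doAct τ (fun d => s d p) (fun o => w (p + (P.offZ o : ZMod L))) a := by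
    have e1 : (spec τ).rule z (fun d => s d p) ((inst τ h).around w p) =
      doAct τ (fun d => s d p) (fun o => w (p + (P.offZ o : ZMod L)))
        (actOf τ z (w (p + (P.offZ .o0 : ZMod L)))) := rfl
    rw [e1, val_o0, ha]
  refine (XInst.step_eq_iff H z).2 ⟨?_, ?_⟩
  · intro o ho
    have e2 := congrArg Prod.snd e
    rcases upd_cases ho with rfl | rfl | rfl
    · refine Eq.trans ?_ (congrFun e2 Off.o0).symm
      rw [← h0]
      show w' (p + (P.offZ .o0 : ZMod L)) = w' p
      rw [val_o0]
    · exact h1.trans (congrFun e2 Off.p1).symm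
    · exact h2.trans (congrFun e2 Off.l).symm
  · intro j hj
    have e2 := congrFun (congrArg Prod.fst e) (w j)
    refine Eq.trans (h3 j ?_ ?_ ?_) e2.symm
    · have := hj Off.o0 rfl
      intro hc
      apply this
      rw [hc]
      show p = p + (P.offZ .o0 : ZMod L)
      rw [val_o0]
    · exact hj Off.p1 rfl
    · exact hj Off.l rfl

theorem step_blank (h : Good P L) (s : Fin k → ZMod L → Bool) :
    (inst τ h).step s false (blank τ P L) = conf τ P s 0 := by
  have : NeZero L := ⟨h.pos.ne'⟩
  have hL := h.pos
  have e : ∀ j : ZMod L, conf τ P s 0 j = { blank τ P L j with ph := true } := by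
    intro j
    refine Cell.ext rfl rfl ?_ ?_ ?_
    · show decide _ = decide _
      exact decide_eq_decide.2 (by omega)
    · simp [conf, blank]
    · simp [conf, blank]
  exact step_of h (head_blank h) false (a := .phase true) rfl
    (by rw [e]; show _ = ({ blank τ P L (pt L 0 + (P.offZ .o0 : ZMod L)) with ph := true } :
          Cell τ.A k)
        rw [val_o0]) (e _) (e _) (fun j _ _ _ => e j)

theorem back_conf0 (h : Good P L) (s : Fin k → ZMod L → Bool) :
    (inst τ h).step s true (conf τ P s 0) = blank τ P L := by
  have : NeZero L := ⟨h.pos.ne'⟩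
  have hL := h.pos
  have e : ∀ j : ZMod L, blank τ P L j = { conf τ P s 0 j with ph := false } := by
    intro j
    refine Cell.ext rfl rfl ?_ ?_ ?_
    · show decide _ = decide _
      exact decide_eq_decide.2 (by omega)
    · simp [conf, blank]
    · simp [conf, blank]
  have hh := head_conf (τ := τ) h s (n := 0) (by omega)
  have hp : hpos L 0 = 0 := by unfold hpos; rw [if_pos hL]
  rw [hp] at hh
  refine step_of h hh true (a := .phase false) ?_
    (by rw [e]; show _ = ({ conf τ P s 0 (pt L 0 + (P.offZ .o0 : ZMod L)) with ph := false } :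
          Cell τ.A k)
        rw [val_o0]) (e _) (e _) (fun j _ _ _ => e j)
  have h1 : (conf τ P s 0 (pt L 0)).con = none := by simp [conf]
  have h2 : (conf τ P s 0 (pt L 0)).st.first = true := by
    show decide _ = true
    rw [val_pt hL]
    rfl
  have h3 : (conf τ P s 0 (pt L 0)).ph = true := rfl
  unfold actOf
  rw [h1, h2, h3]
  rfl

/-- **The step from `conf n`.** -/
theorem step_conf (h : Good P L) (s : Fin k → ZMod L → Bool) {n : ℕ} (hn : n < L + P.m) :
    (inst τ h).step s false (conf τ P s n) = conf τ P s (n + 1) := by
  have : NeZero L := ⟨h.pos.ne'⟩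
  have hb := h.WL
  have hW := h.W2
  have hm := h.m1
  have hp := hpos_lt h hn.le
  have hv : (pt L (hpos L n)).val = hpos L n := val_pt hp
  have hh := head_conf (τ := τ) h s hn.le
  generalize hq : pt L (hpos L n) = q at *
  have v1 := val_p1 h q
  have v2 := val_l h q
  have hoth : ∀ j : ZMod L, j ≠ q → j ≠ q + (P.offZ .p1 : ZMod L) →
      j ≠ q + (P.offZ .l : ZMod L) → j.val ≠ q.val ∧ j.val ≠ (q + (P.offZ .p1 : ZMod L)).val ∧
        j.val ≠ (q + (P.offZ .l : ZMod L)).val := fun j h1 h2 h3 =>
    ⟨fun e => h1 (ZMod.val_injective L e), fun e => h2 (ZMod.val_injective L e),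
      fun e => h3 (ZMod.val_injective L e)⟩
  by_cases hnL : n < L
  · have e : hpos L n = n := by unfold hpos; rw [if_pos hnL]
    rw [e] at hv
    refine step_of h hh false (a := .fill) ?_ ?_ ?_ ?_ ?_
    · have h1 : (conf τ P s n q).con = none := by
        show (if _ then _ else _) = _
        rw [if_neg (by omega)]
      have h3 : (conf τ P s n q).ph = true := rfl
      unfold actOf
      rw [h1, h3]
      rfl
    · show _ = ({ conf τ P s n (q + (P.offZ .o0 : ZMod L)) with
        hd := false
        con := some (newCon τ (fun d => s d q) (conf τ P s n (q +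
          (P.offZ .o0 : ZMod L))) _ _ _ _) } : Cell τ.A k)
      rw [newCon_conf h s (by omega) _ (by rw [val_o0]; rfl), val_o0]
      refine Cell.ext rfl rfl ?_ ?_ ?_
      · show decide _ = false
        rw [decide_eq_false_iff_not]
        omega
      · show (if _ then _ else _) = _
        rw [if_pos (by omega)]
      · exact if_congr (by omega) rfl rfl
    · show _ = ({ conf τ P s n (q + (P.offZ .p1 : ZMod L)) with hd := true } : Cell τ.A k)
      refine Cell.ext rfl rfl ?_ (if_congr (by omega) rfl rfl) (if_congr (by omega) rfl rfl)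
      show decide _ = true
      rw [decide_eq_true_eq]
      omega
    · refine conf_eq_conf s ?_ ?_ ?_ <;> omega
    · intro j h1 h2 h3
      have w := hoth j h1 h2 h3
      have hj := j.val_lt
      show _ = conf τ P s n j
      refine conf_eq_conf s ?_ ?_ ?_ <;> omega
  · obtain ⟨i, rfl⟩ : ∃ i, n = L + i := ⟨n - L, by omega⟩
    have e : hpos L (L + i) = i := by unfold hpos; rw [if_neg hnL]; omega
    rw [e] at hv
    refine step_of h hh false (a := .write) ?_ ?_ ?_ ?_ ?_
    · have h1 : (conf τ P s (L + i) q).con = some (cont τ P s q.val) := by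
        show (if _ then _ else _) = _
        rw [if_pos (by omega)]
      have h2 : (conf τ P s (L + i) q).st.io = true := by
        show decide _ = true
        rw [decide_eq_true_eq]
        omega
      have h3 : (conf τ P s (L + i) q).ph = true := rfl
      unfold actOf
      rw [h1, h2, h3]
      rfl
    · show _ = ({ conf τ P s (L + i) (q + (P.offZ .o0 : ZMod L)) with
        hd := false
        out := some (newOut τ (conf τ P s (L + i) (q + (P.offZ .u : ZMod L)))) } :
          Cell τ.A k)
      rw [newOut_conf h s (by omega) (by omega), val_o0]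
      refine Cell.ext rfl rfl ?_ (if_congr (by omega) rfl rfl) ?_
      · show decide _ = false
        rw [decide_eq_false_iff_not]
        omega
      · show (if _ then _ else _) = _
        rw [if_pos (by omega)]
    · show _ = ({ conf τ P s (L + i) (q + (P.offZ .p1 : ZMod L)) with hd := true } :
        Cell τ.A k)
      refine Cell.ext rfl rfl ?_ (if_congr (by omega) rfl rfl) (if_congr (by omega) rfl rfl)
      show decide _ = true
      rw [decide_eq_true_eq]
      omega
    · refine conf_eq_conf s ?_ ?_ ?_ <;> omega
    · intro j h1 h2 h3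
      have w := hoth j h1 h2 h3
      have hj := j.val_lt
      show _ = conf τ P s (L + i) j
      refine conf_eq_conf s ?_ ?_ ?_ <;> omega

/-- **The step back from `conf (n + 1)`.** -/
theorem back_conf (h : Good P L) (s : Fin k → ZMod L → Bool) {n : ℕ} (hn : n < L + P.m) :
    (inst τ h).step s true (conf τ P s (n + 1)) = conf τ P s n := by
  have : NeZero L := ⟨h.pos.ne'⟩
  have hb := h.WL
  have hW := h.W2
  have hm := h.m1
  have hp := hpos_lt h (n := n + 1) hn
  have hv : (pt L (hpos L (n + 1))).val = hpos L (n + 1) := val_pt hp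
  have hh := head_conf (τ := τ) h s (n := n + 1) hn
  generalize hq : pt L (hpos L (n + 1)) = q at *
  have v1 := val_p1 h q
  have v2 := val_l h q
  have hoth : ∀ j : ZMod L, j ≠ q → j ≠ q + (P.offZ .p1 : ZMod L) →
      j ≠ q + (P.offZ .l : ZMod L) → j.val ≠ q.val ∧ j.val ≠ (q + (P.offZ .p1 : ZMod L)).val ∧
        j.val ≠ (q + (P.offZ .l : ZMod L)).val := fun j h1 h2 h3 =>
    ⟨fun e => h1 (ZMod.val_injective L e), fun e => h2 (ZMod.val_injective L e),
      fun e => h3 (ZMod.val_injective L e)⟩
  by_cases hnL : n < L
  · have hv' : (n + 1 < L ∧ q.val = n + 1) ∨ (n + 1 = L ∧ q.val = 0) := by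
      rw [hv]
      unfold hpos
      split_ifs <;> omega
    refine step_of h hh true (a := .unfill) ?_ ?_ ?_ ?_ ?_
    · have h3 : (conf τ P s (n + 1) q).ph = true := rfl
      unfold actOf
      rw [h3]
      rcases hv' with hv' | hv'
      · have h1 : (conf τ P s (n + 1) q).con = none := by
          show (if _ then _ else _) = _
          rw [if_neg (by omega)]
        have h2 : (conf τ P s (n + 1) q).st.first = false := by
          show decide _ = false
          rw [decide_eq_false_iff_not]
          omega
        rw [h1, h2]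
        rfl
      · have h1 : (conf τ P s (n + 1) q).con = some (cont τ P s q.val) := by
          show (if _ then _ else _) = _
          rw [if_pos (by omega)]
        have h2 : (conf τ P s (n + 1) q).st.first = true := by
          show decide _ = true
          rw [decide_eq_true_eq]
          omega
        rw [h1, h2]
        rfl
    · show _ = ({ conf τ P s (n + 1) (q + (P.offZ .o0 : ZMod L)) with hd := false } : Cell τ.A k)
      rw [val_o0]
      refine Cell.ext rfl rfl ?_ (if_congr (by omega) rfl rfl) (if_congr (by omega) rfl rfl)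
      show decide _ = false
      rw [decide_eq_false_iff_not]
      omega
    · show _ = conf τ P s (n + 1) (q + (P.offZ .p1 : ZMod L))
      refine conf_eq_conf s ?_ ?_ ?_ <;> omega
    · show _ = ({ conf τ P s (n + 1) (q + (P.offZ .l : ZMod L)) with hd := true, con := none } :
        Cell τ.A k)
      refine Cell.ext rfl rfl ?_ ?_ (if_congr (by omega) rfl rfl)
      · show decide _ = true
        rw [decide_eq_true_eq]
        omega
      · show (if _ then _ else _) = _
        rw [if_neg (by omega)]
    · intro j h1 h2 h3
      have w := hoth j h1 h2 h3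
      have hj := j.val_lt
      show _ = conf τ P s (n + 1) j
      refine conf_eq_conf s ?_ ?_ ?_ <;> omega
  · obtain ⟨i, rfl⟩ : ∃ i, n = L + i := ⟨n - L, by omega⟩
    have e : hpos L (L + i + 1) = i + 1 := by unfold hpos; rw [if_neg (by omega)]; omega
    rw [e] at hv
    refine step_of h hh true (a := .unwrite) ?_ ?_ ?_ ?_ ?_
    · have h3 : (conf τ P s (L + i + 1) q).ph = true := rfl
      have h1 : (conf τ P s (L + i + 1) q).con = some (cont τ P s q.val) := by
        show (if _ then _ else _) = _
        rw [if_pos (by omega)]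
      have h2 : (conf τ P s (L + i + 1) q).st.first = false := by
        show decide _ = false
        rw [decide_eq_false_iff_not]
        omega
      unfold actOf
      rw [h1, h2, h3]
      rfl
    · show _ = ({ conf τ P s (L + i + 1) (q + (P.offZ .o0 : ZMod L)) with hd := false } :
        Cell τ.A k)
      rw [val_o0]
      refine Cell.ext rfl rfl ?_ (if_congr (by omega) rfl rfl) (if_congr (by omega) rfl rfl)
      show decide _ = false
      rw [decide_eq_false_iff_not]
      omega
    · show _ = conf τ P s (L + i + 1) (q + (P.offZ .p1 : ZMod L))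
      refine conf_eq_conf s ?_ ?_ ?_ <;> omega
    · show _ = ({ conf τ P s (L + i + 1) (q + (P.offZ .l : ZMod L)) with
        hd := true, out := none } : Cell τ.A k)
      refine Cell.ext rfl rfl ?_ (if_congr (by omega) rfl rfl) ?_
      · show decide _ = true
        rw [decide_eq_true_eq]
        omega
      · show (if _ then _ else _) = _
        rw [if_neg (by omega)]
    · intro j h1 h2 h3
      have w := hoth j h1 h2 h3
      have hj := j.val_lt
      show _ = conf τ P s (L + i + 1) j
      refine conf_eq_conf s ?_ ?_ ?_ <;> omega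

/-- A step which is stuck only removes the head. -/
theorem step_stuck (h : Good P L) {s : Fin k → ZMod L → Bool} {w : ZMod L → Cell τ.A k}
    {p : ZMod L} (H : (inst τ h).IsHead w p) (z : Bool) (ha : actOf τ z (w p) = .stuck) :
    (inst τ h).step s z w = nohd w := by
  have : NeZero L := ⟨h.pos.ne'⟩
  have hb := h.WL
  have hW := h.W2
  have hnh : ∀ j, j ≠ p → nohd w j = w j := by
    intro j hj
    refine Cell.ext rfl rfl ?_ rfl rfl
    show false = (w j).hd
    symm
    by_contra hc
    exact hj (H.2 j (by
      show (w j).hd = true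
      simpa using hc))
  have hne : ∀ o, upd o = true → o ≠ .o0 → p + (P.offZ o : ZMod L) ≠ p := by
    intro o ho hc he
    apply hc
    apply h.off_inj o .o0 ho rfl
    have h1 : (P.offZ o : ZMod L) = 0 := by simpa using he
    rw [h1]
    simp [Prm.offZ]
  refine step_of h H z (a := .stuck) ha ?_ ?_ ?_ ?_
  · show _ = ({ w (p + (P.offZ .o0 : ZMod L)) with hd := false } : Cell τ.A k)
    rw [val_o0]
    rfl
  · exact hnh _ (hne .p1 rfl (by decide))
  · exact hnh _ (hne .l rfl (by decide))
  · intro j h1 _ _
    exact hnh j h1

/-- The step from the last configuration. -/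
theorem step_end (h : Good P L) (s : Fin k → ZMod L → Bool) :
    (inst τ h).step s false (conf τ P s (L + P.m)) = nohd (conf τ P s (L + P.m)) := by
  have : NeZero L := ⟨h.pos.ne'⟩
  have hb := h.WL
  have hW := h.W2
  have hm := h.m1
  have e : hpos L (L + P.m) = P.m := by unfold hpos; rw [if_neg (by omega)]; omega
  have hh := head_conf (τ := τ) h s (n := L + P.m) le_rfl
  rw [e] at hh
  have hv : (pt L P.m).val = P.m := val_pt (by omega)
  refine step_stuck h hh false ?_
  have h3 : (conf τ P s (L + P.m) (pt L P.m)).ph = true := rfl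
  have h1 : (conf τ P s (L + P.m) (pt L P.m)).con = some (cont τ P s (pt L P.m).val) := by
    show (if _ then _ else _) = _
    rw [if_pos (by omega)]
  have h2 : (conf τ P s (L + P.m) (pt L P.m)).st.io = false := by
    show decide _ = false
    rw [decide_eq_false_iff_not]
    omega
  unfold actOf
  rw [h1, h2, h3]
  rfl

/-- The step back from the blank configuration. -/
theorem back_blank (h : Good P L) (s : Fin k → ZMod L → Bool) :
    (inst τ h).step s true (blank τ P L) = nohd (blank τ P L) :=
  step_stuck h (head_blank h) true rfl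

theorem valid_head (h : Good P L) {s : Fin k → ZMod L → Bool} {w : ZMod L → Cell τ.A k}
    (hw : (inst τ h).Valid s w) : ∃ p, (inst τ h).IsHead w p := by
  rcases valid_cases h hw with rfl | ⟨n, hn, rfl⟩
  · exact ⟨_, head_blank h⟩
  · exact ⟨_, head_conf h s hn⟩

/-- Configurations without head are not valid. -/
theorem nohd_not_valid (h : Good P L) {s : Fin k → ZMod L → Bool} (w : ZMod L → Cell τ.A k) :
    ¬ (inst τ h).Valid s (nohd w) := by
  intro hc
  obtain ⟨p, hp⟩ := valid_head h hc
  exact absurd hp.1 (by
    show ¬ (false = true)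
    simp)

/-- **The facts about the dynamics.** -/
theorem facts (h : Good P L) (s : Fin k → ZMod L → Bool) : (inst τ h).Facts s where
  valid0 := blank_valid h s
  head := fun w hw => valid_head h hw
  inv := by
    intro z w hw hw'
    rcases valid_cases h hw with rfl | ⟨n, hn, rfl⟩
    · cases z with
      | false => rw [step_blank]; exact back_conf0 h s
      | true =>
        rw [back_blank] at hw'
        exact absurd hw' (nohd_not_valid h _)
    · cases z with
      | false =>
        rcases Nat.lt_or_ge n (L + P.m) with h1 | h1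
        · rw [step_conf h s h1]
          exact back_conf h s h1
        · obtain rfl : n = L + P.m := by omega
          rw [step_end] at hw'
          exact absurd hw' (nohd_not_valid h _)
      | true =>
        cases n with
        | zero => rw [back_conf0]; exact step_blank h s
        | succ n => rw [back_conf h s hn]; exact step_conf h s hn
  start := by
    show ¬ (inst τ h).Valid s ((inst τ h).step s true (blank τ P L))
    rw [back_blank]
    exact nohd_not_valid h _

/-- **The ends.** -/
theorem valid_end (h : Good P L) {s : Fin k → ZMod L → Bool} {w : ZMod L → Cell τ.A k}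
    (hw : (inst τ h).Valid s w) (hw' : ¬ (inst τ h).Valid s ((inst τ h).step s false w)) :
    w = conf τ P s (L + P.m) := by
  rcases valid_cases h hw with rfl | ⟨n, hn, rfl⟩
  · exfalso
    apply hw'
    rw [step_blank]
    exact conf_valid h s (by omega)
  · rcases Nat.lt_or_ge n (L + P.m) with h1 | h1
    · exfalso
      apply hw'
      rw [step_conf h s h1]
      exact conf_valid h s (by omega)
    · obtain rfl : n = L + P.m := by omega
      rfl

/-- Every valid configuration except the blank one has a valid predecessor. -/
theorem valid_back (h : Good P L) {s : Fin k → ZMod L → Bool} {w : ZMod L → Cell τ.A k}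
    (hw : (inst τ h).Valid s w) (hne : w ≠ (inst τ h).w0) :
    (inst τ h).Valid s ((inst τ h).step s true w) := by
  rcases valid_cases h hw with rfl | ⟨n, hn, rfl⟩
  · exact absurd rfl hne
  · cases n with
    | zero => rw [back_conf0]; exact blank_valid h s
    | succ n => rw [back_conf h s hn]; exact conf_valid h s (by omega)

end Vale.Agent.P330.FM.TM
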