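import Vale.Agent.P330.FM.TMDef

/-!
# The valid configurations of the machine of a tableau

The valid configurations are the blank configuration and the configurations `conf n`,
`n ≤ L + m`: for `n < L` the cells `0, …, n - 1` of the tableau are filled and the head is at `n`,
for `L ≤ n` all cells are filled, the first `n - L` letters of the output are written and the head
is at `n - L`.
-/

namespace Vale.Agent.P330.FM.TM

open Finset Vale.Agent.P330.H800

variable {k : ℕ} {τ : Tab k} {P : Prm} {L : ℕ}

/-! ### Positions -/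

/-- the position with the number `p` -/
abbrev pt (L : ℕ) (p : ℕ) : ZMod L := (p : ZMod L)

theorem val_pt {p : ℕ} (h : p < L) : (pt L p).val = p := ZMod.val_natCast_of_lt h

theorem pt_val [NeZero L] (j : ZMod L) : pt L j.val = j := ZMod.natCast_zmod_val j

section Pos

variable (j : ZMod L)

theorem val_sub [NeZero L] {a : ℕ} {z : ℤ} (hz : z = -(a : ℤ)) (h : a ≤ j.val) :
    (j + ((z : ℤ) : ZMod L)).val = j.val - a := by
  have h1 : j + ((z : ℤ) : ZMod L) = ((j.val - a : ℕ) : ZMod L) := by
    rw [hz, Nat.cast_sub h, ZMod.natCast_zmod_val]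
    push_cast
    ring
  rw [h1, ZMod.val_natCast_of_lt]
  have := j.val_lt
  omega

theorem val_add [NeZero L] {a : ℕ} {z : ℤ} (hz : z = (a : ℤ)) (h : j.val + a < L) :
    (j + ((z : ℤ) : ZMod L)).val = j.val + a := by
  have h1 : j + ((z : ℤ) : ZMod L) = ((j.val + a : ℕ) : ZMod L) := by
    rw [hz, Nat.cast_add, ZMod.natCast_zmod_val]
    push_cast
    ring
  rw [h1, ZMod.val_natCast_of_lt h]

theorem val_sub_wrap [NeZero L] {a : ℕ} {z : ℤ} (hz : z = -(a : ℤ)) (h : j.val < a) (ha : a ≤ L) :
    (j + ((z : ℤ) : ZMod L)).val = j.val + L - a := by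
  have h1 : j + ((z : ℤ) : ZMod L) = ((j.val + L - a : ℕ) : ZMod L) := by
    rw [hz, Nat.cast_sub (by omega), Nat.cast_add, ZMod.natCast_zmod_val, ZMod.natCast_self]
    push_cast
    ring
  rw [h1, ZMod.val_natCast_of_lt]
  have := j.val_lt
  omega

end Pos

/-! ### The configurations -/

/-- The `k` input words, with `m` letters. -/
def inp (P : Prm) (s : Fin k → ZMod L → Bool) (d : Fin k) (i : ℕ) : Option Bool :=
  if i < P.m then some (s d (pt L i)) else none

/-- The content of the cell with number `p`. -/
def cont (τ : Tab k) (P : Prm) (s : Fin k → ZMod L → Bool) (p : ℕ) : Con τ.A k :=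
  (τ.lin P.W (inp P s) p, fun d => decide (p < P.m) && s d (pt L p))

/-- The letter `p` of the output. -/
def outv (τ : Tab k) (P : Prm) (s : Fin k → ZMod L → Bool) (p : ℕ) : Bool :=
  (τ.out (τ.lin P.W (inp P s) ((P.T - 1) * P.W + p))).getD false

/-- The configuration number `n`. -/
def conf (τ : Tab k) (P : Prm) (s : Fin k → ZMod L → Bool) (n : ℕ) (j : ZMod L) : Cell τ.A k :=
  ⟨P.st j.val, true, decide (j.val = n ∨ j.val + L = n),
    if j.val < n then some (cont τ P s j.val) else none,
    if j.val + L < n then some (outv τ P s j.val) else none⟩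

/-- The configuration `w` is valid, in terms of `Allowed`. -/
theorem valid_iff (h : Good P L) (s : Fin k → ZMod L → Bool) (w : ZMod L → Cell τ.A k) :
    (inst τ h).Valid s w ↔ (∀ j, (w j).st = P.st j.val) ∧
      ∀ j, Allowed τ (fun d => s d j) (w j) (w (j + (P.offZ .l : ZMod L)))
        (w (j + (P.offZ .ul : ZMod L))) (w (j + (P.offZ .u : ZMod L)))
        (w (j + (P.offZ .ur : ZMod L))) := by
  have e0 : ∀ j : ZMod L, j + (P.offZ .o0 : ZMod L) = j := fun j => by simp [Prm.offZ]
  have key : ∀ j : ZMod L, ((spec τ).allowed (fun d => s d j)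
      (fun t => w (j + (P.offZ ((spec τ).win t) : ZMod L))) = true) ↔
      Allowed τ (fun d => s d j) (w j) (w (j + (P.offZ .l : ZMod L)))
        (w (j + (P.offZ .ul : ZMod L))) (w (j + (P.offZ .u : ZMod L)))
        (w (j + (P.offZ .ur : ZMod L))) := by
    intro j
    have h3 : ((spec τ).allowed (fun d => s d j)
        (fun t => w (j + (P.offZ ((spec τ).win t) : ZMod L))) = true) ↔
        Allowed τ (fun d => s d j) (w (j + (P.offZ .o0 : ZMod L)))
          (w (j + (P.offZ .l : ZMod L))) (w (j + (P.offZ .ul : ZMod L)))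
          (w (j + (P.offZ .u : ZMod L))) (w (j + (P.offZ .ur : ZMod L))) := by
      simp only [spec, decide_eq_true_eq]
      exact ⟨fun h => h.2, fun h => ⟨rfl, h⟩⟩
    rw [h3, e0 j]
  constructor
  · rintro ⟨h1, h2⟩
    exact ⟨h1, fun j => (key j).1 (h2 j)⟩
  · rintro ⟨h1, h2⟩
    exact ⟨h1, fun j => (key j).2 (h2 j)⟩

/-! ### Contents -/

/-- The content of a cell of the tableau, from the neighbours. -/
theorem cont_eq (h : Good P L) (s : Fin k → ZMod L → Bool) {j : ZMod L}
    {x l ul u ur : Cell τ.A k} (hx : x.st = P.st j.val)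
    (hl : 1 ≤ j.val → l.val τ = τ.lin P.W (inp P s) (j.val - 1))
    (hul : P.W + 1 ≤ j.val → ul.val τ = τ.lin P.W (inp P s) (j.val - P.W - 1))
    (hu : P.W ≤ j.val → u.val τ = τ.lin P.W (inp P s) (j.val - P.W))
    (hur : P.W ≤ j.val → ur.val τ = τ.lin P.W (inp P s) (j.val - P.W + 1)) :
    newCon τ (fun d => s d j) x l ul u ur = cont τ P s j.val := by
  have : NeZero L := ⟨h.pos.ne'⟩
  have hW := h.W2
  have hm := h.m1
  unfold newCon cont
  rw [hx]
  by_cases h0 : j.val < P.W
  · rw [if_pos (show (P.st j.val).row0 = true from decide_eq_true h0), τ.lin_zero _ h0]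
    have e1 : (P.st j.val).first = decide (j.val = 0) := rfl
    have e2 : (P.st j.val).io = decide (j.val < P.m) := rfl
    rw [e1, e2]
    congr 1
    · congr 1
      funext d
      unfold inp
      rw [pt_val]
      simp
    · funext d
      rw [pt_val]
  · have h1 : P.W ≤ j.val := by omega
    rw [if_neg (show ¬ (P.st j.val).row0 = true from by
      rw [show (P.st j.val).row0 = decide (j.val < P.W) from rfl, decide_eq_true_eq]
      exact h0)]
    have e1 : (P.st j.val).col0 = decide (j.val % P.W = 0) := rfl
    have e2 : (P.st j.val).last = decide (j.val % P.W + 1 = P.W) := rfl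
    rw [e1, e2]
    congr 1
    · exact (τ.lin_rec (by omega) (inp P s) h1 (hl (by omega)) hul (hu h1) (fun _ => hur h1)).symm
    · funext d
      simp only [Bool.false_eq, Bool.and_eq_false_imp, decide_eq_true_eq]
      intro h2
      omega

theorem conf_val_of (s : Fin k → ZMod L → Bool) {n p : ℕ} (hp : p < n)
    {j : ZMod L} (hj : j.val = p) : (conf τ P s n j).val τ = τ.lin P.W (inp P s) p := by
  subst hj
  simp [conf, Cell.val, hp, cont]

/-- The value of the offset `-1`. -/
theorem val_l1 [NeZero L] {j : ZMod L} (h1 : 1 ≤ j.val) :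
    (j + (P.offZ .l : ZMod L)).val = j.val - 1 :=
  val_sub j (a := 1) (by simp [Prm.offZ]) h1

theorem val_l0 (h : Good P L) {j : ZMod L} (h1 : j.val = 0) :
    (j + (P.offZ .l : ZMod L)).val = L - 1 := by
  have : NeZero L := ⟨h.pos.ne'⟩
  have := h.WL
  have := h.W2
  rw [val_sub_wrap j (a := 1) (by simp [Prm.offZ]) (by omega) (by omega)]
  omega

/-- The cell from which the letter `j` of the output is read. -/
theorem val_u0 (h : Good P L) {j : ZMod L} (h1 : j.val < P.W) :
    (j + (P.offZ .u : ZMod L)).val = (P.T - 1) * P.W + j.val := by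
  have : NeZero L := ⟨h.pos.ne'⟩
  have h2 := h.WL
  have := h.W2
  rw [val_sub_wrap j (a := P.W) (by simp [Prm.offZ]) (by omega) (by omega)]
  have h3 : (P.T - 1) * P.W + P.W = L := by
    rw [h.hL, Nat.sub_mul, Nat.one_mul]
    have := h.T2
    have : P.W ≤ P.T * P.W := Nat.le_mul_of_pos_left _ (by omega)
    omega
  omega

/-- The configurations `conf n` are valid. -/
theorem conf_valid (h : Good P L) (s : Fin k → ZMod L → Bool) {n : ℕ} (hn : n ≤ L + P.m) :
    (inst τ h).Valid s (conf τ P s n) := by
  have : NeZero L := ⟨h.pos.ne'⟩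
  have hb := h.WL
  have hW := h.W2
  have hm := h.m1
  rw [valid_iff]
  refine ⟨fun j => rfl, fun j => ?_⟩
  have hjL := j.val_lt
  have hlz : 1 ≤ j.val → (j + (P.offZ .l : ZMod L)).val = j.val - 1 := val_l1
  have hl0 : j.val = 0 → (j + (P.offZ .l : ZMod L)).val = L - 1 := val_l0 h
  have c1 : ∀ i : ZMod L, (conf τ P s n i).con ≠ none ↔ i.val < n := by
    intro i
    by_cases hi : i.val < n <;> simp [conf, hi]
  have c2 : ∀ i : ZMod L, (conf τ P s n i).out ≠ none ↔ i.val + L < n := by
    intro i
    by_cases hi : i.val + L < n <;> simp [conf, hi]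
  have c1' : ∀ i : ZMod L, (conf τ P s n i).con = none ↔ n ≤ i.val := by
    intro i
    rw [← not_iff_not, ← ne_eq, c1]; omega
  have c2' : ∀ i : ZMod L, (conf τ P s n i).out = none ↔ n ≤ i.val + L := by
    intro i
    rw [← not_iff_not, ← ne_eq, c2]; omega
  have cf : (conf τ P s n j).st.first = decide (j.val = 0) := rfl
  refine ⟨rfl, fun hh => absurd hh (by simp [conf]), fun hf hc => ?_, fun hc => ?_,
    fun hf hc => ?_, fun hf hc => ?_, ?_, ?_, ?_⟩
  · rw [cf, decide_eq_false_iff_not] at hf
    rw [c1] at hc ⊢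
    rw [hlz (by omega)]
    omega
  · rw [c2] at hc
    simp only [conf, Prm.st, decide_eq_true_eq]
    omega
  · rw [cf, decide_eq_true_eq] at hf
    rw [c2] at hc
    rw [c1, hl0 hf]
    omega
  · rw [cf, decide_eq_false_iff_not] at hf
    rw [c2] at hc ⊢
    rw [hlz (by omega)]
    omega
  · show decide (j.val = n ∨ j.val + L = n) = true ↔ _
    rw [decide_eq_true_eq, cf, decide_eq_true_eq, decide_eq_false_iff_not, c1, c2, c1, c1', c2']
    rcases Nat.eq_zero_or_pos j.val with h1 | h1
    · rw [hl0 h1]
      omega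
    · rw [hlz h1]
      omega
  · intro c hc
    have h1 : j.val < n := by
      rw [← c1 j, hc]
      simp
    have h2 : c = cont τ P s j.val := by
      simp only [conf, h1, if_true, Option.some.injEq] at hc
      exact hc.symm
    rw [h2]
    symm
    refine cont_eq h s rfl (fun h3 => ?_) (fun h3 => ?_) (fun h3 => ?_) (fun h3 => ?_)
    · exact conf_val_of s (by omega) (hlz h3)
    · refine conf_val_of s (by omega) ?_
      rw [val_sub j (a := P.W + 1) (by simp only [Prm.offZ]; push_cast; ring) h3]
      omega
    · refine conf_val_of s (by omega) ?_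
      rw [val_sub j (a := P.W) (by simp only [Prm.offZ]) h3]
    · refine conf_val_of s (by omega) ?_
      rw [val_sub j (a := P.W - 1) (by simp only [Prm.offZ]; omega) (by omega)]
      omega
  · intro b hb1
    have h1 : j.val + L < n := by
      rw [← c2 j, hb1]
      simp
    have h2 : b = outv τ P s j.val := by
      simp only [conf, h1, if_true, Option.some.injEq] at hb1
      exact hb1.symm
    rw [h2]
    unfold newOut outv
    have h3 := val_u0 h (j := j) (by omega)
    rw [conf_val_of s (p := (P.T - 1) * P.W + j.val) (by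
      have := (j + (P.offZ .u : ZMod L)).val_lt
      omega) h3]

theorem blank_valid (h : Good P L) (s : Fin k → ZMod L → Bool) :
    (inst τ h).Valid s (blank τ P L) := by
  have : NeZero L := ⟨h.pos.ne'⟩
  rw [valid_iff]
  refine ⟨fun j => rfl, fun j => ?_⟩
  refine ⟨rfl, fun _ => rfl, fun _ hc => absurd rfl hc, fun hc => absurd rfl hc,
    fun _ hc => absurd rfl hc, fun _ hc => absurd rfl hc, ?_,
    fun c hc => by simp [blank] at hc, fun c hc => by simp [blank] at hc⟩
  simp [blank, Prm.st]

/-! ### The valid configurations -/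

/-- Induction along the positions. -/
theorem cyc [NeZero L] (Q : ZMod L → Prop) (h0 : Q 0)
    (hs : ∀ j, Q (j + ((-1 : ℤ) : ZMod L)) → Q j) (j : ZMod L) : Q j := by
  have h1 : ∀ p : ℕ, Q (pt L p) := by
    intro p
    induction p with
    | zero => simpa using h0
    | succ p ih =>
      apply hs
      have : pt L (p + 1) + ((-1 : ℤ) : ZMod L) = pt L p := by
        push_cast
        ring
      rw [this]
      exact ih
  rw [← pt_val j]
  exact h1 _

theorem pt_succ_l (p : ℕ) : pt L (p + 1) + (P.offZ .l : ZMod L) = pt L p := by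
  simp only [Prm.offZ]
  push_cast
  ring

/-- Two monotone facts: if `f` is monotone along the positions then `f` is a prefix. -/
theorem prefix_of [NeZero L] (f : ZMod L → Prop) [DecidablePred f]
    (hf : ∀ j : ZMod L, j.val ≠ 0 → f j → f (j + (P.offZ .l : ZMod L))) :
    ∃ n ≤ L, ∀ j : ZMod L, f j ↔ j.val < n := by
  by_cases hex : ∃ p, p < L ∧ ¬ f (pt L p)
  · refine ⟨Nat.find hex, (Nat.find_spec hex).1.le, ?_⟩
    set n := Nat.find hex with hn
    have h1 : ∀ p, p < n → f (pt L p) := fun p hp => by
      by_contra hc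
      have h3 := (Nat.find_spec hex).1
      exact Nat.find_min hex hp ⟨by omega, hc⟩
    have h2 : ∀ p, n ≤ p → p < L → ¬ f (pt L p) := by
      intro p hp
      induction p, hp using Nat.le_induction with
      | base => exact fun _ => (Nat.find_spec hex).2
      | succ p hp ih =>
        intro hL hc
        have hv : (pt L (p + 1)).val = p + 1 := val_pt hL
        have h3 := hf (pt L (p + 1)) (by omega) hc
        rw [pt_succ_l] at h3
        exact ih (by omega) h3
    intro j
    have hj := j.val_lt
    constructor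
    · intro h3
      by_contra h4
      exact h2 j.val (by omega) hj (by rwa [pt_val])
    · intro h3
      have := h1 _ h3
      rwa [pt_val] at this
  · refine ⟨L, le_rfl, fun j => ⟨fun _ => j.val_lt, fun _ => ?_⟩⟩
    by_contra hc
    exact hex ⟨j.val, j.val_lt, by rwa [pt_val]⟩

/-- **The valid configurations.** -/
theorem valid_cases (h : Good P L) {s : Fin k → ZMod L → Bool} {w : ZMod L → Cell τ.A k}
    (hw : (inst τ h).Valid s w) : w = blank τ P L ∨ ∃ n, n ≤ L + P.m ∧ w = conf τ P s n := by
  classical
  have : NeZero L := ⟨h.pos.ne'⟩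
  have hb := h.WL
  have hW := h.W2
  have hm := h.m1
  rw [valid_iff] at hw
  obtain ⟨hst, hal⟩ := hw
  have hfst : ∀ j, (w j).st.first = decide (j.val = 0) := fun j => by rw [hst]; rfl
  have hfst1 : ∀ j, (w j).st.first = true ↔ j.val = 0 := fun j => by
    rw [hfst, decide_eq_true_eq]
  have hfst2 : ∀ j, (w j).st.first = false ↔ j.val ≠ 0 := fun j => by
    rw [hfst, decide_eq_false_iff_not]
  -- the phase is constant
  have hph : ∀ j, (w j).ph = (w 0).ph := by
    intro j
    refine cyc (fun j => (w j).ph = (w 0).ph) rfl (fun j hj => ?_) j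
    rw [← hj]
    exact (hal j).ph
  -- the filled cells and the cells with output
  obtain ⟨a, haL, ha⟩ := prefix_of (P := P) (fun j => (w j).con ≠ none) (fun j h0 hc =>
    (hal j).pre ((hfst2 j).2 h0) hc)
  obtain ⟨b, hbL, hbb⟩ := prefix_of (P := P) (fun j => (w j).out ≠ none) (fun j h0 hc =>
    (hal j).opre ((hfst2 j).2 h0) hc)
  have ha' : ∀ j, (w j).con = none ↔ a ≤ j.val := fun j => by
    rw [← not_iff_not, ← ne_eq, ha]; omega
  have hbb' : ∀ j, (w j).out = none ↔ b ≤ j.val := fun j => by
    rw [← not_iff_not, ← ne_eq, hbb]; omega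
  have hbm : b ≤ P.m := by
    by_contra hc
    have h1 : (w (pt L P.m)).out ≠ none := (hbb _).2 (by rw [val_pt (by omega)]; omega)
    have h2 := (hal _).oio h1
    rw [hst, val_pt (by omega)] at h2
    simp [Prm.st] at h2
  have hba : b = 0 ∨ a = L := by
    rcases Nat.eq_zero_or_pos b with h1 | h1
    · exact Or.inl h1
    · right
      have h0 : (pt L 0).val = 0 := val_pt h.pos
      have h2 := (hal (pt L 0)).ofirst ((hfst1 _).2 h0) ((hbb _).2 (by omega))
      rw [ha, val_l0 h h0] at h2
      omega
  have hhd : ∀ j : ZMod L, (w j).hd = true ↔ (a ≤ j.val ∧ (j.val = 0 ∨ j.val - 1 < a)) ∨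
      (j.val < a ∧ b ≤ j.val ∧ ((j.val = 0 ∧ L - 1 < a) ∨ (j.val ≠ 0 ∧ j.val - 1 < b))) := by
    intro j
    rw [(hal j).hd, hfst1, hfst2, ha', ha, ha, hbb', hbb]
    rcases Nat.eq_zero_or_pos j.val with h1 | h1
    · rw [val_l0 h h1]
      simp [h1]
    · rw [val_l1 h1]
      omega
  -- contents
  have h3 : ∀ p, p < a → (w (pt L p)).con = some (cont τ P s p) := by
    intro p
    induction p using Nat.strong_induction_on with
    | _ p ih =>
      intro hp
      have hv : (pt L p).val = p := val_pt (by omega)
      have ih' : ∀ j : ZMod L, j.val < p → (w j).val τ = τ.lin P.W (inp P s) j.val := by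
        intro j hj
        have := ih j.val hj (by omega)
        rw [pt_val] at this
        simp [Cell.val, this, cont]
      obtain ⟨c, hc⟩ := Option.ne_none_iff_exists'.1 ((ha (pt L p)).2 (by omega))
      rw [hc, (hal (pt L p)).ok c hc]
      congr 1
      have hz := cont_eq (τ := τ) h s (j := pt L p) (hst (pt L p))
        (l := w (pt L p + (P.offZ .l : ZMod L))) (ul := w (pt L p + (P.offZ .ul : ZMod L)))
        (u := w (pt L p + (P.offZ .u : ZMod L))) (ur := w (pt L p + (P.offZ .ur : ZMod L)))
        (fun h4 => ?_) (fun h4 => ?_) (fun h4 => ?_) (fun h4 => ?_)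
      · rw [hz, hv]
      · rw [ih' _ (by rw [val_l1 h4]; omega), val_l1 h4]
      · have e := val_sub (pt L p) (a := P.W + 1) (z := P.offZ .ul)
          (by simp only [Prm.offZ]; push_cast; ring) h4
        rw [ih' _ (by rw [e]; omega), e]
        congr 1
      · have e := val_sub (pt L p) (a := P.W) (z := P.offZ .u) (by simp only [Prm.offZ]) h4
        rw [ih' _ (by rw [e]; omega), e]
      · have e := val_sub (pt L p) (a := P.W - 1) (z := P.offZ .ur)
          (by simp only [Prm.offZ]; omega) (by omega)
        rw [ih' _ (by rw [e]; omega), e]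
        congr 1
        omega
  have h3' : ∀ j : ZMod L, (w j).con = if j.val < a then some (cont τ P s j.val) else none := by
    intro j
    split_ifs with h4
    · have := h3 _ h4
      rwa [pt_val] at this
    · exact (ha' j).2 (by omega)
  have h5 : ∀ j : ZMod L, (w j).out = if j.val < b then some (outv τ P s j.val) else none := by
    intro j
    split_ifs with h4
    · obtain ⟨c, hc⟩ := Option.ne_none_iff_exists'.1 ((hbb j).2 h4)
      rw [hc, (hal j).okout c hc]
      have h6 : a = L := by omega
      have h7 := val_u0 h (j := j) (by omega)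
      have h8 := (j + (P.offZ .u : ZMod L)).val_lt
      unfold newOut outv Cell.val
      rw [h3' (j + (P.offZ .u : ZMod L)), if_pos (by omega), h7]
      simp [cont]
    · exact (hbb' j).2 (by omega)
  cases hb0 : (w 0).ph with
  | false =>
    left
    have ha0 : a = 0 := by
      have := (hal 0).blank hb0
      rw [ha'] at this
      simpa using this
    have hb1 : b = 0 := by omega
    funext j
    refine Cell.ext (hst j) (by rw [hph, hb0]; rfl) ?_ ?_ ?_
    · show (w j).hd = decide (j.val = 0)
      rw [Bool.eq_iff_iff, hhd j, decide_eq_true_eq]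
      omega
    · rw [h3' j, if_neg (by omega)]; rfl
    · rw [h5 j, if_neg (by omega)]; rfl
  | true =>
    right
    refine ⟨a + b, by omega, ?_⟩
    funext j
    have hj := j.val_lt
    refine Cell.ext (hst j) (by rw [hph, hb0]; rfl) ?_ ?_ ?_
    · show (w j).hd = decide (j.val = a + b ∨ j.val + L = a + b)
      rw [Bool.eq_iff_iff, hhd j, decide_eq_true_eq]
      omega
    · rw [h3' j]
      show _ = if j.val < a + b then _ else _
      by_cases h4 : j.val < a
      · rw [if_pos h4, if_pos (by omega)]
      · rw [if_neg h4, if_neg (by omega)]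
    · rw [h5 j]
      show _ = if j.val + L < a + b then _ else _
      by_cases h4 : j.val < b
      · rw [if_pos h4, if_pos (by omega)]
      · rw [if_neg h4, if_neg (by omega)]

end Vale.Agent.P330.FM.TM
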