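import Mathlib

/-!
# Functional modules: machines with external bits

* `XSpec`: the finite data of a machine whose windows and rules may look at external bits.
* `XInst`: an instance: positions, offsets, static contents, start configuration.
* `XInst.Valid`, `XInst.IsHead`, `XInst.apply`, `XInst.step`: the dynamics for the external bits
  `s : Ext → J → Bool`.
* `XFacts`: what the dynamics has to satisfy.
-/

namespace Vale.Agent.P330.FM

open Finset

/-- The finite data of a machine with external bits. -/
structure XSpec where
  /-- contents of a cell -/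
  Cell : Type
  /-- names of offsets -/
  Off : Type
  /-- static part of a cell -/
  Stat : Type
  /-- names of the external bits of a position -/
  Ext : Type
  /-- windows have `d + 2` slots -/
  d : ℕ
  fCell : Fintype Cell
  dCell : DecidableEq Cell
  fOff : Fintype Off
  dOff : DecidableEq Off
  fStat : Fintype Stat
  dStat : DecidableEq Stat
  fExt : Fintype Ext
  dExt : DecidableEq Ext
  /-- some cell -/
  cell0 : Cell
  /-- the offset zero -/
  zero : Off
  /-- offsets of the slots of a window -/
  win : Fin (d + 2) → Off
  win0 : win 0 = zero
  win1 : win 1 = zero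
  /-- static part -/
  statOf : Cell → Stat
  /-- is the head here? -/
  hd : Cell → Bool
  /-- does the window look at the external bits (of its position)? -/
  dep : (Fin (d + 2) → Cell) → Bool
  /-- allowed windows -/
  allowed : (Ext → Bool) → (Fin (d + 2) → Cell) → Bool
  allowed_dep : ∀ c, dep c = false → ∀ β β', allowed β c = allowed β' c
  allowed01 : ∀ β c, allowed β c = true → c 0 = c 1
  /-- offsets (relative to the head) of the cells that are rewritten -/
  upd : Off → Bool
  /-- does the rule look at the external bits (of the position of the head)? -/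
  depR : Bool → (Off → Cell) → Bool
  /-- the rules: from the external bits at the head and the contents around the head, the map applied
  to all cells and the new contents around the head. `rule false` is the successor, `rule true` the
  predecessor. -/
  rule : Bool → (Ext → Bool) → (Off → Cell) → (Cell → Cell) × (Off → Cell)
  rule_dep : ∀ z g, depR z g = false → ∀ β β', rule z β g = rule z β' g

attribute [instance] XSpec.fCell XSpec.dCell XSpec.fOff XSpec.dOff XSpec.fStat XSpec.dStat
  XSpec.fExt XSpec.dExt

/-- An instance. -/
structure XInst (S : XSpec) where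
  /-- positions -/
  J : Type
  gJ : AddCommGroup J
  fJ : Fintype J
  dJ : DecidableEq J
  /-- values of the offsets -/
  off : S.Off → J
  off_zero : off S.zero = 0
  off_inj : ∀ o o', S.upd o = true → S.upd o' = true → off o = off o' → o = o'
  /-- static contents -/
  stat : J → S.Stat
  /-- start configuration -/
  w0 : J → S.Cell

attribute [instance] XInst.gJ XInst.fJ XInst.dJ

variable {S : XSpec} (I : XInst S)

namespace XInst

/-- A configuration is valid: right static contents, all windows allowed. -/
def Valid (s : S.Ext → I.J → Bool) (w : I.J → S.Cell) : Prop :=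
  (∀ j, S.statOf (w j) = I.stat j) ∧
    ∀ j, S.allowed (fun d => s d j) (fun t => w (j + I.off (S.win t))) = true

/-- `h` is the only position of the head. -/
def IsHead (w : I.J → S.Cell) (h : I.J) : Prop :=
  S.hd (w h) = true ∧ ∀ j, S.hd (w j) = true → j = h

/-- The contents around `h`. -/
def around (w : I.J → S.Cell) (h : I.J) (o : S.Off) : S.Cell := w (h + I.off o)

open Classical in
/-- The rule applied around `h`. -/
noncomputable def apply (s : S.Ext → I.J → Bool) (z : Bool) (w : I.J → S.Cell) (h : I.J) :
    I.J → S.Cell := fun j =>
  if hj : ∃ o, S.upd o = true ∧ j = h + I.off o then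
    (S.rule z (fun d => s d h) (I.around w h)).2 hj.choose
  else (S.rule z (fun d => s d h) (I.around w h)).1 (w j)

open Classical in
/-- One step (`z = false`: successor, `z = true`: predecessor). -/
noncomputable def step (s : S.Ext → I.J → Bool) (z : Bool) (w : I.J → S.Cell) : I.J → S.Cell :=
  if hh : ∃ h, I.IsHead w h then I.apply s z w hh.choose else w

/-- What we need to know about the dynamics. -/
structure Facts (s : S.Ext → I.J → Bool) : Prop where
  valid0 : I.Valid s I.w0
  head : ∀ w, I.Valid s w → ∃ h, I.IsHead w h
  inv : ∀ z w, I.Valid s w → I.Valid s (I.step s z w) → I.step s (!z) (I.step s z w) = w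
  start : ¬ I.Valid s (I.step s true I.w0)

variable {I} {s : S.Ext → I.J → Bool}

theorem IsHead.unique {w : I.J → S.Cell} {h h' : I.J} (H : I.IsHead w h) (H' : I.IsHead w h') :
    h = h' := H'.2 h H.1

/-- The step at a configuration with head `h`. -/
theorem step_of_head {w : I.J → S.Cell} {h : I.J} (H : I.IsHead w h) (z : Bool) :
    I.step s z w = I.apply s z w h := by
  unfold step
  have hh : ∃ h, I.IsHead w h := ⟨h, H⟩
  rw [dif_pos hh, hh.choose_spec.unique H]

theorem apply_upd (z : Bool) (w : I.J → S.Cell) (h : I.J) {o : S.Off} (ho : S.upd o = true) :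
    I.apply s z w h (h + I.off o) = (S.rule z (fun d => s d h) (I.around w h)).2 o := by
  unfold apply
  have hj : ∃ o', S.upd o' = true ∧ h + I.off o = h + I.off o' := ⟨o, ho, rfl⟩
  rw [dif_pos hj]
  have h2 := hj.choose_spec
  have : hj.choose = o := I.off_inj _ _ h2.1 ho (add_left_cancel h2.2).symm
  rw [this]

theorem apply_off (z : Bool) (w : I.J → S.Cell) (h : I.J) {j : I.J}
    (hj : ∀ o, S.upd o = true → j ≠ h + I.off o) :
    I.apply s z w h j = (S.rule z (fun d => s d h) (I.around w h)).1 (w j) := by
  unfold apply
  rw [dif_neg]
  rintro ⟨o, ho, h2⟩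
  exact hj o ho h2

theorem step_upd {w : I.J → S.Cell} {h : I.J} (H : I.IsHead w h) (z : Bool) {o : S.Off}
    (ho : S.upd o = true) :
    I.step s z w (h + I.off o) = (S.rule z (fun d => s d h) (I.around w h)).2 o := by
  rw [step_of_head H, apply_upd z w h ho]

theorem step_off {w : I.J → S.Cell} {h : I.J} (H : I.IsHead w h) (z : Bool) {j : I.J}
    (hj : ∀ o, S.upd o = true → j ≠ h + I.off o) :
    I.step s z w j = (S.rule z (fun d => s d h) (I.around w h)).1 (w j) := by
  rw [step_of_head H, apply_off z w h hj]

/-- Characterisation of the step as a function. -/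
theorem step_eq_iff {w w' : I.J → S.Cell} {h : I.J} (H : I.IsHead w h) (z : Bool) :
    I.step s z w = w' ↔
      (∀ o, S.upd o = true → w' (h + I.off o) = (S.rule z (fun d => s d h) (I.around w h)).2 o) ∧
      ∀ j, (∀ o, S.upd o = true → j ≠ h + I.off o) →
        w' j = (S.rule z (fun d => s d h) (I.around w h)).1 (w j) := by
  constructor
  · rintro rfl
    exact ⟨fun o ho => step_upd H z ho, fun j hj => step_off H z hj⟩
  · rintro ⟨h1, h2⟩
    funext j
    by_cases hj : ∃ o, S.upd o = true ∧ j = h + I.off o
    · obtain ⟨o, ho, rfl⟩ := hj
      rw [step_upd H z ho, h1 o ho]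
    · push Not at hj
      rw [step_off H z hj, h2 j hj]

end XInst

end Vale.Agent.P330.FM
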