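import Vale.Agent.P330.FM.XPub
import Vale.Agent.P330.FM.Absorb
import Vale.Agent.P330.Q.Dom

/-!
# Functional modules: the domain of a machine with external bits

From an extension system (`ESys`), an instance `I` of a machine with external bits, and a numbering
of the positions by addresses we get
* `xker`: the public kernels, with slots for contents of cells and for literals of external bits;
* `xword s`: the external words (the codes of the literals);
* `xdata s`: the data (`DomData`) of the state layer, with the external words absorbed into the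
  kernels;
* `xdom s`: the same with its properties (`Dom`).
-/

namespace Vale.Agent.P330.FM

open Finset Vale.Agent.P330.Q
open Vale.Agent.P330.S (b2)

/-- names of the violation outputs -/
abbrev XVOut (S : XSpec) : Type := {o : XOut S // o.viol = true}

noncomputable instance (S : XSpec) : Fintype (XVOut S) := Fintype.ofFinite _

/-- the output of a chain -/
def xoutOf {S : XSpec} : Chn S.Cell (XVOut S) → XOut S
  | .val i => i.1
  | .id e => .proj e
  | .st z e => .next z e

/-- The dynamics of an instance, for the external bits `s`. -/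
noncomputable def xdyn {S : XSpec} (I : XInst S) (s : S.Ext → I.J → Bool) (hI : I.Facts s) :
    Dyn (I.J → S.Cell) where
  Valid := I.Valid s
  step := I.step s
  w0 := I.w0
  valid0 := hI.valid0
  inv := hI.inv
  start := hI.start

section

variable {F : Type*} [Field F] {h : ℕ} [NeZero h] {Y : Type*} [AddCommGroup Y]
  (D : ESys F h Y) {S : XSpec} {k B : ℕ} (I : XInst S) (σ : XSlot S ≃ Fin B)
  (ε : I.J ≃ Addr k) (s : S.Ext → I.J → Bool) (hI : I.Facts s)

/-- The public kernels. -/
noncomputable def xker (c : Chn S.Cell (XVOut S)) (γ : Fin B → Option (XCt S)) (ρ y : Y) : F :=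
  D.ker (liveG γ) (kerXF F I σ ε (xoutOf c) γ) ρ y

/-- The external words: the codes of the literals. -/
noncomputable def xword (l : S.Ext × Bool) : Y → F := D.code (lit (extA I ε s) l)

/-- The data of the state layer. -/
noncomputable def xdata : DomData F h B Y S.Cell (XVOut S) (I.J → S.Cell) where
  D := xdyn I s hI
  θ := D.θ.toEquiv
  e0 := D.ι (ev 0)
  sh t := shE D (2 * k * t)
  K := absorb (xker D I σ ε) (fun t => shE D (2 * k * t)) (xword D I ε s)
  cd w e := D.code (xcf I ε w e)

/-- the first sum of a chain, over any base -/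
theorem xdata_v0 (c : Chn S.Cell (XVOut S)) (W : S.Cell → Y → F) (ρ y : Y) :
    (xdata D I σ ε s hI).v0 c W ρ y = ∑ γ : Fin B → Option (XCt S), xker D I σ ε c γ ρ y *
      ∏ t : Fin B, optv (Sum.elim (fun e => W e (D.θi (2 * k * t) y))
        fun l => xword D I ε s l (D.θi (2 * k * t) y)) (γ t) := by
  have h1 := sum_absK (fun c g => xker D I σ ε c g ρ y)
    (fun l t => xword D I ε s l (shE D (2 * k * t) y)) (fun t e => W e (shE D (2 * k * t) y)) c
  refine h1.trans ?_
  unfold sumE
  simp only [shE_apply]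

theorem xv0_code (c : Chn S.Cell (XVOut S)) (x : S.Cell → Addr k → F) (ρ y : Y) :
    (xdata D I σ ε s hI).v0 c (fun e => D.code (x e)) ρ y =
      ∑ γ : Fin B → Option (XCt S),
        D.ker (ESys.live fun t => (γ t).map (xarr (extA I ε s) x))
        (kerXF F I σ ε (xoutOf c) γ) ρ y *
          ∏ t : Fin B, D.slotF ((γ t).map (xarr (extA I ε s) x)) t y := by
  rw [xdata_v0]
  apply Finset.sum_congr rfl
  intro γ _
  have h1 : (ESys.live fun t => (γ t).map (xarr (extA I ε s) x)) = liveG γ := by
    ext t
    simp [ESys.live, liveG]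
  rw [h1]
  unfold xker
  congr 1
  apply Finset.prod_congr rfl
  intro t _
  rcases γ t with _ | e | l
  · rfl
  · rfl
  · rfl

theorem xvv_top (c : Chn S.Cell (XVOut S)) (W : S.Cell → Y → F) (ρ y : Y) :
    (xdata D I σ ε s hI).vv c W h ρ y =
      csum D.ι (fun y => (xdata D I σ ε s hI).v0 c W ρ y) y :=
  D.chain_top (fun j y => (xdata D I σ ε s hI).vv c W j ρ y) (fun _ _ _ => rfl) y

theorem xvv_code [CharP F 2] (hB : 2 * k * B ≤ h) (c : Chn S.Cell (XVOut S))
    (x : S.Cell → Addr k → F) (ρ y : Y) :
    (xdata D I σ ε s hI).vv c (fun e => D.code (x e)) h ρ y =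
      D.code (evK (kerXF F I σ ε (xoutOf c)) (xarr (extA I ε s) x)) ρ := by
  rw [xvv_top]
  simp only [xv0_code]
  have h1 : csum D.ι (fun y => ∑ γ : Fin B → Option (XCt S),
      D.ker (ESys.live fun t => (γ t).map (xarr (extA I ε s) x))
        (kerXF F I σ ε (xoutOf c) γ) ρ y *
        ∏ t : Fin B, D.slotF ((γ t).map (xarr (extA I ε s) x)) t y) y =
      ∑ γ : Fin B → Option (XCt S), csum D.ι (fun y =>
        D.ker (ESys.live fun t => (γ t).map (xarr (extA I ε s) x))
          (kerXF F I σ ε (xoutOf c) γ) ρ y *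
        ∏ t : Fin B, D.slotF ((γ t).map (xarr (extA I ε s) x)) t y) y := by
    unfold csum
    rw [Finset.sum_comm]
  rw [h1]
  simp only [D.csum_ker hB]
  rw [← Finset.sum_apply, ← map_sum]
  have h2 : (∑ γ : Fin B → Option (XCt S), fun a => ∑ α : Fin B → Addr k,
      kerXF F I σ ε (xoutOf c) γ a α *
        ∏ t, ESys.slotV (Option.map (xarr (extA I ε s) x) (γ t)) (α t)) =
      evK (kerXF F I σ ε (xoutOf c)) (xarr (extA I ε s) x) := by
    funext a
    rw [Finset.sum_apply]
    unfold evK
    apply Finset.sum_congr rfl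
    intro γ _
    apply Finset.sum_congr rfl
    intro α _
    congr 1
    apply Finset.prod_congr rfl
    intro t _
    cases γ t <;> rfl
  rw [h2]

/-- If the projection chains reproduce `W` then `W` is a family of memory code words. -/
theorem xexists_code (W : S.Cell → Y → F)
    (hW : ∀ e ρ y, (xdata D I σ ε s hI).vv (.id e) W h ρ y = W e ρ) :
    ∃ x : S.Cell → Addr k → F, W = fun e => D.code (x e) := by
  set q : (Fin B → Option (XCt S)) → Y → F := fun γ y =>
    ∏ t : Fin B, optv (Sum.elim (fun e => W e (D.θi (2 * k * t) y))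
        fun l => xword D I ε s l (D.θi (2 * k * t) y)) (γ t) with hq
  have h1 : ∀ e, ∃ x : Addr k → F, W e = D.code x := by
    intro e
    refine ⟨fun a => ∑ γ : Fin B → Option (XCt S), ∑ α,
      kerXF F I σ ε (xoutOf (.id e)) γ a α * ∑ b, mon F (dualS h (liveG γ) α) b *
        q γ (D.ι b), ?_⟩
    funext ρ
    rw [← hW e ρ 0, xvv_top, ESys.csum_ι]
    simp only [xdata_v0]
    rw [Finset.sum_comm]
    have h2 : ∀ γ : Fin B → Option (XCt S), ∑ b, xker D I σ ε (.id e) γ ρ (D.ι b) *
        q γ (D.ι b) =
        D.code (fun a => ∑ α, kerXF F I σ ε (xoutOf (.id e)) γ a α *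
          ∑ b, mon F (dualS h (liveG γ) α) b * q γ (D.ι b)) ρ := fun γ =>
      D.sum_ker_span (liveG γ) (kerXF F I σ ε (xoutOf (.id e)) γ)
        (fun b => q γ (D.ι b)) ρ
    rw [Finset.sum_congr rfl fun γ _ => h2 γ, ← Finset.sum_apply, ← map_sum]
    have h3 : (∑ γ : Fin B → Option (XCt S), fun a : Addr k => ∑ α : Fin B → Addr k,
        kerXF F I σ ε (xoutOf (.id e)) γ a α * ∑ b, mon F (dualS h (liveG γ) α) b *
          q γ (D.ι b)) =
        fun a : Addr k => ∑ γ : Fin B → Option (XCt S), ∑ α : Fin B → Addr k,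
        kerXF F I σ ε (xoutOf (.id e)) γ a α * ∑ b, mon F (dualS h (liveG γ) α) b *
          q γ (D.ι b) := by
      funext a
      rw [Finset.sum_apply]
    rw [h3]
  choose x hx using h1
  exact ⟨x, funext hx⟩

/-- **The domain of the machine**, for the external bits `s`. -/
noncomputable def xdom [CharP F 2] (hB : 2 * k * B ≤ h) (hk : 2 * k ≤ h) :
    Dom F h B Y S.Cell (XVOut S) (I.J → S.Cell) where
  toDomData := xdata D I σ ε s hI
  top_val w hw i ρ y := by
    have h2 : (1 : F) + 1 = 0 := CharTwo.add_self_eq_zero 1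
    have h1 := xvv_code D I σ ε s hI hB (.val i) (xcf I ε w) ρ y
    refine h1.trans ?_
    have h3 : evK (kerXF F I σ ε (xoutOf (.val i))) (xarr (extA I ε s) (xcf I ε w)) = 0 :=
      funext fun a => (evK_viol_iff I σ ε s h2 (xcf I ε w)).2 ⟨w, hw, rfl⟩ i.1 i.2 a
    rw [h3, map_zero]
    rfl
  top_id w hw e ρ y := by
    refine (xvv_code D I σ ε s hI hB (.id e) (xcf I ε w) ρ y).trans ?_
    have h3 : evK (kerXF F I σ ε (xoutOf (.id e))) (xarr (extA I ε s) (xcf I ε w)) =
        xcf I ε w e := funext fun a => evK_proj I σ ε s (xcf I ε w) e a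
    rw [h3]
    rfl
  top_st z w hw e ρ y := by
    refine (xvv_code D I σ ε s hI hB (.st z e) (xcf I ε w) ρ y).trans ?_
    have h3 : evK (kerXF F I σ ε (xoutOf (.st z e))) (xarr (extA I ε s) (xcf I ε w)) =
        xcf I ε (I.step s z w) e := funext fun a => evK_next I σ ε s (hI.head w hw) z e a
    rw [h3]
    rfl
  sound_cd W hid hval := by
    obtain ⟨x, rfl⟩ := xexists_code D I σ ε s hI W hid
    have h2 : (1 : F) + 1 = 0 := CharTwo.add_self_eq_zero 1
    obtain ⟨w, hw, hx⟩ := (evK_viol_iff I σ ε s h2 x).1 (by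
      intro o ho a
      have h3 : D.code (evK (kerXF F I σ ε o) (xarr (extA I ε s) x)) =
          D.code (0 : Addr k → F) := by
        funext ρ
        rw [map_zero]
        exact (xvv_code D I σ ε s hI hB (.val ⟨o, ho⟩) x ρ 0).symm.trans (hval ⟨o, ho⟩ ρ 0)
      exact congrFun (D.code_inj hk h3) a)
    refine ⟨w, hw, ?_⟩
    subst hx
    rfl
  cd_inj w w' hww := by
    apply xcf_inj (F := F) I ε
    funext e
    exact D.code_inj hk (congrFun hww e)

end

end Vale.Agent.P330.FM
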