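import Vale.Agent.P330.Q.AE

/-!
# Functional modules: networks whose averages may have their own parameter

`XDef`: Boolean functions of bits, thresholds, resolvent averages (with the common parameter `lam` or
with an own one).  `XDef.Rel`: a register obeys its definition.  `XDef.map`: renaming of the
registers.  `ra_glob_small`, `ra_pad_small`: resolvent averages compute averages if all parameters
are small.
-/

namespace Vale.Agent.P330.FM

open Finset PCP.AR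
open H855 (mean)
open S (BitDef MDef Sem IsB)

/-- Definition of a register. -/
inductive XDef (Reg Rd CB : Type)
  | bit (B : BitDef Reg Rd CB)
  | thr (α : ℚ) (ρ : Reg)
  /-- resolvent average over the pads (`false`) or over all sites (`true`), with the parameter `own`
  or with the common one -/
  | ra (own : Option ℚ) (glob : Bool) (ρ : Reg)

/-- The register `ρ` obeys its definition at the site `ω`. -/
def XDef.Rel {Reg Rd CB Ω : Type} (E : Sem Rd CB Ω) (ε lam : ℝ) (x : Reg → Ω → ℝ) (ρ : Reg) (ω : Ω) :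
    XDef Reg Rd CB → Prop
  | .bit B => (MDef.bit B).Rel E ε lam x ρ ω
  | .thr α ρ' => (MDef.thr α ρ' : MDef Reg Rd CB).Rel E ε lam x ρ ω
  | .ra own g ρ' => (MDef.ra g ρ' : MDef Reg Rd CB).Rel E ε (own.elim lam fun q => (q : ℝ)) x ρ ω

/-- Renaming in a Boolean function. -/
def mapBit {Reg Reg' Rd Rd' CB CB' : Type} (f : Reg → Reg') (r : Rd → Rd') (c : CB → CB')
    (B : BitDef Reg Rd CB) : BitDef Reg' Rd' CB' where
  ι := B.ι
  fι := B.fι
  inp i := match B.inp i with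
    | .inl p => .inl (r p.1, f p.2)
    | .inr κ => .inr (c κ)
  f := B.f

/-- Renaming. -/
def XDef.map {Reg Reg' Rd Rd' CB CB' : Type} (f : Reg → Reg') (r : Rd → Rd') (c : CB → CB') :
    XDef Reg Rd CB → XDef Reg' Rd' CB'
  | .bit B => .bit (mapBit f r c B)
  | .thr α ρ => .thr α (f ρ)
  | .ra own g ρ => .ra own g (f ρ)

theorem XDef.map_rel {Reg Reg' Rd Rd' CB CB' Ω : Type} (f : Reg → Reg') (r : Rd → Rd')
    (c : CB → CB') (E : Sem Rd' CB' Ω) (ε lam : ℝ) (x : Reg' → Ω → ℝ) (ρ : Reg) (ω : Ω)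
    (d : XDef Reg Rd CB) :
    (d.map f r c).Rel E ε lam x (f ρ) ω ↔
      d.Rel ⟨fun R => E.rd (r R), fun κ => E.cb (c κ), E.nb⟩ ε lam (fun ρ => x (f ρ)) ρ ω := by
  cases d with
  | bit B =>
    simp only [XDef.map, XDef.Rel, MDef.Rel, mapBit]
    have h : ∀ (y : B.ι → Bool) (i : B.ι),
        (Sum.elim (fun p : Rd' × Reg' => ∀ b', IsB ε b' (x p.2 (E.rd p.1 ω)) → y i = b')
          (fun κ => y i = E.cb κ ω) (match B.inp i with
            | .inl p => .inl (r p.1, f p.2)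
            | .inr κ => .inr (c κ)) : Prop) ↔
        Sum.elim (fun p : Rd × Reg => ∀ b', IsB ε b' (x (f p.2) (E.rd (r p.1) ω)) → y i = b')
          (fun κ => y i = E.cb (c κ) ω) (B.inp i) := by
      intro y i
      rcases B.inp i with p | κ <;> rfl
    exact forall_congr' fun b => imp_congr (forall_congr' fun y =>
      imp_congr (forall_congr' fun i => h y i) Iff.rfl) Iff.rfl
  | thr α ρ' => exact Iff.rfl
  | ra own g ρ' => exact Iff.rfl

/-! ### Bits -/

theorem not_isB_both {ε t : ℝ} (hε : ε < 1 / 2) {b b' : Bool} (h : IsB ε b t) (h' : IsB ε b' t) :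
    b = b' := by
  unfold IsB at h h'
  cases b <;> cases b' <;> simp_all <;> linarith

/-- The value of a Boolean function of known bits. -/
theorem rel_bit {Reg Rd CB Ω : Type} {E : Sem Rd CB Ω} {ε lam : ℝ} {x : Reg → Ω → ℝ} {ρ : Reg}
    {ω : Ω} {B : BitDef Reg Rd CB} (h : (XDef.bit B).Rel E ε lam x ρ ω) (b : Bool)
    (hb : ∀ y : B.ι → Bool, (∀ i, Sum.elim (fun p : Rd × Reg =>
      ∀ b', IsB ε b' (x p.2 (E.rd p.1 ω)) → y i = b') (fun κ => y i = E.cb κ ω) (B.inp i)) →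
        B.f y = b) : IsB ε b (x ρ ω) := h b hb

/-- The value of a Boolean function if all bits are known. -/
theorem rel_bit_all {Reg Rd CB Ω : Type} {E : Sem Rd CB Ω} {ε lam : ℝ} {x : Reg → Ω → ℝ} {ρ : Reg}
    {ω : Ω} {B : BitDef Reg Rd CB} (h : (XDef.bit B).Rel E ε lam x ρ ω) (v : Rd → Reg → Bool)
    (hv : ∀ i R r, B.inp i = .inl (R, r) → IsB ε (v R r) (x r (E.rd R ω))) :
    IsB ε (B.f fun i => Sum.elim (fun p : Rd × Reg => v p.1 p.2) (fun κ => E.cb κ ω) (B.inp i))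
      (x ρ ω) := by
  refine rel_bit h _ fun y hy => ?_
  congr 1
  funext i
  have h1 := hy i
  rcases hi : B.inp i with ⟨R, r⟩ | κ
  · rw [hi] at h1
    exact h1 _ (hv i R r hi)
  · rw [hi] at h1
    exact h1

/-! ### Small parameters -/

/-- The parameters `ε`, `lam`, `β` are small. -/
structure Small (η ε lam β : ℝ) : Prop where
  ε_pos : 0 < ε
  lam_pos : 0 < lam
  lam_le : lam ≤ η
  ε_le : ε ≤ η * lam
  β_le : β ≤ η * lam

theorem Small.mono {η η' ε lam β : ℝ} (h : η ≤ η') (hs : Small η ε lam β) : Small η' ε lam β :=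
  ⟨hs.ε_pos, hs.lam_pos, hs.lam_le.trans h, hs.ε_le.trans (mul_le_mul_of_nonneg_right h hs.lam_pos.le),
    hs.β_le.trans (mul_le_mul_of_nonneg_right h hs.lam_pos.le)⟩

section RA

variable {V W : Type} [Fintype V] [Nonempty V] [Fintype W] [Nonempty W]

/-- An elementary estimate: everything in the error terms is as small as we like. -/
theorem exists_small {C δ : ℝ} (hC : 0 ≤ C) (hδ : 0 < δ) :
    ∃ η : ℝ, 0 < η ∧ η ≤ 1 ∧ 42 * η ≤ δ ∧ 42 * η * C ≤ δ := by
  refine ⟨min 1 (δ / (42 * (C + 1))), lt_min one_pos (by positivity), min_le_left _ _, ?_, ?_⟩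
  · have h1 : min 1 (δ / (42 * (C + 1))) ≤ δ / (42 * (C + 1)) := min_le_right _ _
    have h2 : 42 * (δ / (42 * (C + 1))) = δ / (C + 1) := by field_simp
    have h3 : δ / (C + 1) ≤ δ := div_le_self hδ.le (by linarith)
    linarith
  · have h1 : min 1 (δ / (42 * (C + 1))) ≤ δ / (42 * (C + 1)) := min_le_right _ _
    have h2 : 42 * (δ / (42 * (C + 1))) * C = δ * (C / (C + 1)) := by field_simp
    have h3 : C / (C + 1) ≤ 1 := (div_le_one (by linarith)).2 (by linarith)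
    have h4 : 42 * min 1 (δ / (42 * (C + 1))) * C ≤ 42 * (δ / (42 * (C + 1))) * C :=
      mul_le_mul_of_nonneg_right (by linarith) hC
    nlinarith

/-- **Averaging over all sites**, for small parameters. -/
theorem ra_glob_small {g δ : ℝ} (hg0 : 0 ≤ g) (hg1 : g < 1) (hδ : 0 < δ) :
    ∃ η : ℝ, 0 < η ∧ ∀ {V W : Type} [Fintype V] [Nonempty V] [Fintype W] [Nonempty W]
      {s : Fin 4 → V ≃ V} {t : Fin 4 → W ≃ W}, H855.Gap s g → H855.Gap t g →
      ∀ {nb : Fin 8 → V × W → V × W},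
      (∀ k ω, nb k ω = if h : (k : ℕ) < 4 then (ω.1, t ⟨k, h⟩ ω.2)
        else (s ⟨k - 4, by omega⟩ ω.1, ω.2)) →
      ∀ {w b : V × W → ℝ}, (∀ ω, 0 ≤ w ω ∧ w ω ≤ 1) → (∀ ω, 0 ≤ b ω ∧ b ω ≤ 1) →
      ∀ {ε lam β : ℝ}, Small η ε lam β →
      pr (fun ω => ¬ |w ω - ((1 - lam) * ((∑ k : Fin 8, w (nb k ω)) / 8) + lam * b ω)| ≤
        20 * ε) ≤ β → pr (fun ω => δ < |w ω - mean b|) ≤ δ := by
  have hg2 : 0 < 1 - (1 + g) / 2 := by linarith
  obtain ⟨η, h0, h1, h2, h3⟩ := exists_small (C := 8 / (1 - (1 + g) / 2) ^ 2 * (402 / δ ^ 2))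
    (δ := δ) (by positivity) hδ
  refine ⟨η, h0, ?_⟩
  intro V W _ _ _ _ s t hs ht nb hnb w b hw hb ε lam β hsm h
  have hl1 : lam ≤ 1 := hsm.lam_le.trans h1
  have hβ0 : 0 ≤ β := (pr_nonneg _).trans h
  have e1 : ε ≤ η := hsm.ε_le.trans (by nlinarith [hsm.lam_pos])
  have e2 : β ≤ η := hsm.β_le.trans (by nlinarith [hsm.lam_pos])
  refine (Q.ra_glob_pr hs ht hg0 hg1 hnb hw hb hsm.lam_pos hl1 (by linarith [hsm.ε_pos]) hδ h
    ?_).trans ?_
  · have a1 := hsm.ε_le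
    have a2 := hsm.β_le
    have a3 : 42 * η * lam ≤ δ * lam := mul_le_mul_of_nonneg_right h2 hsm.lam_pos.le
    linarith
  · have b1 : lam ^ 2 ≤ η := by
      have := hsm.lam_le
      have := hsm.lam_pos
      nlinarith
    have b2 : (20 * ε) ^ 2 ≤ 400 * η := by
      have := hsm.ε_pos
      nlinarith
    have b3 : lam ^ 2 + β + (20 * ε) ^ 2 ≤ 402 * η := by linarith
    have b4 : 8 / (1 - (1 + g) / 2) ^ 2 * ((lam ^ 2 + β + (20 * ε) ^ 2) / δ ^ 2) ≤
        8 / (1 - (1 + g) / 2) ^ 2 * ((402 * η) / δ ^ 2) := by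
      gcongr
    refine b4.trans ?_
    have b5 : 8 / (1 - (1 + g) / 2) ^ 2 * ((402 * η) / δ ^ 2) =
        η * (8 / (1 - (1 + g) / 2) ^ 2 * (402 / δ ^ 2)) := by ring
    rw [b5]
    have b6 : 0 ≤ 8 / (1 - (1 + g) / 2) ^ 2 * (402 / δ ^ 2) := by positivity
    nlinarith [mul_nonneg h0.le b6]

/-- **Averaging over the pads**, for small parameters. -/
theorem ra_pad_small {g δ : ℝ} (hg0 : 0 ≤ g) (hg1 : g < 1) (hδ : 0 < δ) :
    ∃ η : ℝ, 0 < η ∧ ∀ {V W : Type} [Fintype V] [Nonempty V] [Fintype W] [Nonempty W]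
      {t : Fin 4 → W ≃ W}, H855.Gap t g →
      ∀ {w b : V × W → ℝ}, (∀ ω, 0 ≤ w ω ∧ w ω ≤ 1) → (∀ ω, 0 ≤ b ω ∧ b ω ≤ 1) →
      ∀ {ε lam β : ℝ}, Small η ε lam β →
      pr (fun ω : V × W => ¬ |w ω - ((1 - lam) * ((w (ω.1, t 0 ω.2) + w (ω.1, t 1 ω.2) +
        w (ω.1, t 2 ω.2) + w (ω.1, t 3 ω.2)) / 4) + lam * b ω)| ≤ 20 * ε) ≤ β →
      pr (fun ω : V × W => δ < |w ω - mean fun z => b (ω.1, z)|) ≤ δ := by
  have hg2 : 0 < 1 - g := by linarith
  set δ' : ℝ := min (δ / 4) 1 with hδ'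
  have hδ'0 : 0 < δ' := lt_min (by linarith) one_pos
  set C : ℝ := 8 / (1 - g) ^ 2 * (402 / δ ^ 2) + 1 / δ' + 1 / δ with hC
  have hC0 : 0 ≤ C := by rw [hC]; positivity
  obtain ⟨η, h0, h1, h2, h3⟩ := exists_small (C := C) (δ := δ / 2) hC0 (half_pos hδ)
  refine ⟨η, h0, ?_⟩
  intro V W _ _ _ _ t ht w b hw hb ε lam β hsm h
  have hl1 : lam ≤ 1 := hsm.lam_le.trans h1
  have hβ0 : 0 ≤ β := (pr_nonneg _).trans h
  have e1 : ε ≤ η := hsm.ε_le.trans (by nlinarith [hsm.lam_pos])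
  have hd : 0 < δ' * lam := mul_pos hδ'0 hsm.lam_pos
  refine (Q.ra_pad_pr ht hg0 hg1 hw hb hsm.lam_pos hl1 (by linarith [hsm.ε_pos]) hδ
    hd h ?_).trans ?_
  · have a1 := hsm.ε_le
    have a3 : 42 * η * lam ≤ δ / 2 * lam := mul_le_mul_of_nonneg_right h2 hsm.lam_pos.le
    have a4 : δ' * lam ≤ δ / 4 * lam := mul_le_mul_of_nonneg_right (min_le_left _ _) hsm.lam_pos.le
    linarith
  · have b1 : lam ^ 2 ≤ η := by
      have := hsm.lam_le
      have := hsm.lam_pos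
      nlinarith
    have b2 : (20 * ε) ^ 2 ≤ 400 * η := by
      have := hsm.ε_pos
      nlinarith
    have b0 : δ' * lam ≤ η := by
      have := hsm.lam_le
      have h5 : δ' ≤ 1 := min_le_right _ _
      have := hsm.lam_pos
      nlinarith
    have b3 : lam ^ 2 + δ' * lam + (20 * ε) ^ 2 ≤ 402 * η := by linarith
    have b4 : 8 / (1 - g) ^ 2 * ((lam ^ 2 + δ' * lam + (20 * ε) ^ 2) / δ ^ 2) ≤
        8 / (1 - g) ^ 2 * ((402 * η) / δ ^ 2) := by
      gcongr
    have b5 : 8 / (1 - g) ^ 2 * ((402 * η) / δ ^ 2) =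
        η * (8 / (1 - g) ^ 2 * (402 / δ ^ 2)) := by ring
    have b6 : β / (δ' * lam) ≤ η * (1 / δ') := by
      rw [div_le_iff₀ hd]
      have : η * (1 / δ') * (δ' * lam) = η * lam := by field_simp
      rw [this]
      exact hsm.β_le
    have b7 : 0 ≤ η * (1 / δ) := by positivity
    have b8 : η * C = η * (8 / (1 - g) ^ 2 * (402 / δ ^ 2)) + η * (1 / δ') + η * (1 / δ) := by
      rw [hC]; ring
    have b9 : 0 ≤ η * C := by positivity
    rw [b5] at b4
    linarith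

end RA

end Vale.Agent.P330.FM
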